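import Mathlib
import Vale.Agent.P105.SalemDefs
import Vale.Agent.P105.Defs

set_option linter.all false

section

section

/-!
# Admissible triples
-/

open MeasureTheory Real Filter Topology
open scoped ENNReal

namespace Vale.Agent.P105.Salem

variable {b : ℝ} {ζ : ℂ}

theorem adm_one (_hi : IsIntegral ℤ b)
    (hT : ∀ n : ℤ, ∃ k : ℤ, b ^ n + b ^ (-n) + 2 * (ζ ^ n).re = k) : Adm b ζ 1 1 1 := by
  refine ⟨fun m => ?_, isIntegral_one, isIntegral_one⟩
  simpa only [mul_one, zpow_neg] using hT m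

theorem Adm.step (hb : 1 < b) (hζ : ‖ζ‖ = 1) (hi : IsIntegral ℤ b) (hi' : IsIntegral ℤ b⁻¹)
    {u s : ℝ} {w : ℂ} (h : Adm b ζ u s w) (g : ℕ) :
    Adm b ζ ((b ^ g - 1) * u) ((b⁻¹ ^ g - 1) * s) ((ζ ^ g - 1) * w) := by
  have hb0 : b ≠ 0 := by positivity
  have hζ0 : ζ ≠ 0 := by
    intro h0
    rw [h0, norm_zero] at hζ
    norm_num at hζ
  refine ⟨fun m => ?_, ((hi.pow g).sub isIntegral_one).mul h.iu,
    ((hi'.pow g).sub isIntegral_one).mul h.is⟩
  obtain ⟨k₁, hk₁⟩ := h.int (m + g)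
  obtain ⟨k₂, hk₂⟩ := h.int m
  refine ⟨k₁ - k₂, ?_⟩
  push_cast
  rw [← hk₁, ← hk₂]
  have e1 : b ^ (m + (g : ℤ)) = b ^ m * b ^ g := by
    rw [zpow_add₀ hb0, zpow_natCast]
  have e2 : b ^ (-(m + (g : ℤ))) = b ^ (-m) * b⁻¹ ^ g := by
    rw [neg_add, zpow_add₀ hb0, zpow_neg b (g : ℤ), zpow_natCast, inv_pow]
  have e3 : ζ ^ (m + (g : ℤ)) = ζ ^ m * ζ ^ g := by
    rw [zpow_add₀ hζ0, zpow_natCast]
  rw [e1, e2, e3]
  have e4 : (ζ ^ m * ((ζ ^ g - 1) * w)).re = (ζ ^ m * ζ ^ g * w).re - (ζ ^ m * w).re := by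
    rw [← Complex.sub_re]
    congr 1
    ring
  rw [e4]
  ring

/-- An algebraic integer is never a half-integer. -/
theorem cos_pi_mul_ne_zero {x : ℝ} (hx : IsIntegral ℤ x) : cos (π * x) ≠ 0 := by
  intro h
  rw [cos_eq_zero_iff] at h
  obtain ⟨k, hk⟩ := h
  have hx2 : x = ((2 * k + 1 : ℤ) / (2 : ℤ) : ℚ) := by
    have hpi : π ≠ 0 := pi_ne_zero
    push_cast
    field_simp at hk
    linarith only [hk]
  have hq : IsIntegral ℤ (((2 * k + 1 : ℤ) / (2 : ℤ) : ℚ)) := by
    rw [hx2] at hx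
    have : IsIntegral ℤ (algebraMap ℚ ℝ (((2 * k + 1 : ℤ) / (2 : ℤ) : ℚ))) := by
      simpa only [Int.cast_add, Int.cast_mul, Int.cast_ofNat, Int.cast_one, map_div₀, eq_ratCast, Rat.cast_add,     Rat.cast_mul, Rat.cast_ofNat, Rat.cast_intCast, Rat.cast_one, Rat.cast_div] using hx
    exact (isIntegral_algebraMap_iff (algebraMap ℚ ℝ).injective).1 this
  obtain ⟨n, hn⟩ := IsIntegrallyClosed.isIntegral_iff.1 hq
  have h1 : ((n : ℤ) : ℚ) = ((2 * k + 1 : ℤ) / (2 : ℤ) : ℚ) := by simpa using hn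
  have h2 : (2 * n : ℤ) = 2 * k + 1 := by
    have : (2 * n : ℚ) = 2 * k + 1 := by
      rw [h1]
      push_cast
      ring
    exact_mod_cast this
  omega

theorem isIntegral_zpow (hi : IsIntegral ℤ b) (hi' : IsIntegral ℤ b⁻¹) (m : ℤ) :
    IsIntegral ℤ (b ^ m) := by
  obtain ⟨n, rfl | rfl⟩ := m.eq_nat_or_neg
  · rw [zpow_natCast]
    exact hi.pow n
  · rw [zpow_neg, zpow_natCast, ← inv_pow]
    exact hi'.pow n

theorem Adm.cos_u_ne (_hb : 1 < b) (hi : IsIntegral ℤ b) (hi' : IsIntegral ℤ b⁻¹)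
    {u s : ℝ} {w : ℂ} (h : Adm b ζ u s w) (m : ℤ) : cos (π * (b ^ m * u)) ≠ 0 :=
  cos_pi_mul_ne_zero ((isIntegral_zpow hi hi' m).mul h.iu)

theorem Adm.cos_s_ne (_hb : 1 < b) (hi : IsIntegral ℤ b) (hi' : IsIntegral ℤ b⁻¹)
    {u s : ℝ} {w : ℂ} (h : Adm b ζ u s w) (m : ℤ) : cos (π * (b ^ (-m) * s)) ≠ 0 :=
  cos_pi_mul_ne_zero ((isIntegral_zpow hi hi' (-m)).mul h.is)

/-- If `x + y` is an integer then `|cos (π x)| = |cos (π y)|`. -/
theorem abs_cos_eq_of_add_int {x y : ℝ} (h : ∃ k : ℤ, x + y = k) :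
    |cos (π * x)| = |cos (π * y)| := by
  obtain ⟨k, hk⟩ := h
  have hx : π * x = k * π - π * y := by
    have : x = k - y := by linarith only [hk]
    rw [this]
    ring
  rw [hx, cos_int_mul_pi_sub, abs_mul]
  rcases Int.even_or_odd k with he | ho
  · simp [he.neg_one_zpow]
  · simp only [ho.neg_one_zpow, abs_neg, abs_one, one_mul]

/-- The cosine is `1`-Lipschitz. -/
theorem abs_cos_sub_le (x y : ℝ) : |cos x| - |x - y| ≤ |cos y| := by
  have h1 : |cos x - cos y| ≤ |x - y| := by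
    have := Real.abs_cos_sub_cos_le x y
    exact this
  have h2 : |cos x| - |cos y| ≤ |cos x - cos y| := abs_sub_abs_le_abs_sub _ _
  linarith

theorem norm_zeta_zpow (hζ : ‖ζ‖ = 1) (m : ℤ) : ‖ζ ^ m‖ = 1 := by
  rw [norm_zpow, hζ, one_zpow]

theorem abs_re_zeta_le (hζ : ‖ζ‖ = 1) {w : ℂ} {ρ : ℝ} (hw : ‖w‖ ≤ ρ) (m : ℤ) :
    |2 * (ζ ^ m * w).re| ≤ 2 * ρ := by
  rw [abs_mul, abs_two]
  have h1 : |(ζ ^ m * w).re| ≤ ‖ζ ^ m * w‖ := Complex.abs_re_le_norm _
  rw [norm_mul, norm_zeta_zpow hζ, one_mul] at h1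
  linarith

end Vale.Agent.P105.Salem
end
end

section

section

/-!
# One step of the construction: lower bounds for the cosines
-/

open MeasureTheory Real Filter Topology
open scoped ENNReal

namespace Vale.Agent.P105.Salem

variable {b : ℝ} {ζ : ℂ}

theorem abs_zpow_mul_le (hb : 1 < b) {u : ℝ} {D : ℕ} (hu0 : 0 < u) (huD : u ≤ b ^ D) (m : ℤ) :
    |b ^ m * u| ≤ b ^ (m + D) := by
  have hb0 : 0 < b := by linarith
  rw [abs_of_pos (by positivity), zpow_add₀ hb0.ne', zpow_natCast]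
  exact mul_le_mul_of_nonneg_left huD (by positivity)

theorem abs_zpow_mul_le_inv (hb : 1 < b) {u : ℝ} {D : ℕ} (hu0 : 0 < u) (huD : u ≤ b ^ D)
    {m : ℤ} (hm : m ≤ -(2 * (D : ℤ))) : |b ^ m * u| ≤ (b ^ D)⁻¹ := by
  refine (abs_zpow_mul_le hb hu0 huD m).trans ?_
  rw [← zpow_natCast, ← zpow_neg]
  exact zpow_le_zpow_right₀ hb.le (by linarith)

theorem abs_zpow_neg_mul_le (hb : 1 < b) {s : ℝ} (hs : |s| ≤ 1) (n : ℤ) :
    |b ^ (-n) * s| ≤ b ^ (-n) := by
  have hb0 : 0 < b := by linarith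
  rw [abs_mul, abs_of_pos (by positivity : 0 < b ^ (-n))]
  exact mul_le_of_le_one_right (by positivity) hs

theorem abs_zpow_neg_mul_le_inv (hb : 1 < b) {s : ℝ} (hs : |s| ≤ 1) {D : ℕ} {n : ℤ}
    (hn : (D : ℤ) ≤ n) : |b ^ (-n) * s| ≤ (b ^ D)⁻¹ := by
  refine (abs_zpow_neg_mul_le hb hs n).trans ?_
  rw [← zpow_natCast, ← zpow_neg]
  exact zpow_le_zpow_right₀ hb.le (by linarith only [hn])

theorem step_u_eq (hb : 1 < b) (u : ℝ) (g : ℕ) (m : ℤ) :
    b ^ m * ((b ^ g - 1) * u) = b ^ (m + (g : ℤ)) * u - b ^ m * u := by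
  have hb0 : b ≠ 0 := by positivity
  rw [zpow_add₀ hb0, zpow_natCast]
  ring

theorem step_s_eq (hb : 1 < b) (s : ℝ) (g : ℕ) (m : ℤ) :
    b ^ (-m) * ((b⁻¹ ^ g - 1) * s) = b ^ (-(m + (g : ℤ))) * s - b ^ (-m) * s := by
  have hb0 : b ≠ 0 := by positivity
  rw [neg_add, zpow_add₀ hb0, zpow_neg b (g : ℤ), zpow_natCast, inv_pow]
  ring

theorem abs_cos_pi_sub_le (x y e : ℝ) (h : |x - y| ≤ e) :
    |cos (π * x)| - π * e ≤ |cos (π * y)| := by
  have h1 := abs_cos_sub_le (π * x) (π * y)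
  have h2 : |π * x - π * y| ≤ π * e := by
    rw [← mul_sub, abs_mul, abs_of_pos pi_pos]
    exact mul_le_mul_of_nonneg_left h pi_pos.le
  linarith

/-- (L5) the lower bound for the cosines survives a step. -/
theorem Adm.cos_step (hb : 1 < b) (hζ : ‖ζ‖ = 1) {u s : ℝ} {w : ℂ} (h : Adm b ζ u s w)
    {D g : ℕ} {c ρ' : ℝ} (hg : 4 * D ≤ g) (_hD : 1 ≤ D) (hu0 : 0 < u) (huD : u ≤ b ^ D)
    (hs : |s| ≤ 1) (hw : ‖(ζ ^ g - 1) * w‖ ≤ ρ') (hi : IsIntegral ℤ b) (hi' : IsIntegral ℤ b⁻¹)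
    (hcu : ∀ m : ℤ, c ≤ |cos (π * (b ^ m * u))|)
    (hcs : ∀ m : ℤ, c ≤ |cos (π * (b ^ (-m) * s))|) :
    (∀ m : ℤ, c - π * ((b ^ D)⁻¹ + 2 * ρ') ≤ |cos (π * (b ^ m * ((b ^ g - 1) * u)))|) ∧
    (∀ m : ℤ, c - π * ((b ^ D)⁻¹ + 2 * ρ') ≤ |cos (π * (b ^ (-m) * ((b⁻¹ ^ g - 1) * s)))|) := by
  have hE : 0 < (b ^ D)⁻¹ := by positivity
  have hρ' : 0 ≤ ρ' := (norm_nonneg _).trans hw
  have h' := h.step hb hζ hi hi' g
  have hr : ∀ m : ℤ, |2 * (ζ ^ m * ((ζ ^ g - 1) * w)).re| ≤ 2 * ρ' :=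
    fun m => abs_re_zeta_le hζ hw m
  have hgZ : (4 * (D : ℤ)) ≤ g := by exact_mod_cast hg
  have hDnn : (0 : ℤ) ≤ D := Int.natCast_nonneg D
  constructor
  · intro m
    rcases le_or_gt m (-(2 * (D : ℤ))) with hm | hm
    · have h1 := abs_zpow_mul_le_inv hb hu0 huD hm
      have h2 : |b ^ (m + (g : ℤ)) * u - b ^ m * ((b ^ g - 1) * u)| ≤ (b ^ D)⁻¹ + 2 * ρ' := by
        rw [step_u_eq hb]
        have : b ^ (m + (g : ℤ)) * u - (b ^ (m + (g : ℤ)) * u - b ^ m * u) = b ^ m * u := by ring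
        rw [this]
        linarith only [hρ', h1]
      have h3 := abs_cos_pi_sub_le _ _ _ h2
      linarith only [h3, hcu (m + g)]
    · have e1 : |cos (π * (b ^ m * ((b ^ g - 1) * u)))| =
          |cos (π * (b ^ (-m) * ((b⁻¹ ^ g - 1) * s) +
            2 * (ζ ^ m * ((ζ ^ g - 1) * w)).re))| := by
        apply abs_cos_eq_of_add_int
        obtain ⟨k, hk⟩ := h'.int m
        exact ⟨k, by rw [← hk]; ring⟩
      rw [e1]
      have h1 : |b ^ (-(m + (g : ℤ))) * s| ≤ (b ^ D)⁻¹ :=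
        abs_zpow_neg_mul_le_inv hb hs (by linarith only [hg, hm])
      have h2 : |(-(b ^ (-m) * s)) - (b ^ (-m) * ((b⁻¹ ^ g - 1) * s) +
            2 * (ζ ^ m * ((ζ ^ g - 1) * w)).re)| ≤ (b ^ D)⁻¹ + 2 * ρ' := by
        rw [step_s_eq hb]
        have : (-(b ^ (-m) * s)) - (b ^ (-(m + (g : ℤ))) * s - b ^ (-m) * s +
            2 * (ζ ^ m * ((ζ ^ g - 1) * w)).re) =
            -(b ^ (-(m + (g : ℤ))) * s + 2 * (ζ ^ m * ((ζ ^ g - 1) * w)).re) := by ring
        rw [this, abs_neg]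
        exact (abs_add_le _ _).trans (add_le_add h1 (hr m))
      have h3 := abs_cos_pi_sub_le _ _ _ h2
      have h4 : |cos (π * -(b ^ (-m) * s))| = |cos (π * (b ^ (-m) * s))| := by
        rw [mul_neg, cos_neg]
      rw [h4] at h3
      linarith only [h3, hcs m]
  · intro m
    rcases le_or_gt m (-(2 * (D : ℤ))) with hm | hm
    · have e1 : |cos (π * (b ^ (-m) * ((b⁻¹ ^ g - 1) * s)))| =
          |cos (π * (b ^ m * ((b ^ g - 1) * u) +
            2 * (ζ ^ m * ((ζ ^ g - 1) * w)).re))| := by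
        apply abs_cos_eq_of_add_int
        obtain ⟨k, hk⟩ := h'.int m
        exact ⟨k, by rw [← hk]; ring⟩
      rw [e1]
      have h1 := abs_zpow_mul_le_inv hb hu0 huD hm
      have h2 : |b ^ (m + (g : ℤ)) * u - (b ^ m * ((b ^ g - 1) * u) +
            2 * (ζ ^ m * ((ζ ^ g - 1) * w)).re)| ≤ (b ^ D)⁻¹ + 2 * ρ' := by
        rw [step_u_eq hb]
        have : b ^ (m + (g : ℤ)) * u - (b ^ (m + (g : ℤ)) * u - b ^ m * u +
            2 * (ζ ^ m * ((ζ ^ g - 1) * w)).re) =
            b ^ m * u + -(2 * (ζ ^ m * ((ζ ^ g - 1) * w)).re) := by ring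
        rw [this]
        refine (abs_add_le _ _).trans (add_le_add h1 ?_)
        rw [abs_neg]
        exact hr m
      have h3 := abs_cos_pi_sub_le _ _ _ h2
      linarith only [h3, hcu (m + g)]
    · have h1 : |b ^ (-(m + (g : ℤ))) * s| ≤ (b ^ D)⁻¹ :=
        abs_zpow_neg_mul_le_inv hb hs (by linarith only [hg, hm])
      have h2 : |(-(b ^ (-m) * s)) - (b ^ (-m) * ((b⁻¹ ^ g - 1) * s))| ≤
          (b ^ D)⁻¹ + 2 * ρ' := by
        rw [step_s_eq hb]
        have : (-(b ^ (-m) * s)) - (b ^ (-(m + (g : ℤ))) * s - b ^ (-m) * s) =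
            -(b ^ (-(m + (g : ℤ))) * s) := by ring
        rw [this, abs_neg]
        linarith only [hρ', h1]
      have h3 := abs_cos_pi_sub_le _ _ _ h2
      have h4 : |cos (π * -(b ^ (-m) * s))| = |cos (π * (b ^ (-m) * s))| := by
        rw [mul_neg, cos_neg]
      rw [h4] at h3
      linarith only [h3, hcs m]

end Vale.Agent.P105.Salem
end
end

section

section

/-!
# Elementary sums and products over finite sets of integers
-/

open MeasureTheory Real Filter Topology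
open scoped ENNReal

namespace Vale.Agent.P105.Salem

variable {b : ℝ}

/-- Geometric sums over finite sets of positive integers. -/
theorem sum_pow_toNat_le {r : ℝ} (h0 : 0 ≤ r) (h1 : r < 1) (F : Finset ℤ)
    (hF : ∀ m ∈ F, 0 ≤ m) : ∑ m ∈ F, r ^ m.toNat ≤ 1 / (1 - r) := by
  have hinj : Set.InjOn Int.toNat (F : Set ℤ) := by
    intro x hx y hy hxy
    have hx' := hF x hx
    have hy' := hF y hy
    omega
  rw [← Finset.sum_image (f := fun n : ℕ => r ^ n) (g := Int.toNat) hinj, one_div,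
    ← tsum_geometric_of_lt_one h0 h1]
  exact (summable_geometric_of_lt_one h0 h1).sum_le_tsum _ (fun n _ => pow_nonneg h0 n)

theorem sum_zpow_neg_sq_le (hb : 1 < b) (F : Finset ℤ) (hF : ∀ m ∈ F, 0 < m) :
    ∑ m ∈ F, (b ^ (-m)) ^ 2 ≤ 1 / (1 - b⁻¹ ^ 2) := by
  have hb0 : 0 < b := by linarith
  have hr : b⁻¹ ^ 2 < 1 := by
    have : b⁻¹ < 1 := inv_lt_one_of_one_lt₀ hb
    have h0 : 0 ≤ b⁻¹ := by positivity
    nlinarith only [this, h0]
  refine le_trans (le_of_eq ?_) (sum_pow_toNat_le (r := b⁻¹ ^ 2) (by positivity) hr F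
    (fun m hm => (hF m hm).le))
  refine Finset.sum_congr rfl fun m hm => ?_
  have hm' := hF m hm
  obtain ⟨n, hn⟩ := Int.eq_ofNat_of_zero_le hm'.le
  subst hn
  rw [Int.toNat_natCast, zpow_neg, zpow_natCast, ← inv_pow, ← pow_mul, ← pow_mul, mul_comm]

theorem card_mul_sq_le {F : Finset ℤ} {ρ : ℝ} (hF : ∀ m ∈ F, 0 < m ∧ (m : ℝ) * ρ ^ 2 ≤ 1) :
    (F.card : ℝ) * ρ ^ 2 ≤ 1 := by
  rcases F.eq_empty_or_nonempty with rfl | hne
  · simp only [Finset.card_empty, CharP.cast_eq_zero, zero_mul, zero_le_one]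
  · have hM := hF _ (F.max'_mem hne)
    have hsub : F ⊆ Finset.Ioc 0 (F.max' hne) := by
      intro m hm
      rw [Finset.mem_Ioc]
      exact ⟨(hF m hm).1, F.le_max' m hm⟩
    have hcard := Finset.card_le_card hsub
    rw [Int.card_Ioc, sub_zero] at hcard
    have h2 : (F.card : ℤ) ≤ F.max' hne := by
      have := hM.1
      omega
    have h3 : (F.card : ℝ) ≤ (F.max' hne : ℝ) := by exact_mod_cast h2
    have h4 : 0 ≤ ρ ^ 2 := sq_nonneg ρ
    linarith only [mul_nonneg_of_nonpos_of_nonpos (Mathlib.Tactic.Linarith.sub_nonpos_of_le (sq_nonneg ρ)) (Mathlib.Tactic.Linarith.sub_nonpos_of_le h3), hM.right]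

/-- Weierstrass' product inequality. -/
theorem one_sub_sum_le_prod {ι : Type*} (F : Finset ι) (e : ι → ℝ)
    (h0 : ∀ i ∈ F, 0 ≤ e i) (h1 : ∀ i ∈ F, e i ≤ 1) :
    1 - ∑ i ∈ F, e i ≤ ∏ i ∈ F, (1 - e i) := by
  classical
  induction F using Finset.induction_on with
  | empty => simp only [Finset.sum_empty, sub_zero, Finset.prod_empty, Std.le_refl]
  | insert a s ha ih =>
    rw [Finset.sum_insert ha, Finset.prod_insert ha]
    have ih' := ih (fun i hi => h0 i (Finset.mem_insert_of_mem hi))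
      (fun i hi => h1 i (Finset.mem_insert_of_mem hi))
    have ha0 := h0 a (Finset.mem_insert_self a s)
    have ha1 := h1 a (Finset.mem_insert_self a s)
    have hs : 0 ≤ ∑ i ∈ s, e i :=
      Finset.sum_nonneg fun i hi => h0 i (Finset.mem_insert_of_mem hi)
    linarith only [mul_nonneg_of_nonpos_of_nonpos (Mathlib.Tactic.Linarith.sub_nonpos_of_le ha0) (Mathlib.Tactic.Linarith.sub_nonpos_of_le hs), mul_nonneg_of_nonpos_of_nonpos (Mathlib.Tactic.Linarith.sub_nonpos_of_le ih') (Mathlib.Tactic.Linarith.sub_nonpos_of_le ha1)]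

/-- `|cos (x - y)| ≥ |cos x| |cos y| (1 - |tan x| |tan y|)`. -/
theorem cos_sub_lower {x y : ℝ} (hx : cos x ≠ 0) (hy : cos y ≠ 0) :
    |cos x| * |cos y| * (1 - |tan x| * |tan y|) ≤ |cos (x - y)| := by
  have h1 : |sin x| = |tan x| * |cos x| := by
    rw [← abs_mul, tan_mul_cos hx]
  have h2 : |sin y| = |tan y| * |cos y| := by
    rw [← abs_mul, tan_mul_cos hy]
  rw [cos_sub]
  have h3 : |cos x * cos y| - |-(sin x * sin y)| ≤ |cos x * cos y - -(sin x * sin y)| :=
    abs_sub_abs_le_abs_sub _ _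
  rw [abs_neg, sub_neg_eq_add, abs_mul, abs_mul, h1, h2] at h3
  linarith only [h3]

/-- `|cos (x + y)|, |cos (x - y)| ≤ |cos x| |cos y| exp (|tan x| |tan y|)`. -/
theorem cos_sub_upper {x y : ℝ} (hx : cos x ≠ 0) (hy : cos y ≠ 0) :
    |cos (x - y)| ≤ |cos x| * |cos y| * exp (|tan x| * |tan y|) := by
  have h1 : |sin x| = |tan x| * |cos x| := by
    rw [← abs_mul, tan_mul_cos hx]
  have h2 : |sin y| = |tan y| * |cos y| := by
    rw [← abs_mul, tan_mul_cos hy]
  rw [cos_sub]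
  have h3 : |cos x * cos y + sin x * sin y| ≤ |cos x * cos y| + |sin x * sin y| := abs_add_le _ _
  rw [abs_mul, abs_mul, h1, h2] at h3
  have h4 : 1 + |tan x| * |tan y| ≤ exp (|tan x| * |tan y|) := by
    linarith only [add_one_le_exp (|tan x| * |tan y|)]
  have h5 : 0 ≤ |cos x| * |cos y| := by (clear * - hx hy; (clear * - hx hy; positivity))
  linarith only [h3, mul_le_mul_of_nonneg_left h4 h5]

theorem cos_add_upper {x y : ℝ} (hx : cos x ≠ 0) (hy : cos y ≠ 0) :
    |cos (x + y)| ≤ |cos x| * |cos y| * exp (|tan x| * |tan y|) := by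
  have := cos_sub_upper (x := x) (y := -y) hx (by rwa [cos_neg])
  rwa [sub_neg_eq_add, cos_neg, tan_neg, abs_neg] at this

/-- `|cos (π x)| ≥ exp (- π ^ 2 x ^ 2)` for `|x| ≤ 1 / 8`. -/
theorem exp_neg_le_cos {x : ℝ} (hx : |x| ≤ 1 / 8) : exp (-(π ^ 2 * x ^ 2)) ≤ |cos (π * x)| := by
  have h1 : 1 - (π * x) ^ 2 / 2 ≤ cos (π * x) := one_sub_sq_div_two_le_cos
  have h2 : x ^ 2 ≤ 1 / 64 := by
    have := sq_le_sq' (by linarith only [abs_le.1 hx]) (abs_le.1 hx).2
    norm_num at this ⊢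
    linarith only [this]
  have h3 : π ^ 2 ≤ 16 := by nlinarith only [pi_le_four, pi_pos]
  have h4 : 0 ≤ π ^ 2 * x ^ 2 := by (clear * - ; positivity)
  have h5 : π ^ 2 * x ^ 2 ≤ 1 / 4 := by linarith only [h3, mul_nonneg_of_nonpos_of_nonpos (Mathlib.Tactic.Linarith.sub_nonpos_of_le (sq_nonneg π)) (Mathlib.Tactic.Linarith.sub_nonpos_of_le h2)]
  have h6 : exp (-(π ^ 2 * x ^ 2)) ≤ 1 - π ^ 2 * x ^ 2 / 2 := by
    have h7 : (1 + π ^ 2 * x ^ 2) ≤ exp (π ^ 2 * x ^ 2) := by
      linarith only [add_one_le_exp (π ^ 2 * x ^ 2)]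
    rw [exp_neg]
    have h8 : (exp (π ^ 2 * x ^ 2))⁻¹ ≤ (1 + π ^ 2 * x ^ 2)⁻¹ :=
      inv_anti₀ (by linarith only [h4]) h7
    refine h8.trans ?_
    rw [inv_le_comm₀ (by linarith only [h4]) (by linarith only [h5])]
    rw [inv_le_iff_one_le_mul₀ (by linarith only [h5])]
    nlinarith
  refine le_trans ?_ (le_abs_self _)
  have : (π * x) ^ 2 = π ^ 2 * x ^ 2 := by ring
  rw [this] at h1
  linarith only [h1, h6]

end Vale.Agent.P105.Salem
end
end

section

section

/-!
# Bernoulli convolutions of Salem numbers of degree four are singular: sums of tangents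
-/

open MeasureTheory Real Filter Topology
open scoped ENNReal

namespace Vale.Agent.P105.Salem

/-- `|tan (π x)| ≤ 7 |x|` near the origin. -/
theorem tan_pi_le {x : ℝ} (hx : |x| ≤ 3 / 16) : |tan (π * x)| ≤ 7 * |x| := by
  have hpi := Real.pi_pos
  have hpi4 := Real.pi_lt_d2
  have hcos : 1 / 2 ≤ cos (π * x) := by
    rw [← Real.cos_abs, ← Real.cos_pi_div_three]
    have h1 : |π * x| = π * |x| := by rw [abs_mul, abs_of_pos hpi]
    apply Real.cos_le_cos_of_nonneg_of_le_pi (abs_nonneg _)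
    · linarith only [hpi]
    · rw [h1]; nlinarith only [hpi, hx]
  have hc0 : 0 < cos (π * x) := by linarith only [hcos]
  rw [Real.tan_eq_sin_div_cos, abs_div, abs_of_pos hc0, div_le_iff₀ hc0]
  have h2 : |sin (π * x)| ≤ |π * x| := Real.abs_sin_le_abs
  rw [abs_mul, abs_of_pos hpi] at h2
  have h3 : 7 * |x| * (1 / 2) ≤ 7 * |x| * cos (π * x) :=
    mul_le_mul_of_nonneg_left hcos (by (clear * -; positivity))
  linarith only [h3, h2, mul_nonneg_of_nonpos_of_nonpos (le_of_lt (Mathlib.Tactic.Linarith.sub_neg_of_lt hpi4)) (Mathlib.Tactic.Linarith.sub_nonpos_of_le (abs_nonneg x)), abs_nonneg x]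

/-- (i) -/
theorem T_le_inv {b u c : ℝ} (hc : 0 < c) {m : ℤ} (h : c ≤ |cos (π * (b ^ m * u))|) :
    T b u m ≤ 1 / c := by
  unfold T
  rw [Real.tan_eq_sin_div_cos, abs_div]
  exact div_le_div₀ zero_le_one (Real.abs_sin_le_one _) hc h

theorem T_nonneg (b u : ℝ) (m : ℤ) : 0 ≤ T b u m := abs_nonneg _

/-- (iv) -/
theorem Adm.T_le {b : ℝ} {ζ : ℂ} (hb : 1 < b) (hζ : ‖ζ‖ = 1) {u s : ℝ} {w : ℂ}
    (h : Adm b ζ u s w) {D : ℕ} {ρ : ℝ} (hs : |s| ≤ 1) (hw : ‖w‖ ≤ ρ) (hρ : ρ ≤ 1 / 32)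
    (hbD : (b ^ D)⁻¹ ≤ 1 / 16) {n : ℤ} (hn : (D : ℤ) ≤ n) :
    T b u n ≤ 7 * (b ^ (-n) + 2 * ρ) := by
  obtain ⟨k, hk⟩ := h.int n
  set z : ℝ := b ^ (-n) * s + 2 * (ζ ^ n * w).re with hz
  have hb0 : 0 < b := by linarith only [hb]
  have h1 : b ^ n * u = k - z := by rw [hz]; linarith only [hk]
  have h2 : T b u n = |tan (π * z)| := by
    unfold T
    rw [h1, show π * ((k : ℝ) - z) = k * π - π * z by ring, Real.tan_int_mul_pi_sub, abs_neg]
  have hbn : b ^ (-n) ≤ (b ^ D)⁻¹ := by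
    rw [zpow_neg, ← zpow_natCast]
    exact inv_anti₀ (by positivity) (zpow_le_zpow_right₀ hb.le hn)
  have hbn0 : 0 < b ^ (-n) := by positivity
  have h3 : |(ζ ^ n * w).re| ≤ ρ := by
    refine (Complex.abs_re_le_norm _).trans ?_
    rw [norm_mul, norm_zpow, hζ, one_zpow, one_mul]; exact hw
  have h4 : |z| ≤ b ^ (-n) + 2 * ρ := by
    rw [hz]
    refine (abs_add_le _ _).trans ?_
    rw [abs_mul, abs_mul, abs_of_pos hbn0, abs_of_pos (by norm_num : (0 : ℝ) < 2)]
    linarith only [h3, mul_nonneg_of_nonpos_of_nonpos (Mathlib.Tactic.Linarith.sub_nonpos_of_le hs) (le_of_lt (Mathlib.Tactic.Linarith.sub_neg_of_lt hbn0))]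
  rw [h2]
  refine (tan_pi_le (by linarith only [hρ, hbD, hbn, h4])).trans ?_
  linarith only [h4]

theorem geom_fin {r : ℝ} (h0 : 0 ≤ r) (h1 : r < 1) (G : Finset ℕ) :
    ∑ k ∈ G, r ^ k ≤ 1 / (1 - r) := by
  have := (summable_geometric_of_lt_one h0 h1).sum_le_tsum G (fun _ _ => by (clear * - h0; positivity))
  rw [tsum_geometric_of_lt_one h0 h1] at this
  simpa only [one_div, ge_iff_le] using this

theorem geom_int {r : ℝ} (h0 : 0 < r) (h1 : r < 1) (F : Finset ℤ) (e : ℤ → ℤ)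
    (hinj : ∀ a ∈ F, ∀ b ∈ F, e a = e b → a = b) (he : ∀ m ∈ F, 0 ≤ e m) :
    ∑ m ∈ F, r ^ (e m) ≤ 1 / (1 - r) := by
  have h := geom_fin h0.le h1 (F.image fun m => (e m).toNat)
  rw [Finset.sum_image] at h
  · calc ∑ m ∈ F, r ^ (e m) = ∑ m ∈ F, r ^ ((e m).toNat) := Finset.sum_congr rfl fun m hm => by
          rw [← zpow_natCast, Int.toNat_of_nonneg (he m hm)]
      _ ≤ _ := h
  · intro a ha b hb hab
    have h1 := he a ha
    have h2 := he b hb
    refine hinj a ha b hb ?_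
    simp only at hab
    omega

section Analysis

variable {b : ℝ} {ζ : ℂ}

/-- (L8a) -/
theorem sum_tan_low (hb : 1 < b) (hζ : ‖ζ‖ = 1) {u s : ℝ} {w : ℂ} (h : Adm b ζ u s w)
    {D g : ℕ} {c ρ : ℝ} (hg : 4 * D ≤ g) (hD : 1 ≤ D) (hu0 : 0 < u) (huD : u ≤ b ^ D)
    (hs : |s| ≤ 1) (hw : ‖w‖ ≤ ρ) (hρ : ρ ≤ 1 / 32) (hbD : (b ^ D)⁻¹ ≤ 1 / 16)
    (hc : 0 < c) (hcu : ∀ m : ℤ, c ≤ |cos (π * (b ^ m * u))|)
    (F : Finset ℤ) (hF : ∀ m ∈ F, m ≤ (D : ℤ)) :
    ∑ m ∈ F, T b u (m + g) * T b u m ≤ 7 / c * (2 * (b ^ D)⁻¹ / (1 - b⁻¹) + 6 * D * ρ) := by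
  have hb0 : 0 < b := by linarith only [hb]
  have hr0 : 0 < b⁻¹ := by positivity
  have hr1 : b⁻¹ < 1 := inv_lt_one_of_one_lt₀ hb
  have hρ0 : 0 ≤ ρ := (norm_nonneg w).trans hw
  have hbD0 : 0 < (b ^ D)⁻¹ := by positivity
  rw [← Finset.sum_filter_add_sum_filter_not F (fun m => m ≤ -(2 * D : ℤ))]
  have hA : ∑ m ∈ F.filter (fun m => m ≤ -(2 * D : ℤ)), T b u (m + g) * T b u m ≤
      7 / c * ((b ^ D)⁻¹ / (1 - b⁻¹)) := by
    have hpt : ∀ m ∈ F.filter (fun m => m ≤ -(2 * D : ℤ)), T b u (m + g) * T b u m ≤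
        7 / c * (b ^ D)⁻¹ * b⁻¹ ^ (-(m + 2 * D)) := by
      intro m hm
      have hm' := (Finset.mem_filter.1 hm).2
      have h1 : T b u (m + g) ≤ 1 / c := T_le_inv hc (hcu _)
      have h2 : b ^ m * u ≤ (b ^ D)⁻¹ * b⁻¹ ^ (-(m + 2 * D)) := by
        calc b ^ m * u ≤ b ^ m * b ^ D := mul_le_mul_of_nonneg_left huD (by positivity)
          _ = (b ^ D)⁻¹ * b⁻¹ ^ (-(m + 2 * D)) := by
            rw [inv_zpow', neg_neg, ← zpow_natCast, ← zpow_neg, ← zpow_add₀ hb0.ne',
              ← zpow_add₀ hb0.ne']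
            congr 1; ring
      have h3 : b⁻¹ ^ (-(m + 2 * D)) ≤ 1 := by
        rw [inv_zpow', neg_neg]
        exact zpow_le_one_of_nonpos₀ hb.le (by omega)
      have h4 : 0 < b ^ m * u := by positivity
      have h5 : 0 < b⁻¹ ^ (-(m + 2 * D)) := by positivity
      have h6 : T b u m ≤ 7 * ((b ^ D)⁻¹ * b⁻¹ ^ (-(m + 2 * D))) := by
        unfold T
        refine (tan_pi_le ?_).trans ?_
        · rw [abs_of_pos h4]; linarith only [h3, h2, mul_nonneg_of_nonpos_of_nonpos (Mathlib.Tactic.Linarith.sub_nonpos_of_le hbD) (le_of_lt (Mathlib.Tactic.Linarith.sub_neg_of_lt h5))]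
        · rw [abs_of_pos h4]; linarith only [h2]
      calc T b u (m + g) * T b u m ≤ 1 / c * (7 * ((b ^ D)⁻¹ * b⁻¹ ^ (-(m + 2 * D)))) :=
            mul_le_mul h1 h6 (T_nonneg _ _ _) (by positivity)
        _ = 7 / c * (b ^ D)⁻¹ * b⁻¹ ^ (-(m + 2 * D)) := by ring
    refine (Finset.sum_le_sum hpt).trans ?_
    rw [← Finset.mul_sum, mul_assoc]
    refine mul_le_mul_of_nonneg_left ?_ (by positivity)
    rw [div_eq_mul_one_div]
    refine mul_le_mul_of_nonneg_left ?_ (by positivity)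
    refine geom_int hr0 hr1 _ (fun m => -(m + 2 * D)) (fun x _ y _ hxy => by simpa only [neg_add_rev, add_right_inj, neg_inj] using hxy)
      (fun m hm => ?_)
    have hm' := (Finset.mem_filter.1 hm).2
    omega
  have hB : ∑ m ∈ F.filter (fun m => ¬ m ≤ -(2 * D : ℤ)), T b u (m + g) * T b u m ≤
      7 / c * ((b ^ D)⁻¹ / (1 - b⁻¹) + 6 * D * ρ) := by
    have hpt : ∀ m ∈ F.filter (fun m => ¬ m ≤ -(2 * D : ℤ)), T b u (m + g) * T b u m ≤
        7 / c * ((b ^ D)⁻¹ * b⁻¹ ^ (m + g - D) + 2 * ρ) := by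
      intro m hm
      have hm' := (Finset.mem_filter.1 hm).2
      have h1 : T b u m ≤ 1 / c := T_le_inv hc (hcu _)
      have h2 : T b u (m + g) ≤ 7 * (b ^ (-(m + g : ℤ)) + 2 * ρ) :=
        h.T_le hb hζ hs hw hρ hbD (by omega)
      have h3 : b ^ (-(m + g : ℤ)) = (b ^ D)⁻¹ * b⁻¹ ^ (m + g - D) := by
        rw [inv_zpow', ← zpow_natCast, ← zpow_neg, ← zpow_add₀ hb0.ne']
        congr 1; ring
      rw [h3] at h2
      have h5 : 0 < b⁻¹ ^ (m + g - D) := by positivity
      calc T b u (m + g) * T b u m ≤ 7 * ((b ^ D)⁻¹ * b⁻¹ ^ (m + g - D) + 2 * ρ) * (1 / c) :=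
            mul_le_mul h2 h1 (T_nonneg _ _ _) (by (clear * - hb hρ0; positivity))
        _ = 7 / c * ((b ^ D)⁻¹ * b⁻¹ ^ (m + g - D) + 2 * ρ) := by ring
    refine (Finset.sum_le_sum hpt).trans ?_
    rw [← Finset.mul_sum]
    refine mul_le_mul_of_nonneg_left ?_ (by positivity)
    rw [Finset.sum_add_distrib, ← Finset.mul_sum]
    refine add_le_add ?_ ?_
    · rw [div_eq_mul_one_div]
      refine mul_le_mul_of_nonneg_left ?_ (by positivity)
      refine geom_int hr0 hr1 _ (fun m => m + g - D) (fun x _ y _ hxy => by simpa only [sub_left_inj, add_left_inj] using hxy)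
        (fun m hm => ?_)
      have hm' := (Finset.mem_filter.1 hm).2
      omega
    · rw [Finset.sum_const, nsmul_eq_mul]
      have hcard : (F.filter (fun m => ¬ m ≤ -(2 * D : ℤ))).card ≤ 3 * D := by
        have hsub : F.filter (fun m => ¬ m ≤ -(2 * D : ℤ)) ⊆ Finset.Ioc (-(2 * D : ℤ)) D := by
          intro m hm
          have hm' := (Finset.mem_filter.1 hm)
          rw [Finset.mem_Ioc]
          exact ⟨by omega, hF m hm'.1⟩
        refine (Finset.card_le_card hsub).trans ?_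
        rw [Int.card_Ioc]
        omega
      have hcard' : ((F.filter (fun m => ¬ m ≤ -(2 * D : ℤ))).card : ℝ) ≤ 3 * D := by
        exact_mod_cast hcard
      linarith only [mul_nonneg_of_nonpos_of_nonpos (Mathlib.Tactic.Linarith.sub_nonpos_of_le hρ0) (Mathlib.Tactic.Linarith.sub_nonpos_of_le hcard')]
  have hfin : 7 / c * ((b ^ D)⁻¹ / (1 - b⁻¹)) + 7 / c * ((b ^ D)⁻¹ / (1 - b⁻¹) + 6 * D * ρ) =
      7 / c * (2 * (b ^ D)⁻¹ / (1 - b⁻¹) + 6 * D * ρ) := by ring
  linarith only [hA, hB, hfin]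

/-- (L8b) -/
theorem sum_tan_high (hb : 1 < b) (hζ : ‖ζ‖ = 1) {u s : ℝ} {w : ℂ} (h : Adm b ζ u s w)
    {D g : ℕ} {ρ : ℝ} (hg : 4 * D ≤ g) (hD : 1 ≤ D)
    (hs : |s| ≤ 1) (hw : ‖w‖ ≤ ρ) (hρ : ρ ≤ 1 / 32) (hbD : (b ^ D)⁻¹ ≤ 1 / 16)
    (F : Finset ℤ) (hF : ∀ m ∈ F, (D : ℤ) < m ∧ (m : ℝ) * ρ ^ 2 ≤ 1) :
    ∑ m ∈ F, T b u (m + g) * T b u m ≤ 98 * (1 / (1 - b⁻¹ ^ 2) + 4) := by
  have hb0 : 0 < b := by linarith only [hb]
  have hr0 : 0 < b⁻¹ := by positivity
  have hr1 : b⁻¹ < 1 := inv_lt_one_of_one_lt₀ hb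
  have hρ0 : 0 ≤ ρ := (norm_nonneg w).trans hw
  have hpt : ∀ m ∈ F, T b u (m + g) * T b u m ≤ 98 * ((b⁻¹ ^ 2) ^ m + 4 * ρ ^ 2) := by
    intro m hm
    have hm1 := (hF m hm).1
    have h1 : T b u m ≤ 7 * (b ^ (-m) + 2 * ρ) := h.T_le hb hζ hs hw hρ hbD (by omega)
    have h2 : T b u (m + g) ≤ 7 * (b ^ (-(m + g : ℤ)) + 2 * ρ) :=
      h.T_le hb hζ hs hw hρ hbD (by omega)
    have h3 : b ^ (-(m + g : ℤ)) ≤ b ^ (-m) := zpow_le_zpow_right₀ hb.le (by omega)
    have h4 : 0 < b ^ (-m) := by positivity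
    have h5 : (b⁻¹ ^ 2) ^ m = (b ^ (-m)) ^ 2 := by
      rw [← zpow_natCast, ← zpow_natCast, ← zpow_mul, ← zpow_mul, inv_zpow']
      congr 1; push_cast; ring
    rw [h5]
    calc T b u (m + g) * T b u m ≤ (7 * (b ^ (-m) + 2 * ρ)) * (7 * (b ^ (-m) + 2 * ρ)) :=
          mul_le_mul (h2.trans (by linarith only [h3])) h1 (T_nonneg _ _ _) (by (clear * - hb hρ0; positivity))
      _ ≤ 98 * ((b ^ (-m)) ^ 2 + 4 * ρ ^ 2) := by linarith only [sq_nonneg (b ^ (-m) - 2 * ρ)]
  refine (Finset.sum_le_sum hpt).trans ?_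
  rw [← Finset.mul_sum, Finset.sum_add_distrib]
  refine mul_le_mul_of_nonneg_left (add_le_add ?_ ?_) (by norm_num)
  · refine geom_int (by positivity) ?_ F (fun m => m) (fun x _ y _ hxy => hxy) (fun m hm => ?_)
    · exact pow_lt_one₀ hr0.le hr1 (by norm_num)
    · have := (hF m hm).1
      omega
  · rw [Finset.sum_const, nsmul_eq_mul]
    rcases F.eq_empty_or_nonempty with hF0 | hne
    · simp only [hF0, Finset.card_empty, CharP.cast_eq_zero, zero_mul, Nat.ofNat_nonneg]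
    · obtain ⟨M, hM, hmax⟩ := F.exists_max_image id hne
      have hM' := hF M hM
      have hsub : F ⊆ Finset.Icc 1 M := by
        intro m hm
        rw [Finset.mem_Icc]
        exact ⟨by have := (hF m hm).1; omega, hmax m hm⟩
      have hcard : (F.card : ℤ) ≤ M := by
        have := Finset.card_le_card hsub
        rw [Int.card_Icc] at this
        omega
      have hcard' : (F.card : ℝ) ≤ M := by exact_mod_cast hcard
      have h6 : (F.card : ℝ) * ρ ^ 2 ≤ 1 :=
        (mul_le_mul_of_nonneg_right hcard' (by (clear * - ; positivity))).trans hM'.2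
      linarith only [h6]

end Analysis

end Vale.Agent.P105.Salem
end
end

section

section

/-!
# The recursion for the products of cosines
-/

open MeasureTheory Real Filter Topology
open scoped ENNReal

namespace Vale.Agent.P105.Salem

variable {b : ℝ} {ζ : ℂ}

theorem kap_pos (b : ℝ) : 0 < kap b := by
  unfold kap
  positivity

/-- the low part of the product -/
theorem prod_low (hb : 1 < b) (hζ : ‖ζ‖ = 1) {u s : ℝ} {w : ℂ} (h : Adm b ζ u s w)
    {D g : ℕ} {a c ρ : ℝ} (hg : 4 * D ≤ g) (hD : 1 ≤ D) (hu0 : 0 < u) (huD : u ≤ b ^ D)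
    (hs : |s| ≤ 1) (hw : ‖w‖ ≤ ρ) (hρ : ρ ≤ 1 / 32) (hbD : (b ^ D)⁻¹ ≤ 1 / 16)
    (hc : 0 < c) (hcu : ∀ m : ℤ, c ≤ |cos (π * (b ^ m * u))|)
    (hε : 7 / c * (2 * (b ^ D)⁻¹ / (1 - b⁻¹) + 6 * D * ρ) ≤ 1 / 2)
    (hgρ : ((D : ℝ) + g) * ρ ^ 2 ≤ 1) (ha : 0 < a) (hst : Star b u a ρ)
    (F : Finset ℤ) (hF : ∀ m ∈ F, m ≤ (D : ℤ)) :
    a ^ 2 / 2 ≤ ∏ m ∈ F, |cos (π * (b ^ m * ((b ^ g - 1) * u)))| := by
  have hsum : ∑ m ∈ F, T b u (m + g) * T b u m ≤ 1 / 2 :=
    (sum_tan_low hb hζ h hg hD hu0 huD hs hw hρ hbD hc hcu F hF).trans hε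
  have hTnn : ∀ m : ℤ, 0 ≤ T b u m := fun m => abs_nonneg _
  have hnn : ∀ m ∈ F, 0 ≤ T b u (m + g) * T b u m := fun m _ => mul_nonneg (hTnn _) (hTnn _)
  have hle1 : ∀ m ∈ F, T b u (m + g) * T b u m ≤ 1 := fun m hm =>
    (Finset.single_le_sum hnn hm).trans (by linarith only [hsum])
  have hcne : ∀ m : ℤ, cos (π * (b ^ m * u)) ≠ 0 := by
    intro m h0
    have := hcu m
    rw [h0, abs_zero] at this
    linarith only [hc, this]
  have hρ2 : 0 ≤ ρ ^ 2 := sq_nonneg ρ
  have hprod1 : a ≤ ∏ m ∈ F, |cos (π * (b ^ m * u))| := by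
    refine hst F fun m hm => ?_
    have h1 : (m : ℝ) ≤ D := by exact_mod_cast hF m hm
    have h2 : (m : ℝ) ≤ D + g := by
      have : (0 : ℝ) ≤ g := Nat.cast_nonneg g
      linarith only [h1]
    linarith only [hgρ, mul_nonneg_of_nonpos_of_nonpos (Mathlib.Tactic.Linarith.sub_nonpos_of_le (sq_nonneg ρ)) (Mathlib.Tactic.Linarith.sub_nonpos_of_le h1), mul_nonneg_of_nonpos_of_nonpos (Mathlib.Tactic.Linarith.sub_nonpos_of_le (sq_nonneg ρ)) (Mathlib.Tactic.Linarith.sub_nonpos_of_le (Mathlib.Tactic.Linarith.natCast_nonneg ℝ g))]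
  have hprod2 : a ≤ ∏ m ∈ F, |cos (π * (b ^ (m + (g : ℤ)) * u))| := by
    have := hst (F.map (addRightEmbedding (g : ℤ))) (fun m hm => by
      rw [Finset.mem_map] at hm
      obtain ⟨k, hk, rfl⟩ := hm
      have h1 : (k : ℝ) ≤ D := by exact_mod_cast hF k hk
      simp only [addRightEmbedding_apply, Int.cast_add, Int.cast_natCast]
      linarith only [hgρ, mul_nonneg_of_nonpos_of_nonpos (Mathlib.Tactic.Linarith.sub_nonpos_of_le (sq_nonneg ρ)) (Mathlib.Tactic.Linarith.sub_nonpos_of_le h1)])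
    rwa [Finset.prod_map] at this
  have hfac : ∀ m ∈ F, |cos (π * (b ^ (m + (g : ℤ)) * u))| * |cos (π * (b ^ m * u))| *
      (1 - T b u (m + g) * T b u m) ≤ |cos (π * (b ^ m * ((b ^ g - 1) * u)))| := by
    intro m _
    have h1 := cos_sub_lower (hcne (m + g)) (hcne m)
    rw [← mul_sub, ← step_u_eq hb] at h1
    exact h1
  have h3 : (∏ m ∈ F, |cos (π * (b ^ (m + (g : ℤ)) * u))| * |cos (π * (b ^ m * u))| *
      (1 - T b u (m + g) * T b u m)) ≤ ∏ m ∈ F, |cos (π * (b ^ m * ((b ^ g - 1) * u)))| := by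
    refine Finset.prod_le_prod (fun m hm => ?_) hfac
    have := hle1 m hm
    have h4 : 0 ≤ 1 - T b u (m + g) * T b u m := by linarith only [this]
    (clear * - this; (clear * - this; positivity))
  refine le_trans ?_ h3
  rw [Finset.prod_mul_distrib, Finset.prod_mul_distrib]
  have h5 : (1 : ℝ) / 2 ≤ ∏ m ∈ F, (1 - T b u (m + g) * T b u m) := by
    have := one_sub_sum_le_prod F (fun m => T b u (m + g) * T b u m) hnn hle1
    linarith only [hsum, this]
  calc a ^ 2 / 2 = a * a * (1 / 2) := by ring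
    _ ≤ _ := by
        refine mul_le_mul (mul_le_mul hprod2 hprod1 ha.le (ha.le.trans hprod2)) h5 (by norm_num) ?_
        exact mul_nonneg (ha.le.trans hprod2) (ha.le.trans hprod1)

/-- the high part of the product -/
theorem prod_high (hb : 1 < b) (hζ : ‖ζ‖ = 1) {u s : ℝ} {w : ℂ} (h : Adm b ζ u s w)
    {D : ℕ} {ρ : ℝ} (_hD : 1 ≤ D)
    (hs : |s| ≤ 1) (hw : ‖w‖ ≤ ρ) (hρ : ρ ≤ 1 / 32) (hbD : (b ^ D)⁻¹ ≤ 1 / 16)
    (F : Finset ℤ) (hF : ∀ m ∈ F, (D : ℤ) < m ∧ (m : ℝ) * ρ ^ 2 ≤ 1) :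
    exp (-(2 * π ^ 2 * (1 / (1 - b⁻¹ ^ 2) + 4))) ≤ ∏ m ∈ F, |cos (π * (b ^ m * u))| := by
  have hρ0 : 0 ≤ ρ := (norm_nonneg _).trans hw
  have hpos : ∀ m ∈ F, 0 < m := fun m hm => by
    have := (hF m hm).1
    have h2 : (0 : ℤ) ≤ D := Int.natCast_nonneg D
    linarith only [this]
  have hfac : ∀ m ∈ F, exp (-(2 * π ^ 2 * ((b ^ (-m)) ^ 2 + 4 * ρ ^ 2))) ≤
      |cos (π * (b ^ m * u))| := by
    intro m hm
    set x := b ^ (-m) * s + 2 * (ζ ^ m * w).re with hx
    have e1 : |cos (π * (b ^ m * u))| = |cos (π * x)| := by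
      apply abs_cos_eq_of_add_int
      obtain ⟨k, hk⟩ := h.int m
      exact ⟨k, by rw [← hk, hx]; ring⟩
    rw [e1]
    have h1 : |b ^ (-m) * s| ≤ b ^ (-m) := abs_zpow_neg_mul_le hb hs m
    have h2 : b ^ (-m) ≤ 1 / 16 := by
      refine le_trans ?_ hbD
      rw [← zpow_natCast, ← zpow_neg]
      exact zpow_le_zpow_right₀ hb.le (by linarith only [(hF m hm).1])
    have h3 := abs_re_zeta_le hζ hw m
    have h4 : |x| ≤ b ^ (-m) + 2 * ρ := (abs_add_le _ _).trans (add_le_add h1 h3)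
    have h5 : |x| ≤ 1 / 8 := by linarith only [hρ, h2, h4]
    have h6 : x ^ 2 ≤ 2 * ((b ^ (-m)) ^ 2 + 4 * ρ ^ 2) := by
      have h7 : x ^ 2 ≤ (b ^ (-m) + 2 * ρ) ^ 2 := by
        rw [← sq_abs x]
        exact pow_le_pow_left₀ (abs_nonneg x) h4 2
      linarith only [h7, sq_nonneg (b ^ (-m) - 2 * ρ)]
    refine le_trans ?_ (exp_neg_le_cos h5)
    rw [exp_le_exp]
    have h8 : 0 ≤ π ^ 2 := sq_nonneg π
    linarith only [mul_le_mul_of_nonneg_left h6 h8]
  refine le_trans ?_ (Finset.prod_le_prod (fun m _ => (exp_pos _).le) hfac)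
  rw [← exp_sum, exp_le_exp, Finset.sum_neg_distrib, neg_le_neg_iff, ← Finset.mul_sum,
    Finset.sum_add_distrib, Finset.sum_const, nsmul_eq_mul]
  have h1 := sum_zpow_neg_sq_le hb F hpos
  have h2 := card_mul_sq_le (F := F) (ρ := ρ) (fun m hm => ⟨hpos m hm, (hF m hm).2⟩)
  have h8 : 0 ≤ 2 * π ^ 2 := by positivity
  refine mul_le_mul_of_nonneg_left ?_ h8
  linarith only [h1, h2]

/-- (L9) the recursion for the products. -/
theorem Star.step (hb : 1 < b) (hζ : ‖ζ‖ = 1) (hi : IsIntegral ℤ b) (hi' : IsIntegral ℤ b⁻¹)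
    {u s : ℝ} {w : ℂ} (h : Adm b ζ u s w)
    {D g : ℕ} {a c ρ ρ' : ℝ} (hg : 4 * D ≤ g) (hD : 1 ≤ D) (hu0 : 0 < u) (huD : u ≤ b ^ D)
    (hs : |s| ≤ 1) (hw : ‖w‖ ≤ ρ) (hρ : ρ ≤ 1 / 32) (hbD : (b ^ D)⁻¹ ≤ 1 / 16)
    (hc : 0 < c) (hcu : ∀ m : ℤ, c ≤ |cos (π * (b ^ m * u))|)
    (hε : 7 / c * (2 * (b ^ D)⁻¹ / (1 - b⁻¹) + 6 * D * ρ) ≤ 1 / 2)
    (hgρ : ((D : ℝ) + g) * ρ ^ 2 ≤ 1) (hw' : ‖(ζ ^ g - 1) * w‖ ≤ ρ') (hρ' : ρ' ≤ 1 / 32)
    (ha : 0 < a) (hst : Star b u a ρ) :
    Star b ((b ^ g - 1) * u) (kap b * a ^ 2) ρ' := by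
  intro F hF
  have hb0 : 0 < b := by linarith only [hb]
  have h' := h.step hb hζ hi hi' g
  have hs' : |(b⁻¹ ^ g - 1) * s| ≤ 1 := by
    rw [abs_mul]
    have h1 : |b⁻¹ ^ g - 1| ≤ 1 := by
      have h2 : b⁻¹ ^ g ≤ 1 := pow_le_one₀ (by positivity) (inv_le_one_of_one_le₀ hb.le)
      have h3 : 0 < b⁻¹ ^ g := by positivity
      rw [abs_le]
      constructor <;> linarith only [h2, h3]
    calc |b⁻¹ ^ g - 1| * |s| ≤ 1 * 1 := mul_le_mul h1 hs (abs_nonneg _) (by norm_num)
      _ = 1 := one_mul 1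
  rw [← Finset.prod_filter_mul_prod_filter_not F (fun m => m ≤ (D : ℤ))]
  have h1 := prod_low hb hζ h hg hD hu0 huD hs hw hρ hbD hc hcu hε hgρ ha hst
    (F.filter (fun m => m ≤ (D : ℤ))) (fun m hm => (Finset.mem_filter.1 hm).2)
  have h2 := prod_high hb hζ h' hD hs' hw' hρ' hbD
    (F.filter (fun m => ¬ m ≤ (D : ℤ))) (fun m hm => by
      rw [Finset.mem_filter, not_le] at hm
      exact ⟨hm.2, hF m hm.1⟩)
  calc kap b * a ^ 2 = a ^ 2 / 2 * exp (-(2 * π ^ 2 * (1 / (1 - b⁻¹ ^ 2) + 4))) := by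
        unfold kap
        ring
    _ ≤ _ := mul_le_mul h1 h2 (exp_pos _).le (le_trans (by positivity) h1)

end Vale.Agent.P105.Salem
end
end

section

section

/-!
# Salem numbers of degree four: Dirichlet, positivity, the starting triple
-/

open MeasureTheory Real Filter Topology
open scoped ENNReal

namespace Vale.Agent.P105.Salem

section Algebra

variable {b : ℝ} {ζ : ℂ}

theorem st_norm_pow_sub_one_le {z : ℂ} (hz : ‖z‖ = 1) (k : ℕ) : ‖z ^ k - 1‖ ≤ k * ‖z - 1‖ := by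
  induction k with
  | zero => simp
  | succ n ih =>
    have h1 : z ^ (n + 1) - 1 = z * (z ^ n - 1) + (z - 1) := by ring
    rw [h1]
    calc ‖z * (z ^ n - 1) + (z - 1)‖ ≤ ‖z * (z ^ n - 1)‖ + ‖z - 1‖ := norm_add_le _ _
      _ = ‖z ^ n - 1‖ + ‖z - 1‖ := by rw [norm_mul, hz, one_mul]
      _ ≤ n * ‖z - 1‖ + ‖z - 1‖ := by linarith only [ih]
      _ = ((n + 1 : ℕ) : ℝ) * ‖z - 1‖ := by push_cast; ring

theorem st_dirichlet_aux (hζ : ‖ζ‖ = 1) {Q : ℕ} (hQ : 1 ≤ Q) :
    ∃ q : ℕ, 0 < q ∧ q ≤ Q ∧ ‖ζ ^ q - 1‖ ≤ 2 * π / Q := by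
  obtain ⟨q, hq0, hqQ, hq⟩ := Real.exists_nat_abs_mul_sub_round_le (ζ.arg / (2 * π)) hQ
  refine ⟨q, hq0, hqQ, ?_⟩
  have hpi : (0 : ℝ) < π := Real.pi_pos
  set r : ℤ := round ((q : ℝ) * (ζ.arg / (2 * π))) with hr
  have hζe : ζ = Complex.exp (Complex.I * (ζ.arg : ℂ)) := by
    have h := Complex.norm_mul_exp_arg_mul_I ζ
    rw [hζ] at h
    rw [mul_comm Complex.I]
    simpa using h.symm
  have h1 : ζ ^ q = Complex.exp (Complex.I * (((q : ℝ) * ζ.arg - r * (2 * π) : ℝ) : ℂ)) := by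
    conv_lhs => rw [hζe]
    rw [← Complex.exp_nat_mul]
    rw [Complex.exp_eq_exp_iff_exists_int]
    refine ⟨r, ?_⟩
    push_cast
    ring
  rw [h1]
  refine (Real.norm_exp_I_mul_ofReal_sub_one_le).trans ?_
  rw [Real.norm_eq_abs]
  have h2 : (q : ℝ) * ζ.arg - r * (2 * π) = 2 * π * (q * (ζ.arg / (2 * π)) - r) := by
    (clear * -; field_simp)
  rw [h2, abs_mul, abs_of_pos (by positivity : (0 : ℝ) < 2 * π)]
  have hQ' : (0 : ℝ) < Q := by exact_mod_cast hQ
  calc 2 * π * |(q : ℝ) * (ζ.arg / (2 * π)) - r| ≤ 2 * π * (1 / (Q + 1)) := by (clear * - hq; gcongr)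
    _ ≤ 2 * π * (1 / Q) := by
        gcongr
        linarith only []
    _ = 2 * π / Q := by ring

/-- (L10) Dirichlet. -/
theorem dirichlet (hζ : ‖ζ‖ = 1) {d Q : ℕ} (hd : 1 ≤ d) (hQ : 1 ≤ Q) :
    ∃ g : ℕ, d ≤ g ∧ ((g ≤ Q ∧ ‖ζ ^ g - 1‖ ≤ 2 * π / Q) ∨
      (g ≤ 2 * d ∧ ‖ζ ^ g - 1‖ ≤ 4 * π * d / Q)) := by
  obtain ⟨q, hq0, hqQ, hq⟩ := st_dirichlet_aux hζ hQ
  have hpi : (0 : ℝ) < π := Real.pi_pos
  have hQ' : (0 : ℝ) < Q := by exact_mod_cast hQ
  by_cases hqd : d ≤ q
  · exact ⟨q, hqd, Or.inl ⟨hqQ, hq⟩⟩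
  · push Not at hqd
    set k : ℕ := (d + q - 1) / q with hk
    have hk1 : k * q ≤ d + q - 1 := Nat.div_mul_le_self _ _
    have hk2 : d + q - 1 < (k + 1) * q := by
      have := Nat.lt_div_mul_add (a := d + q - 1) hq0
      rw [← hk] at this
      linarith only [this]
    have hdk : d ≤ k * q := by
      have : (k + 1) * q = k * q + q := by ring
      omega
    have hk2d : k ≤ 2 * d := by
      have : k * 1 ≤ k * q := Nat.mul_le_mul_left k hq0
      omega
    refine ⟨k * q, hdk, Or.inr ⟨by omega, ?_⟩⟩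
    have hzq : ‖ζ ^ q‖ = 1 := by rw [norm_pow, hζ, one_pow]
    have hk2d' : (k : ℝ) ≤ 2 * d := by exact_mod_cast hk2d
    calc ‖ζ ^ (k * q) - 1‖ = ‖(ζ ^ q) ^ k - 1‖ := by rw [mul_comm, pow_mul]
      _ ≤ k * ‖ζ ^ q - 1‖ := st_norm_pow_sub_one_le hzq k
      _ ≤ (2 * d) * (2 * π / Q) := by (clear * - hk2d' hq hd; gcongr)
      _ = 4 * π * d / Q := by ring

end Algebra

section Analysis

variable {b : ℝ} {ζ : ℂ}

theorem st_sum_zpow_le (hb : 1 < b) (F : Finset ℤ) (N : ℤ) (hF : ∀ m ∈ F, m ≤ N) :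
    ∑ m ∈ F, b ^ (m - N) ≤ 1 / (1 - b⁻¹) := by
  have hb0 : (0 : ℝ) < b := by linarith
  have hr0 : (0 : ℝ) ≤ b⁻¹ := by (clear * - hb; positivity)
  have hr1 : b⁻¹ < 1 := inv_lt_one_of_one_lt₀ hb
  have hinj : Set.InjOn (fun m : ℤ => (N - m).toNat) (F : Set ℤ) := by
    intro x hx y hy hxy
    have h1 := hF x hx
    have h2 := hF y hy
    simp only at hxy
    omega
  have h1 : ∑ m ∈ F, b ^ (m - N) = ∑ k ∈ F.image (fun m : ℤ => (N - m).toNat), (b⁻¹) ^ k := by
    rw [Finset.sum_image hinj]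
    refine Finset.sum_congr rfl fun m hm => ?_
    have h2 := hF m hm
    have h3 : ((N - m).toNat : ℤ) = N - m := Int.toNat_of_nonneg (by omega)
    rw [← zpow_natCast, h3, inv_zpow, ← zpow_neg]
    congr 1
    ring
  rw [h1, one_div, ← tsum_geometric_of_lt_one hr0 hr1]
  exact Summable.sum_le_tsum _ (fun i _ => by positivity) (summable_geometric_of_lt_one hr0 hr1)

theorem st_one_sub_sum_le_prod {ι : Type*} (F : Finset ι) (f g : ι → ℝ)
    (hf0 : ∀ i ∈ F, 0 ≤ f i) (hf1 : ∀ i ∈ F, f i ≤ 1) (hg : ∀ i ∈ F, 1 - g i ≤ f i)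
    (hg0 : ∀ i ∈ F, 0 ≤ g i) :
    1 - ∑ i ∈ F, g i ≤ ∏ i ∈ F, f i := by
  classical
  induction F using Finset.induction_on with
  | empty => simp
  | insert a s ha ih =>
    rw [Finset.sum_insert ha, Finset.prod_insert ha]
    have ih' := ih (fun i hi => hf0 i (Finset.mem_insert_of_mem hi))
      (fun i hi => hf1 i (Finset.mem_insert_of_mem hi))
      (fun i hi => hg i (Finset.mem_insert_of_mem hi))
      (fun i hi => hg0 i (Finset.mem_insert_of_mem hi))
    have h0 := hf0 a (Finset.mem_insert_self a s)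
    have h1 := hf1 a (Finset.mem_insert_self a s)
    have h2 := hg a (Finset.mem_insert_self a s)
    have hP0 : 0 ≤ ∏ i ∈ s, f i :=
      Finset.prod_nonneg fun i hi => hf0 i (Finset.mem_insert_of_mem hi)
    have hP1 : ∏ i ∈ s, f i ≤ 1 :=
      Finset.prod_le_one (fun i hi => hf0 i (Finset.mem_insert_of_mem hi))
        (fun i hi => hf1 i (Finset.mem_insert_of_mem hi))
    linarith only [mul_nonneg_of_nonpos_of_nonpos (Mathlib.Tactic.Linarith.sub_nonpos_of_le h1) (Mathlib.Tactic.Linarith.sub_nonpos_of_le hP1), h2, ih']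

theorem st_half_le_abs_cos {x : ℝ} (hx : |x| ≤ 3 / 16) : 1 / 2 ≤ |cos (π * x)| := by
  have hpi : (0 : ℝ) < π := Real.pi_pos
  have hpi4 : π < 3.15 := Real.pi_lt_d2
  have h1 : 1 - (π * x) ^ 2 / 2 ≤ cos (π * x) := Real.one_sub_sq_div_two_le_cos
  have h2 : (π * x) ^ 2 ≤ 1 := by
    rw [← sq_abs, abs_mul, abs_of_pos hpi]
    have h3 : π * |x| ≤ 1 := by
      calc π * |x| ≤ 3.15 * (3 / 16) := by gcongr
        _ ≤ 1 := by norm_num1
    have h4 : 0 ≤ π * |x| := by (clear * - ; (clear * -; positivity))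
    linarith only [h3, mul_nonneg_of_nonpos_of_nonpos (Mathlib.Tactic.Linarith.sub_nonpos_of_le h3) (Mathlib.Tactic.Linarith.sub_nonpos_of_le h4)]
  have h3 : 1 / 2 ≤ cos (π * x) := by linarith only [h1, h2]
  exact h3.trans (le_abs_self _)

theorem st_abs_cos_int_sub (k : ℤ) (x : ℝ) : |cos (π * (k - x))| = |cos (π * x)| := by
  have h1 : π * (k - x) = k * π - π * x := by ring
  rw [h1, Real.cos_int_mul_pi_sub, abs_mul]
  simp

/-- (L7) positivity. -/
theorem exists_star (hb : 1 < b) {u c ρ : ℝ} {D : ℕ} (hu0 : 0 < u) (huD : u ≤ b ^ D)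
    (hρ : 0 < ρ) (hc : 0 < c) (hcu : ∀ m : ℤ, c ≤ |cos (π * (b ^ m * u))|) :
    ∃ a : ℝ, 0 < a ∧ Star b u a ρ := by
  have hb0 : (0 : ℝ) < b := by linarith
  have hc1 : c ≤ 1 := (hcu 0).trans (Real.abs_cos_le_one _)
  have hb2 : (1 : ℝ) < b ^ 2 := one_lt_pow₀ hb (by norm_num)
  have hpi : (0 : ℝ) < π := Real.pi_pos
  have hpi4 : π < 3.15 := Real.pi_lt_d2
  set S : ℝ := 1 / (1 - (b ^ 2)⁻¹) with hS
  have hSpos : 0 < S := by
    have : (b ^ 2)⁻¹ < 1 := inv_lt_one_of_one_lt₀ hb2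
    rw [hS]
    have : 0 < 1 - (b ^ 2)⁻¹ := by linarith only [this]
    (clear u c ρ D hu0 huD hρ hc hcu hb0 hc1 hpi hpi4 S hS this; positivity)
  -- choose `E` with `5 S / b ^ (2 E) ≤ 1 / 2`
  obtain ⟨E, hE⟩ := pow_unbounded_of_one_lt (10 * S) hb2
  set N : ℤ := -(D + E : ℤ) with hN
  set M : ℤ := ⌊(ρ ^ 2)⁻¹⌋ with hM
  set K : ℕ := (Finset.Ioc N M).card with hK
  refine ⟨c ^ K * (1 / 2), by positivity, ?_⟩
  intro F hF
  have hsplit := Finset.prod_filter_mul_prod_filter_not F (fun m => m ≤ N)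
    (fun m => |cos (π * (b ^ m * u))|)
  rw [← hsplit, mul_comm (c ^ K)]
  have hlow : 1 / 2 ≤ ∏ m ∈ F.filter (fun m => m ≤ N), |cos (π * (b ^ m * u))| := by
    have h1 := st_one_sub_sum_le_prod (F.filter (fun m => m ≤ N))
      (fun m => |cos (π * (b ^ m * u))|) (fun m => 5 * ((b ^ 2) ^ E)⁻¹ * (b ^ 2) ^ (m - N))
      (fun i _ => abs_nonneg _) (fun i _ => Real.abs_cos_le_one _) ?_ (fun i _ => by positivity)
    · refine le_trans ?_ h1
      rw [← Finset.mul_sum]
      have h2 := st_sum_zpow_le hb2 (F.filter (fun m => m ≤ N)) N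
        (fun m hm => (Finset.mem_filter.mp hm).2)
      rw [← hS] at h2
      have h3 : 5 * ((b ^ 2) ^ E)⁻¹ * ∑ m ∈ F.filter (fun m => m ≤ N), (b ^ 2) ^ (m - N) ≤
          5 * ((b ^ 2) ^ E)⁻¹ * S := by (clear * - h2 hb; gcongr)
      have h4 : 5 * ((b ^ 2) ^ E)⁻¹ * S ≤ 1 / 2 := by
        have h5 : (0 : ℝ) < (b ^ 2) ^ E := by positivity
        rw [mul_assoc, mul_comm _ S, ← mul_assoc, ← div_eq_mul_inv, div_le_div_iff₀ h5 two_pos]
        linarith only [hE]
      linarith only [h3, h4]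
    · intro m hm
      have hmN : m ≤ N := (Finset.mem_filter.mp hm).2
      have h1 : 1 - (π * (b ^ m * u)) ^ 2 / 2 ≤ cos (π * (b ^ m * u)) :=
        Real.one_sub_sq_div_two_le_cos
      have h2 : (π * (b ^ m * u)) ^ 2 / 2 ≤ 5 * ((b ^ 2) ^ E)⁻¹ * (b ^ 2) ^ (m - N) := by
        have h3 : 0 < b ^ m := zpow_pos hb0 m
        have h4 : b ^ m * u ≤ b ^ m * b ^ D := by (clear * - huD hb; gcongr)
        have h5 : (b ^ m * u) ^ 2 ≤ (b ^ m * b ^ D) ^ 2 := by
          have : 0 ≤ b ^ m * u := by positivity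
          (clear * - hb hu0 h4; gcongr)
        have h6 : (b ^ m * b ^ D) ^ 2 = ((b ^ 2) ^ E)⁻¹ * (b ^ 2) ^ (m - N) := by
          have hne : b ≠ 0 := hb0.ne'
          have e1 : (b ^ m * b ^ D) ^ 2 = b ^ (2 * (m + D)) := by
            rw [← zpow_natCast b D, ← zpow_add₀ hne, ← zpow_natCast, ← zpow_mul]
            congr 1
            push_cast
            ring
          have e2 : ((b ^ 2) ^ E)⁻¹ = b ^ (-(2 * E : ℤ)) := by
            rw [← pow_mul, zpow_neg]
            congr 1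
          have e3 : (b ^ 2) ^ (m - N) = b ^ (2 * (m - N)) := by
            rw [← zpow_natCast b 2, ← zpow_mul]
            congr 1
          rw [e1, e2, e3, ← zpow_add₀ hne]
          congr 1
          rw [hN]
          ring
        have h7 : π ^ 2 ≤ 10 := by nlinarith only [hpi4, hpi]
        rw [mul_pow]
        calc π ^ 2 * (b ^ m * u) ^ 2 / 2 ≤ 10 * (b ^ m * b ^ D) ^ 2 / 2 := by (clear * - h7 h5 hb hu0; gcongr)
          _ = 5 * (b ^ m * b ^ D) ^ 2 := by ring
          _ = 5 * ((b ^ 2) ^ E)⁻¹ * (b ^ 2) ^ (m - N) := by rw [h6]; ring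
      have h3 := le_abs_self (cos (π * (b ^ m * u)))
      linarith only [h1, h2, h3]
  have hhigh : c ^ K ≤ ∏ m ∈ F.filter (fun m => ¬ m ≤ N), |cos (π * (b ^ m * u))| := by
    have hsub : F.filter (fun m => ¬ m ≤ N) ⊆ Finset.Ioc N M := by
      intro m hm
      rw [Finset.mem_filter] at hm
      rw [Finset.mem_Ioc]
      refine ⟨by omega, ?_⟩
      rw [hM, Int.le_floor]
      have h1 := hF m hm.1
      have h2 : 0 < ρ ^ 2 := by positivity
      rw [← one_div, le_div_iff₀ h2]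
      exact h1
    calc c ^ K ≤ c ^ (F.filter (fun m => ¬ m ≤ N)).card :=
          pow_le_pow_of_le_one hc.le hc1 (Finset.card_le_card hsub)
      _ = ∏ _m ∈ F.filter (fun m => ¬ m ≤ N), c := by rw [Finset.prod_const]
      _ ≤ ∏ m ∈ F.filter (fun m => ¬ m ≤ N), |cos (π * (b ^ m * u))| :=
          Finset.prod_le_prod (fun i _ => hc.le) (fun i _ => hcu i)
  have : 0 ≤ c ^ K := by positivity
  exact mul_le_mul hlow hhigh this (by (clear * - hlow; (clear * - hlow; positivity)))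

theorem st_exists_min (S : Finset ℤ) (f : ℤ → ℝ) (hf : ∀ m ∈ S, 0 < f m) :
    ∃ c : ℝ, 0 < c ∧ ∀ m ∈ S, c ≤ f m := by
  classical
  induction S using Finset.induction_on with
  | empty => exact ⟨1, one_pos, by simp only [Finset.notMem_empty, IsEmpty.forall_iff, implies_true]⟩
  | insert a s ha ih =>
    obtain ⟨c, hc, h⟩ := ih (fun m hm => hf m (Finset.mem_insert_of_mem hm))
    refine ⟨min c (f a), lt_min hc (hf a (Finset.mem_insert_self a s)), ?_⟩
    intro m hm
    rcases Finset.mem_insert.mp hm with rfl | hm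
    · exact min_le_right _ _
    · exact (min_le_left _ _).trans (h m hm)

/-- A lower bound for all `m` from a lower bound for large `|m|` and nonvanishing. -/
theorem st_exists_lower {f : ℤ → ℝ} {M : ℤ} (h1 : ∀ m, M ≤ m → 1 / 2 ≤ f m)
    (h2 : ∀ m, m ≤ -M → 1 / 2 ≤ f m) (h0 : ∀ m, 0 < f m) : ∃ c : ℝ, 0 < c ∧ ∀ m, c ≤ f m := by
  obtain ⟨c, hc, h⟩ := st_exists_min (Finset.Ioo (-M) M) f (fun m _ => h0 m)
  refine ⟨min c (1 / 2), lt_min hc (by norm_num), fun m => ?_⟩
  by_cases hm1 : M ≤ m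
  · exact (min_le_right _ _).trans (h1 m hm1)
  by_cases hm2 : m ≤ -M
  · exact (min_le_right _ _).trans (h2 m hm2)
  · exact (min_le_left _ _).trans (h m (Finset.mem_Ioo.mpr ⟨by omega, by omega⟩))

theorem st_norm_zpow (hζ : ‖ζ‖ = 1) (m : ℤ) (w : ℂ) : |2 * (ζ ^ m * w).re| ≤ 2 * ‖w‖ := by
  rw [abs_mul, abs_two]
  have h1 := Complex.abs_re_le_norm (ζ ^ m * w)
  rw [norm_mul, norm_zpow, hζ, one_zpow, one_mul] at h1
  linarith

/-- (L6) the starting triple. -/
theorem exists_start (hb : 1 < b) (hζ : ‖ζ‖ = 1) (hi : IsIntegral ℤ b) (hi' : IsIntegral ℤ b⁻¹)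
    (hT : ∀ n : ℤ, ∃ k : ℤ, b ^ n + b ^ (-n) + 2 * (ζ ^ n).re = k) :
    ∃ (g : ℕ) (u s : ℝ) (w : ℂ) (c : ℝ), Adm b ζ u s w ∧ 0 < u ∧ u ≤ b ^ g ∧ |s| ≤ 1 ∧
      ‖w‖ ≤ 1 / 16 ∧ 0 < c ∧ (∀ m : ℤ, c ≤ |cos (π * (b ^ m * u))|) ∧
      (∀ m : ℤ, c ≤ |cos (π * (b ^ (-m) * s))|) := by
  have hb0 : (0 : ℝ) < b := by linarith
  have hpi4 : π < 3.15 := Real.pi_lt_d2
  obtain ⟨g, hg1, hg⟩ : ∃ g : ℕ, 1 ≤ g ∧ ‖ζ ^ g - 1‖ ≤ 1 / 16 := by
    obtain ⟨q, hq0, -, hq⟩ := st_dirichlet_aux hζ (show 1 ≤ 1000 by norm_num)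
    refine ⟨q, hq0, hq.trans ?_⟩
    push_cast
    linarith only [hpi4]
  have hA := (adm_one hi hT).step hb hζ hi hi' g
  simp only [mul_one] at hA
  set u : ℝ := b ^ g - 1 with hu
  set s : ℝ := b⁻¹ ^ g - 1 with hs
  set w : ℂ := ζ ^ g - 1 with hw
  have hbg : 1 < b ^ g := one_lt_pow₀ hb (by omega)
  have hu0 : 0 < u := by rw [hu]; linarith only [hbg]
  have hug : u ≤ b ^ g := by rw [hu]; linarith only []
  have hs1 : |s| ≤ 1 := by
    have h1 : b⁻¹ ^ g ≤ 1 := pow_le_one₀ (by positivity) (inv_le_one_of_one_le₀ hb.le)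
    have h2 : 0 ≤ b⁻¹ ^ g := by positivity
    rw [abs_le]
    constructor <;> rw [hs] <;> linarith only [h1, h2]
  -- large exponents
  obtain ⟨E, hE⟩ := pow_unbounded_of_one_lt 16 hb
  set M : ℤ := (E + g : ℤ) with hM
  have key : ∀ m : ℤ, M ≤ m → b ^ (-m) * b ^ g ≤ 1 / 16 := by
    intro m hm
    have hne : b ≠ 0 := hb0.ne'
    have h1 : b ^ (-m) * b ^ g = b ^ (-(m - g)) := by
      rw [← zpow_natCast b g, ← zpow_add₀ hne]
      congr 1
      ring
    have h2 : b ^ (-(m - g)) ≤ b ^ (-(E : ℤ)) := by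
      apply zpow_le_zpow_right₀ hb.le
      omega
    have h3 : b ^ (-(E : ℤ)) ≤ 1 / 16 := by
      rw [zpow_neg, zpow_natCast, one_div]
      exact inv_anti₀ (by norm_num) hE.le
    rw [h1]
    exact h2.trans h3
  have keyU : ∀ m : ℤ, M ≤ m → |b ^ (-m) * u| ≤ 1 / 16 := by
    intro m hm
    have h1 : 0 < b ^ (-m) := zpow_pos hb0 _
    rw [abs_of_nonneg (by (clear * - hb hbg; positivity))]
    calc b ^ (-m) * u ≤ b ^ (-m) * b ^ g := by (clear * - hug hb; gcongr)
      _ ≤ 1 / 16 := key m hm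
  have keyS : ∀ m : ℤ, M ≤ m → |b ^ (-m) * s| ≤ 1 / 16 := by
    intro m hm
    have h1 : 0 < b ^ (-m) := zpow_pos hb0 _
    rw [abs_mul, abs_of_pos h1]
    calc b ^ (-m) * |s| ≤ b ^ (-m) * b ^ g := by
          gcongr
          linarith only [hbg, hs1]
      _ ≤ 1 / 16 := key m hm
  have hR : ∀ m : ℤ, |2 * (ζ ^ m * w).re| ≤ 1 / 8 := by
    intro m
    have := st_norm_zpow hζ m w
    linarith only [hg, this]
  have hcu : ∃ c : ℝ, 0 < c ∧ ∀ m : ℤ, c ≤ |cos (π * (b ^ m * u))| := by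
    refine st_exists_lower (M := M) ?_ ?_ ?_
    · intro m hm
      obtain ⟨k, hk⟩ := hA.int m
      have h1 : b ^ m * u = k - (b ^ (-m) * s + 2 * (ζ ^ m * w).re) := by linarith only [hk]
      rw [h1, st_abs_cos_int_sub]
      apply st_half_le_abs_cos
      have h2 := abs_add_le (b ^ (-m) * s) (2 * (ζ ^ m * w).re)
      have h3 := keyS m hm
      have h4 := hR m
      linarith only [h2, h3, h4]
    · intro m hm
      apply st_half_le_abs_cos
      have h2 := keyU (-m) (by omega)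
      rw [neg_neg] at h2
      linarith only [h2]
    · intro m
      exact abs_pos.mpr (hA.cos_u_ne hb hi hi' m)
  have hcs : ∃ c : ℝ, 0 < c ∧ ∀ m : ℤ, c ≤ |cos (π * (b ^ (-m) * s))| := by
    refine st_exists_lower (M := M) ?_ ?_ ?_
    · intro m hm
      apply st_half_le_abs_cos
      have h2 := keyS m hm
      linarith only [h2]
    · intro m hm
      obtain ⟨k, hk⟩ := hA.int m
      have h1 : b ^ (-m) * s = k - (b ^ m * u + 2 * (ζ ^ m * w).re) := by linarith only [hk]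
      rw [h1, st_abs_cos_int_sub]
      apply st_half_le_abs_cos
      have h2 := abs_add_le (b ^ m * u) (2 * (ζ ^ m * w).re)
      have h3 := keyU (-m) (by omega)
      rw [neg_neg] at h3
      have h4 := hR m
      linarith only [h2, h3, h4]
    · intro m
      exact abs_pos.mpr (hA.cos_s_ne hb hi hi' m)
  obtain ⟨c1, hc1, h1⟩ := hcu
  obtain ⟨c2, hc2, h2⟩ := hcs
  exact ⟨g, u, s, w, min c1 c2, hA, hu0, hug, hs1, hg, lt_min hc1 hc2,
    fun m => (min_le_left _ _).trans (h1 m), fun m => (min_le_right _ _).trans (h2 m)⟩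

end Analysis

end Vale.Agent.P105.Salem
end
end

section

section

/-!
# The iteration
-/

open MeasureTheory Real Filter Topology
open scoped ENNReal

namespace Vale.Agent.P105.Salem

variable {b : ℝ} {ζ : ℂ}

/-- The states of the construction. -/
structure St (b : ℝ) (ζ : ℂ) (c₀ u₀ u s : ℝ) (w : ℂ) (D : ℕ) (ρ : ℝ) : Prop where
  adm : Adm b ζ u s w
  hD : 1 ≤ D
  hu₀ : u₀ ≤ u
  huD : u ≤ b ^ D
  hs : |s| ≤ 1
  hw : ‖w‖ ≤ ρ
  hρ : 0 < ρ
  cu : ∀ m : ℤ, c₀ + 8 * π * ((b ^ D)⁻¹ + ρ) ≤ |cos (π * (b ^ m * u))|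
  cs : ∀ m : ℤ, c₀ + 8 * π * ((b ^ D)⁻¹ + ρ) ≤ |cos (π * (b ^ (-m) * s))|

theorem abs_step_s_le (hb : 1 < b) {s : ℝ} (hs : |s| ≤ 1) (g : ℕ) :
    |(b⁻¹ ^ g - 1) * s| ≤ 1 := by
  have hb0 : 0 < b := by linarith
  rw [abs_mul]
  have h1 : |b⁻¹ ^ g - 1| ≤ 1 := by
    have h2 : b⁻¹ ^ g ≤ 1 := pow_le_one₀ (by positivity) (inv_le_one_of_one_le₀ hb.le)
    have h3 : 0 < b⁻¹ ^ g := by positivity
    rw [abs_le]
    constructor <;> linarith only [h2, h3]
  calc |b⁻¹ ^ g - 1| * |s| ≤ 1 * 1 := mul_le_mul h1 hs (abs_nonneg _) (by norm_num)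
    _ = 1 := one_mul 1

theorem St.step (hb : 1 < b) (hζ : ‖ζ‖ = 1) (hi : IsIntegral ℤ b) (hi' : IsIntegral ℤ b⁻¹)
    {c₀ u₀ u s : ℝ} {w : ℂ} {D : ℕ} {ρ : ℝ} (hu₀ : 0 < u₀) (h : St b ζ c₀ u₀ u s w D ρ)
    {g : ℕ} {ρ' : ℝ} (hg : 4 * D ≤ g) (h2 : 2 ≤ b ^ (4 * D)) (hρρ' : ‖ζ ^ g - 1‖ * ρ ≤ ρ')
    (hρ'0 : 0 < ρ') (hρ' : ρ' ≤ ρ / 2) :
    St b ζ c₀ u₀ ((b ^ g - 1) * u) ((b⁻¹ ^ g - 1) * s) ((ζ ^ g - 1) * w) (D + g) ρ' := by
  have hb0 : 0 < b := by linarith only [hb]
  have hu : 0 < u := lt_of_lt_of_le hu₀ h.hu₀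
  have hbg : 2 ≤ b ^ g := h2.trans (pow_le_pow_right₀ hb.le hg)
  have hw' : ‖(ζ ^ g - 1) * w‖ ≤ ρ' := by
    rw [norm_mul]
    exact (mul_le_mul_of_nonneg_left h.hw (norm_nonneg _)).trans hρρ'
  have hE : 0 < (b ^ D)⁻¹ := by positivity
  have hE' : (b ^ (D + g))⁻¹ ≤ (b ^ D)⁻¹ / 2 := by
    rw [pow_add, mul_inv, div_eq_mul_inv]
    refine mul_le_mul_of_nonneg_left ?_ hE.le
    exact inv_anti₀ (by norm_num) hbg
  obtain ⟨k1, k2⟩ := h.adm.cos_step hb hζ hg h.hD hu h.huD h.hs hw' hi hi' h.cu h.cs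
  have hfin : c₀ + 8 * π * ((b ^ (D + g))⁻¹ + ρ') ≤
      c₀ + 8 * π * ((b ^ D)⁻¹ + ρ) - π * ((b ^ D)⁻¹ + 2 * ρ') := by
    have hpi := pi_pos
    have h3 : π * (b ^ (D + g))⁻¹ ≤ π * ((b ^ D)⁻¹ / 2) := mul_le_mul_of_nonneg_left hE' hpi.le
    have h4 : π * ρ' ≤ π * (ρ / 2) := mul_le_mul_of_nonneg_left hρ' hpi.le
    have h5 : 0 < π * (b ^ D)⁻¹ := by positivity
    have h6 : 0 < π * ρ := mul_pos hpi h.hρ
    linarith only [h3, h4, h5, h6]
  refine ⟨h.adm.step hb hζ hi hi' g, by have := h.hD; omega, ?_, ?_, abs_step_s_le hb h.hs g, hw',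
    hρ'0, fun m => hfin.trans (k1 m), fun m => hfin.trans (k2 m)⟩
  · have : u ≤ (b ^ g - 1) * u := by nlinarith only [hu, hbg]
    exact h.hu₀.trans this
  · rw [pow_add, mul_comm (b ^ D)]
    have h3 : (b ^ g - 1) * u ≤ b ^ g * u := by linarith only [hu]
    exact h3.trans (mul_le_mul_of_nonneg_left h.huD (by positivity))

theorem select (hζ : ‖ζ‖ = 1) {D : ℕ} (hD : 1 ≤ D) {ρ : ℝ} (hρ : 0 < ρ)
    (hρs : ρ ≤ 1 / 10 ^ 20) (hDρ : (D : ℝ) * ρ ≤ 2) :
    ∃ (g : ℕ) (ρ' : ℝ), 4 * D ≤ g ∧ ‖ζ ^ g - 1‖ * ρ ≤ ρ' ∧ 0 < ρ' ∧ ρ' ≤ ρ / 2 ∧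
      ((D : ℝ) + g) * ρ ^ 2 ≤ 1 ∧ ((D : ℝ) + g) ^ 4 * ρ' ^ 3 ≤ 1 ∧
      ((D : ℝ) ^ 4 * ρ ^ 3 ≤ 1 → ρ' ^ 8 ≤ ρ ^ 17) := by
  have hD' : (1 : ℝ) ≤ D := by exact_mod_cast hD
  set X : ℝ := (ρ ^ 2)⁻¹ with hX
  have hρ2 : 0 < ρ ^ 2 := by positivity
  have hXρ : X * ρ ^ 2 = 1 := by rw [hX]; field_simp
  have hX4 : 4 ≤ X := by
    rw [hX]
    rw [le_inv_comm₀ (by norm_num) hρ2]
    have : ρ ^ 2 ≤ (1 / 10 ^ 20) ^ 2 := pow_le_pow_left₀ hρ.le hρs 2
    norm_num at this ⊢
    linarith only [this]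
  set Q : ℕ := ⌊X / 2⌋₊ with hQ
  have hQ1 : (Q : ℝ) ≤ X / 2 := Nat.floor_le (by linarith only [hX4])
  have hQ2 : X / 2 < Q + 1 := Nat.lt_floor_add_one _
  have hQ3 : X / 4 ≤ Q := by linarith only [hX4, hQ2]
  have hQpos : (0 : ℝ) < Q := by linarith only [hX4, hQ2]
  have hQn : 1 ≤ Q := by
    have : 0 < Q := by exact_mod_cast hQpos
    omega
  have hQinv : 1 / (Q : ℝ) ≤ 4 * ρ ^ 2 := by
    rw [div_le_iff₀ hQpos]
    nlinarith only [hXρ, hX4, hQ2]
  have hpi : π < 3.15 := pi_lt_d2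
  have hpi0 := pi_pos
  obtain ⟨g, hg, h⟩ := dirichlet hζ (d := 4 * D) (Q := Q) (by omega) hQn
  rcases h with ⟨hgQ, hn⟩ | ⟨hgD, hn⟩
  · refine ⟨g, 26 * ρ ^ 3, hg, ?_, by positivity, ?_, ?_, ?_, ?_⟩
    · have h1 : ‖ζ ^ g - 1‖ ≤ 26 * ρ ^ 2 := by
        refine hn.trans ?_
        rw [mul_div_assoc, ← mul_one_div]
        have : 2 * (π * (1 / (Q : ℝ))) ≤ 2 * (π * (4 * ρ ^ 2)) := by
          (clear * - hQinv; gcongr)
        linarith only [mul_nonneg_of_nonpos_of_nonpos (Mathlib.Tactic.Linarith.sub_nonpos_of_le (sq_nonneg ρ)) (le_of_lt (Mathlib.Tactic.Linarith.sub_neg_of_lt hpi)), this, sq_nonneg ρ]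
      calc ‖ζ ^ g - 1‖ * ρ ≤ 26 * ρ ^ 2 * ρ := mul_le_mul_of_nonneg_right h1 hρ.le
        _ = 26 * ρ ^ 3 := by ring
    · have : ρ ^ 2 ≤ (1 / 10 ^ 20) ^ 2 := pow_le_pow_left₀ hρ.le hρs 2
      nlinarith
    · have hg' : (g : ℝ) ≤ Q := by exact_mod_cast hgQ
      have h1 : (D : ℝ) * ρ ^ 2 ≤ 2 * ρ := by nlinarith only [hρ, hDρ]
      have h2 : (g : ℝ) * ρ ^ 2 ≤ 1 / 2 := by linarith only [mul_nonneg_of_nonpos_of_nonpos (Mathlib.Tactic.Linarith.sub_nonpos_of_le (sq_nonneg ρ)) (Mathlib.Tactic.Linarith.sub_nonpos_of_le hg'), mul_nonneg_of_nonpos_of_nonpos (Mathlib.Tactic.Linarith.sub_nonpos_of_le (sq_nonneg ρ)) (Mathlib.Tactic.Linarith.sub_nonpos_of_le hQ1), hXρ]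
      linarith only [hρs, h1, h2]
    · have hg' : (g : ℝ) ≤ Q := by exact_mod_cast hgQ
      have h0 : (D : ℝ) ≤ X / 2 := by
        have h1 : (D : ℝ) * ρ ^ 2 ≤ 2 * ρ := by nlinarith only [hρ, hDρ]
        have h2 : 2 * ρ ≤ 1 / 2 := by linarith only [hρs]
        have h3 : (D : ℝ) * ρ ^ 2 ≤ X / 2 * ρ ^ 2 := by linarith only [hρs, hXρ, h1]
        exact le_of_mul_le_mul_right h3 hρ2
      have h1 : (D : ℝ) + g ≤ X := by linarith only [hQ1, hg', h0]
      have h2 : ((D : ℝ) + g) ^ 4 ≤ X ^ 4 := pow_le_pow_left₀ (by (clear * - hD; positivity)) h1 4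
      calc ((D : ℝ) + g) ^ 4 * (26 * ρ ^ 3) ^ 3 ≤ X ^ 4 * (26 * ρ ^ 3) ^ 3 := by (clear * - h2 hρ; gcongr)
        _ = 26 ^ 3 * (X * ρ ^ 2) ^ 4 * ρ := by ring
        _ = 26 ^ 3 * ρ := by rw [hXρ]; ring
        _ ≤ 26 ^ 3 * (1 / 10 ^ 20) := by (clear * - hρs; gcongr)
        _ ≤ 1 := by norm_num1
    · intro _
      have h7 : ρ ^ 7 ≤ (1 / 10 ^ 20) ^ 7 := pow_le_pow_left₀ hρ.le hρs 7
      calc (26 * ρ ^ 3) ^ 8 = (26 ^ 8 * ρ ^ 7) * ρ ^ 17 := by ring
        _ ≤ (26 ^ 8 * (1 / 10 ^ 20) ^ 7) * ρ ^ 17 := by (clear * - h7 hρ; gcongr)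
        _ ≤ 1 * ρ ^ 17 := by
            have : (26 : ℝ) ^ 8 * (1 / 10 ^ 20) ^ 7 ≤ 1 := by norm_num1
            (clear * - this hρ; gcongr)
        _ = ρ ^ 17 := one_mul _
  · have hgD' : (g : ℝ) ≤ 8 * D := by
      have : (g : ℝ) ≤ 2 * (4 * D) := by exact_mod_cast hgD
      linarith only [this]
    refine ⟨g, 202 * D * ρ ^ 3, hg, ?_, by positivity, ?_, ?_, ?_, ?_⟩
    · have h1 : ‖ζ ^ g - 1‖ ≤ 202 * D * ρ ^ 2 := by
        refine hn.trans ?_
        rw [← mul_one_div]
        push_cast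
        have h3 : 4 * π * (4 * (D : ℝ)) * (1 / (Q : ℝ)) ≤ 4 * π * (4 * (D : ℝ)) * (4 * ρ ^ 2) := by
          (clear * - hQinv hD; gcongr)
        have h4 : 4 * π * (4 * (D : ℝ)) * (4 * ρ ^ 2) = 64 * π * (D * ρ ^ 2) := by ring
        have h5 : 0 < (D : ℝ) * ρ ^ 2 := by positivity
        linarith only [h5, h3, mul_pos_of_neg_of_neg (Mathlib.Tactic.Linarith.sub_neg_of_lt h5) (Mathlib.Tactic.Linarith.sub_neg_of_lt hpi)]
      calc ‖ζ ^ g - 1‖ * ρ ≤ 202 * D * ρ ^ 2 * ρ := mul_le_mul_of_nonneg_right h1 hρ.le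
        _ = 202 * D * ρ ^ 3 := by ring
    · have h1 : 202 * (D : ℝ) * ρ ^ 3 = 202 * (D * ρ) * ρ * ρ := by ring
      rw [h1]
      have h2 : 202 * ((D : ℝ) * ρ) * ρ ≤ 202 * 2 * (1 / 10 ^ 20) := by (clear * - hDρ hρs hρ; gcongr)
      have h3 : 202 * ((D : ℝ) * ρ) * ρ ≤ 1 / 2 := h2.trans (by norm_num1)
      nlinarith only [hDρ, hρs, hρ, hρ2]
    · have h1 : ((D : ℝ) + g) * ρ ^ 2 ≤ 9 * D * ρ ^ 2 := by
        have : (D : ℝ) + g ≤ 9 * D := by linarith only [hgD']
        (clear * - this hρ; gcongr)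
      have h2 : 9 * (D : ℝ) * ρ ^ 2 = 9 * (D * ρ) * ρ := by ring
      have h3 : 9 * ((D : ℝ) * ρ) * ρ ≤ 9 * 2 * (1 / 10 ^ 20) := by (clear * - hDρ hρs hρ; gcongr)
      rw [h2] at h1
      refine h1.trans (h3.trans (by norm_num1))
    · have h1 : (D : ℝ) + g ≤ 9 * D := by linarith only [hgD']
      calc ((D : ℝ) + g) ^ 4 * (202 * D * ρ ^ 3) ^ 3 ≤ (9 * D) ^ 4 * (202 * D * ρ ^ 3) ^ 3 := by
            (clear * - hD h1 hρ; gcongr)
        _ = 9 ^ 4 * 202 ^ 3 * (D * ρ) ^ 7 * ρ ^ 2 := by ring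
        _ ≤ 9 ^ 4 * 202 ^ 3 * 2 ^ 7 * (1 / 10 ^ 20) ^ 2 := by (clear * - hD hρ hDρ hρs; gcongr)
        _ ≤ 1 := by norm_num1
    · intro hI
      calc (202 * (D : ℝ) * ρ ^ 3) ^ 8 = 202 ^ 8 * (D ^ 4 * ρ ^ 3) ^ 2 * ρ * ρ ^ 17 := by ring
        _ ≤ 202 ^ 8 * 1 ^ 2 * (1 / 10 ^ 20) * ρ ^ 17 := by (clear * - hD hρ hI hρs; gcongr)
        _ ≤ 1 * ρ ^ 17 := by
            have : (202 : ℝ) ^ 8 * 1 ^ 2 * (1 / 10 ^ 20) ≤ 1 := by norm_num
            (clear * - this hρ; gcongr)
        _ = ρ ^ 17 := one_mul _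

end Vale.Agent.P105.Salem
end
end

section

section

/-!
# Existence of good states
-/

open MeasureTheory Real Filter Topology
open scoped ENNReal

namespace Vale.Agent.P105.Salem

variable {b : ℝ} {ζ : ℂ}

/-- The invariants along the iteration. -/
def Good (b : ℝ) (ζ : ℂ) (c₀ u₀ E ρs : ℝ) (n : ℕ) (r A : ℝ) : Prop :=
  ∃ (u s : ℝ) (w : ℂ) (D : ℕ) (ρ a : ℝ), St b ζ c₀ u₀ u s w D ρ ∧ (b ^ D)⁻¹ ≤ E ∧ ρ ≤ ρs ∧
    (D : ℝ) ^ 4 * ρ ^ 3 ≤ 1 ∧ n ≤ D ∧ 0 < a ∧ Star b u a ρ ∧ r ≤ -log ρ ∧ -log a ≤ A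

theorem D_mul_rho_le {D : ℕ} {ρ : ℝ} (hρ : 0 < ρ) (hI : (D : ℝ) ^ 4 * ρ ^ 3 ≤ 1)
    {t : ℝ} (ht : 0 ≤ t) (h : ρ ≤ t ^ 4) : (D : ℝ) * ρ ≤ t := by
  have h1 : ((D : ℝ) * ρ) ^ 4 ≤ t ^ 4 := by
    calc ((D : ℝ) * ρ) ^ 4 = (D ^ 4 * ρ ^ 3) * ρ := by ring
      _ ≤ 1 * ρ := by gcongr
      _ = ρ := one_mul ρ
      _ ≤ t ^ 4 := h
  exact le_of_pow_le_pow_left₀ (by norm_num) ht h1

theorem Good.step (hb : 1 < b) (hζ : ‖ζ‖ = 1) (hi : IsIntegral ℤ b) (hi' : IsIntegral ℤ b⁻¹)
    {c₀ u₀ E ρs : ℝ} (hc₀ : 0 < c₀) (hu₀ : 0 < u₀) (hE : E ≤ 1 / 16)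
    (hE2 : 2 * E / (1 - b⁻¹) ≤ c₀ / 28) (hρs : ρs ≤ 1 / 10 ^ 20)
    (hρs2 : ρs ≤ (c₀ / 168) ^ 4) (h2 : E ^ 4 ≤ 1 / 2) {n : ℕ} {r A : ℝ}
    (h : Good b ζ c₀ u₀ E ρs n r A) :
    Good b ζ c₀ u₀ E ρs (n + 1) (17 / 8 * r) (2 * A + -log (kap b)) := by
  obtain ⟨u, s, w, D, ρ, a, hS, hbD, hρ, hI, hn, ha, hst, hr, hA⟩ := h
  have hb0 : 0 < b := by linarith only [hb]
  have hρ0 := hS.hρ
  have hρ1 : ρ ≤ 1 / 10 ^ 20 := hρ.trans hρs
  have hDρ : (D : ℝ) * ρ ≤ 2 :=
    D_mul_rho_le hρ0 hI (by norm_num) (hρ1.trans (by norm_num))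
  have hDρ' : (D : ℝ) * ρ ≤ c₀ / 168 :=
    D_mul_rho_le hρ0 hI (by positivity) (hρ.trans hρs2)
  have hu : 0 < u := lt_of_lt_of_le hu₀ hS.hu₀
  have h24 : 2 ≤ b ^ (4 * D) := by
    have h3 : ((b ^ D)⁻¹) ^ 4 ≤ 1 / 2 := (pow_le_pow_left₀ (by positivity) hbD 4).trans h2
    have h4 : 0 < b ^ (4 * D) := by positivity
    have h5 : ((b ^ D)⁻¹) ^ 4 = (b ^ (4 * D))⁻¹ := by
      rw [inv_pow, ← pow_mul, mul_comm D 4]
    rw [h5] at h3
    rw [inv_le_comm₀ h4 (by norm_num)] at h3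
    norm_num1 at h3
    exact h3
  obtain ⟨g, ρ', hg, hρρ', hρ'0, hρ', hgρ, hI', hρ17⟩ := select hζ hS.hD hρ0 hρ1 hDρ
  have hS' := hS.step hb hζ hi hi' hu₀ hg h24 hρρ' hρ'0 hρ'
  have hcu : ∀ m : ℤ, c₀ ≤ |cos (π * (b ^ m * u))| := fun m => by
    refine le_trans ?_ (hS.cu m)
    have : 0 ≤ 8 * π * ((b ^ D)⁻¹ + ρ) := by positivity
    linarith only [this]
  have hbinv : b⁻¹ < 1 := inv_lt_one_of_one_lt₀ hb
  have hε : 7 / c₀ * (2 * (b ^ D)⁻¹ / (1 - b⁻¹) + 6 * D * ρ) ≤ 1 / 2 := by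
    have h3 : 2 * (b ^ D)⁻¹ / (1 - b⁻¹) ≤ c₀ / 28 := by
      refine le_trans ?_ hE2
      have : 0 < 1 - b⁻¹ := by linarith only [hbinv]
      (clear * - hbD hbinv; gcongr)
    have h4 : 6 * (D : ℝ) * ρ ≤ c₀ / 28 := by
      have : 6 * (D : ℝ) * ρ = 6 * (D * ρ) := by ring
      rw [this]
      linarith only [hDρ']
    calc 7 / c₀ * (2 * (b ^ D)⁻¹ / (1 - b⁻¹) + 6 * D * ρ) ≤ 7 / c₀ * (c₀ / 28 + c₀ / 28) := by
          (clear * - h3 h4 hc₀; gcongr)
      _ = 1 / 2 := by field_simp; norm_num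
  have hρ'32 : ρ' ≤ 1 / 32 := by
    have : (1 : ℝ) / 10 ^ 20 ≤ 1 / 32 := by norm_num1
    linarith only [hρs, hρ, hρ']
  have hst' := Star.step hb hζ hi hi' hS.adm hg hS.hD hu hS.huD hS.hs hS.hw
    (hρ1.trans (by norm_num)) (hbD.trans hE) hc₀ hcu hε hgρ hS'.hw hρ'32 ha hst
  have hkap := kap_pos b
  refine ⟨_, _, _, D + g, ρ', kap b * a ^ 2, hS', ?_, ?_, ?_, ?_, by (clear * - hkap ha; positivity), hst', ?_, ?_⟩
  · refine le_trans ?_ hbD
    exact inv_anti₀ (by positivity) (pow_le_pow_right₀ hb.le (by omega))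
  · linarith only [hρ, hρ'0, hρ']
  · push_cast
    exact hI'
  · have := hS.hD
    omega
  · have h3 : 8 * log ρ' ≤ 17 * log ρ := by
      have := log_le_log (by (clear * - hρ'0; positivity)) (hρ17 hI)
      rwa [log_pow, log_pow] at this
    linarith only [hr, h3]
  · rw [log_mul hkap.ne' (by positivity), log_pow]
    push_cast
    linarith only [hA]

theorem Good.iterate (hb : 1 < b) (hζ : ‖ζ‖ = 1) (hi : IsIntegral ℤ b) (hi' : IsIntegral ℤ b⁻¹)
    {c₀ u₀ E ρs : ℝ} (hc₀ : 0 < c₀) (hu₀ : 0 < u₀) (hE : E ≤ 1 / 16)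
    (hE2 : 2 * E / (1 - b⁻¹) ≤ c₀ / 28) (hρs : ρs ≤ 1 / 10 ^ 20)
    (hρs2 : ρs ≤ (c₀ / 168) ^ 4) (h2 : E ^ 4 ≤ 1 / 2) {r A : ℝ}
    (h : Good b ζ c₀ u₀ E ρs 0 r A) (n : ℕ) :
    Good b ζ c₀ u₀ E ρs n ((17 / 8) ^ n * r) (2 ^ n * (A + -log (kap b)) - -log (kap b)) := by
  induction n with
  | zero => simpa using h
  | succ n ih =>
    have := ih.step hb hζ hi hi' hc₀ hu₀ hE hE2 hρs hρs2 h2
    convert this using 1 <;> ring

/-- The numbers of the first step. -/
theorem first_numbers (hζ : ‖ζ‖ = 1) {w : ℂ} (hw : ‖w‖ ≤ 1 / 16) {D : ℕ} (hD1 : 1 ≤ D)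
    {ρs : ℝ} (hρs0 : 0 < ρs) :
    ∃ (g : ℕ) (ρ₁ : ℝ), 4 * D ≤ g ∧ 0 < ρ₁ ∧ ρ₁ ≤ ρs ∧
      ‖(ζ ^ g - 1) * w‖ ≤ ρ₁ ∧ ((D + g : ℕ) : ℝ) * ρ₁ ≤ 2 := by
  have hpi := pi_pos
  have hpi4 : π < 4 := by linarith only [pi_lt_d2]
  have hDpos : (0 : ℝ) < D := by exact_mod_cast hD1
  obtain ⟨Q, hQ⟩ := exists_nat_ge (max (36 * (D : ℝ) ^ 2) (4 * D / ρs))
  have hQ1 : 36 * (D : ℝ) ^ 2 ≤ Q := (le_max_left _ _).trans hQ
  have hQ2 : 4 * (D : ℝ) / ρs ≤ Q := (le_max_right _ _).trans hQ
  have hQpos : (0 : ℝ) < Q := lt_of_lt_of_le (by positivity) hQ1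
  have hQn : 1 ≤ Q := by
    have : 0 < Q := by exact_mod_cast hQpos
    omega
  have hQ3 : 4 * (D : ℝ) / Q ≤ ρs := by
    rw [div_le_iff₀ hQpos]
    rw [div_le_iff₀ hρs0] at hQ2
    linarith only [hQ2]
  have hDQ : (D : ℝ) ≤ Q := by
    have : (1 : ℝ) ≤ D := by exact_mod_cast hD1
    linarith only [hQ1, mul_nonneg_of_nonpos_of_nonpos (Mathlib.Tactic.Linarith.sub_nonpos_of_le (Mathlib.Tactic.Linarith.natCast_nonneg ℝ D)) (Mathlib.Tactic.Linarith.sub_nonpos_of_le this)]
  obtain ⟨g, hg, hgc⟩ := dirichlet hζ (d := 4 * D) (Q := Q) (by omega) hQn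
  rcases hgc with ⟨hgQ, hn⟩ | ⟨hgD, hn⟩
  · refine ⟨g, 1 / Q, hg, by (clear * - hQn; positivity), ?_, ?_, ?_⟩
    · refine le_trans ?_ hQ3
      have : (1 : ℝ) ≤ 4 * D := by
        have : (1 : ℝ) ≤ D := by exact_mod_cast hD1
        linarith only [this]
      (clear * - this hQn; gcongr)
    · rw [norm_mul]
      calc ‖ζ ^ g - 1‖ * ‖w‖ ≤ (2 * π / Q) * (1 / 16) := by (clear * - hn hw hQn; gcongr)
        _ = (π / 8) * (1 / Q) := by ring
        _ ≤ 1 * (1 / Q) := by gcongr; linarith only [hpi4]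
        _ = 1 / Q := one_mul _
    · push_cast
      have hg' : (g : ℝ) ≤ Q := by exact_mod_cast hgQ
      rw [mul_one_div, div_le_iff₀ hQpos]
      linarith only [hDQ, hg']
  · refine ⟨g, 4 * D / Q, hg, by (clear * - hD1 hQn; positivity), hQ3, ?_, ?_⟩
    · rw [norm_mul]
      push_cast at hn
      calc ‖ζ ^ g - 1‖ * ‖w‖ ≤ (4 * π * (4 * D) / Q) * (1 / 16) := by (clear * - hn hw hD1 hQn; gcongr)
        _ = (π / 4) * (4 * D / Q) := by ring
        _ ≤ 1 * (4 * D / Q) := by gcongr; linarith only [hpi4]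
        _ = 4 * D / Q := one_mul _
    · push_cast
      have hg' : (g : ℝ) ≤ 8 * D := by
        have : (g : ℝ) ≤ 2 * (4 * D) := by exact_mod_cast hgD
        linarith only [this]
      have h3 : ((D : ℝ) + g) * (4 * D / Q) ≤ (9 * D) * (4 * D / Q) := by
        gcongr
        linarith only [hg']
      refine h3.trans ?_
      rw [← mul_div_assoc, div_le_iff₀ hQpos]
      linarith only [hQ1]

theorem two_le_pow_of {E : ℝ} (hb : 1 < b) (hE4 : E ^ 4 ≤ 1 / 2) {D' : ℕ}
    (hD' : (b ^ D')⁻¹ ≤ E) : 2 ≤ b ^ (4 * D') := by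
  have hb0 : 0 < b := by linarith only [hb]
  have h3 : ((b ^ D')⁻¹) ^ 4 ≤ 1 / 2 := (pow_le_pow_left₀ (by positivity) hD' 4).trans hE4
  have h4 : 0 < b ^ (4 * D') := by positivity
  have h5 : ((b ^ D')⁻¹) ^ 4 = (b ^ (4 * D'))⁻¹ := by
    rw [inv_pow, ← pow_mul, mul_comm D' 4]
  rw [h5, inv_le_comm₀ h4 (by norm_num)] at h3
  norm_num1 at h3
  exact h3

theorem exists_D (hb : 1 < b) (g₀ : ℕ) {E : ℝ} (hE0 : 0 < E) :
    ∃ D : ℕ, g₀ ≤ D ∧ 1 ≤ D ∧ (b ^ D)⁻¹ ≤ E := by
  have hb0 : 0 < b := by linarith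
  have hbinv : b⁻¹ < 1 := inv_lt_one_of_one_lt₀ hb
  have ht : Tendsto (fun n : ℕ => (b⁻¹) ^ n) atTop (𝓝 0) :=
    tendsto_pow_atTop_nhds_zero_of_lt_one (by positivity) hbinv
  have := ((ht.eventually (eventually_le_nhds hE0)).and (eventually_ge_atTop (max g₀ 1))).exists
  obtain ⟨D, hD, hD2⟩ := this
  exact ⟨D, (le_max_left _ _).trans hD2, (le_max_right _ _).trans hD2, by
    rwa [inv_pow] at hD⟩

/-- The first state. -/
theorem first_state (hb : 1 < b) (hζ : ‖ζ‖ = 1) (hi : IsIntegral ℤ b) (hi' : IsIntegral ℤ b⁻¹)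
    {g₀ : ℕ} {u s : ℝ} {w : ℂ} {c : ℝ} (hadm : Adm b ζ u s w) (hu : 0 < u) (hug : u ≤ b ^ g₀)
    (hs : |s| ≤ 1) (hw : ‖w‖ ≤ 1 / 16)
    (hcu : ∀ m : ℤ, c ≤ |cos (π * (b ^ m * u))|)
    (hcs : ∀ m : ℤ, c ≤ |cos (π * (b ^ (-m) * s))|)
    {E ρs : ℝ} (hE0 : 0 < E) (hEc : E ≤ c / 1000) (hE4 : E ^ 4 ≤ 1 / 2) (hρs0 : 0 < ρs)
    (hρs3 : ρs ≤ c / 1000) :
    ∃ (u' s' : ℝ) (w' : ℂ) (D : ℕ) (ρ : ℝ), St b ζ (c / 2) u u' s' w' D ρ ∧
      (b ^ D)⁻¹ ≤ E ∧ ρ ≤ ρs ∧ (D : ℝ) * ρ ≤ 2 := by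
  have hb0 : 0 < b := by linarith only [hb]
  have hpi := pi_pos
  have hpi4 : π < 4 := by linarith only [pi_lt_d2]
  obtain ⟨D, hDg, hD1, hDE⟩ := exists_D hb g₀ hE0
  have huD : u ≤ b ^ D := hug.trans (pow_le_pow_right₀ hb.le hDg)
  obtain ⟨g, ρ₁, hg, hρ₁0, hρ₁s, hw₁, hDρ₁⟩ := first_numbers hζ hw hD1 hρs0
  have hbg : 2 ≤ b ^ g := (two_le_pow_of hb hE4 hDE).trans (pow_le_pow_right₀ hb.le hg)
  have hDE' : (b ^ (D + g))⁻¹ ≤ E := by
    refine le_trans ?_ hDE
    exact inv_anti₀ (by positivity) (pow_le_pow_right₀ hb.le (by omega))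
  obtain ⟨k1, k2⟩ := hadm.cos_step hb hζ hg hD1 hu huD hs hw₁ hi hi' hcu hcs
  have hfin : c / 2 + 8 * π * ((b ^ (D + g))⁻¹ + ρ₁) ≤ c - π * ((b ^ D)⁻¹ + 2 * ρ₁) := by
    have h3 : π * (b ^ (D + g))⁻¹ ≤ 4 * (c / 1000) := by
      have h4 : (b ^ (D + g))⁻¹ ≤ c / 1000 := hDE'.trans hEc
      have h5 : 0 < (b ^ (D + g))⁻¹ := by positivity
      exact mul_le_mul hpi4.le h4 h5.le (by norm_num)
    have h3' : π * (b ^ D)⁻¹ ≤ 4 * (c / 1000) := by
      have h4 : (b ^ D)⁻¹ ≤ c / 1000 := hDE.trans hEc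
      have h5 : 0 < (b ^ D)⁻¹ := by positivity
      exact mul_le_mul hpi4.le h4 h5.le (by norm_num)
    have h3'' : π * ρ₁ ≤ 4 * (c / 1000) :=
      mul_le_mul hpi4.le (hρ₁s.trans hρs3) hρ₁0.le (by norm_num)
    linarith only [hE0, hEc, h3, h3', h3'']
  refine ⟨_, _, _, D + g, ρ₁, ⟨hadm.step hb hζ hi hi' g, by omega, ?_, ?_,
    abs_step_s_le hb hs g, hw₁, hρ₁0, fun m => hfin.trans (k1 m), fun m => hfin.trans (k2 m)⟩,
    hDE', hρ₁s, hDρ₁⟩
  · nlinarith only [hu, hbg]
  · rw [pow_add, mul_comm (b ^ D)]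
    have h3 : (b ^ g - 1) * u ≤ b ^ g * u := by linarith only [hu]
    exact h3.trans (mul_le_mul_of_nonneg_left huD (by positivity))

/-- The first good state. -/
theorem first_good (hb : 1 < b) (hζ : ‖ζ‖ = 1) (hi : IsIntegral ℤ b) (hi' : IsIntegral ℤ b⁻¹)
    {c₀ u₀ E ρs : ℝ} (hc₀ : 0 < c₀) (hu₀ : 0 < u₀) (hE4 : E ^ 4 ≤ 1 / 2)
    (hρs1 : ρs ≤ 1 / 10 ^ 20) {u s : ℝ} {w : ℂ} {D : ℕ} {ρ : ℝ} (hS : St b ζ c₀ u₀ u s w D ρ)
    (hDE : (b ^ D)⁻¹ ≤ E) (hρs : ρ ≤ ρs) (hDρ : (D : ℝ) * ρ ≤ 2) :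
    ∃ r A : ℝ, 0 < r ∧ Good b ζ c₀ u₀ E ρs 0 r A := by
  have hb0 : 0 < b := by linarith only [hb]
  obtain ⟨g₂, ρ₂, hg₂, hρρ₂, hρ₂0, hρ₂, -, hI₂, -⟩ :=
    select hζ hS.hD hS.hρ (hρs.trans hρs1) hDρ
  have hS₂ := hS.step hb hζ hi hi' hu₀ hg₂ (two_le_pow_of hb hE4 hDE) hρρ₂ hρ₂0 hρ₂
  have hcu₂ : ∀ m : ℤ, c₀ ≤ |cos (π * (b ^ m * ((b ^ g₂ - 1) * u)))| := fun m => by
    refine le_trans ?_ (hS₂.cu m)
    have : 0 ≤ 8 * π * ((b ^ (D + g₂))⁻¹ + ρ₂) := by (clear * - hb hρ₂0; positivity)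
    linarith only [this]
  have hu₂ : 0 < (b ^ g₂ - 1) * u := lt_of_lt_of_le hu₀ hS₂.hu₀
  obtain ⟨a₂, ha₂, hst₂⟩ := exists_star hb hu₂ hS₂.huD hρ₂0 hc₀ hcu₂
  have hr₂ : 0 < -log ρ₂ := by
    have : ρ₂ < 1 := by
      have : (1 : ℝ) / 10 ^ 20 < 1 := by norm_num
      linarith only [hρs1, hρs, hρ₂]
    linarith only [log_neg hρ₂0 this]
  refine ⟨-log ρ₂, -log a₂, hr₂, _, _, _, _, ρ₂, a₂, hS₂, ?_, ?_, ?_, Nat.zero_le _, ha₂, hst₂,
    le_refl _, le_refl _⟩
  · refine le_trans ?_ hDE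
    exact inv_anti₀ (by positivity) (pow_le_pow_right₀ hb.le (by omega))
  · have := hS.hρ
    linarith only [hρs, hρ₂0, hρ₂]
  · push_cast at hI₂ ⊢
    exact hI₂

/-- Growth of the iterates. -/
theorem exists_n (hb : 1 < b) {r A K η : ℝ} (hr : 0 < r) (hη : 0 < η) :
    ∃ n : ℕ, |log η| ≤ (17 / 8) ^ n * r ∧ (b⁻¹) ^ n ≤ η ∧
      4 * (2 ^ n * (A + K) - K) ≤ (17 / 8) ^ n * r := by
  have hb0 : 0 < b := by linarith
  have hbinv : b⁻¹ < 1 := inv_lt_one_of_one_lt₀ hb
  have hlim1 : Tendsto (fun n : ℕ => (17 / 16 : ℝ) ^ n) atTop atTop :=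
    tendsto_pow_atTop_atTop_of_one_lt (by norm_num)
  have hlim2 : Tendsto (fun n : ℕ => (17 / 8 : ℝ) ^ n) atTop atTop :=
    tendsto_pow_atTop_atTop_of_one_lt (by norm_num)
  have hlim3 : Tendsto (fun n : ℕ => (b⁻¹) ^ n) atTop (𝓝 0) :=
    tendsto_pow_atTop_nhds_zero_of_lt_one (by positivity) hbinv
  have hev := ((hlim1.eventually_ge_atTop (4 * (|A + K| + |K|) / r)).and
    ((hlim2.eventually_ge_atTop (|log η| / r)).and
      (hlim3.eventually (eventually_le_nhds hη)))).exists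
  obtain ⟨n, hn1, hn2, hn3⟩ := hev
  rw [div_le_iff₀ hr] at hn1 hn2
  refine ⟨n, hn2, hn3, ?_⟩
  have h2n : (1 : ℝ) ≤ 2 ^ n := one_le_pow₀ (by norm_num)
  have h4 : (17 / 8 : ℝ) ^ n = 2 ^ n * (17 / 16) ^ n := by
    rw [← mul_pow]; norm_num
  rw [h4, mul_assoc]
  have h5 : 4 * (2 ^ n * (A + K) - K) ≤ 2 ^ n * (4 * (|A + K| + |K|)) := by
    have h6 : A + K ≤ |A + K| := le_abs_self _
    have h7 : -K ≤ |K| := neg_le_abs K
    have h8 : 2 ^ n * (A + K) ≤ 2 ^ n * |A + K| := by (clear * - h6; gcongr)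
    have h9 : |K| ≤ 2 ^ n * |K| := le_mul_of_one_le_left (abs_nonneg K) h2n
    linarith only [h7, h8, h9]
  exact h5.trans (mul_le_mul_of_nonneg_left hn1 (by positivity))

/-- Extraction of the final state. -/
theorem good_final (hb : 1 < b) {c₀ u₀ E ρs r A η : ℝ} (hη : 0 < η) {n : ℕ}
    (h1 : |log η| ≤ r) (h2 : (b⁻¹) ^ n ≤ η) (h3 : 4 * A ≤ r)
    (h : Good b ζ c₀ u₀ E ρs n r A) :
    ∃ (u s : ℝ) (w : ℂ) (D : ℕ) (ρ a : ℝ), Adm b ζ u s w ∧ 1 ≤ D ∧ u₀ ≤ u ∧ u ≤ b ^ D ∧
        |s| ≤ 1 ∧ ‖w‖ ≤ ρ ∧ 0 < ρ ∧ ρ ≤ η ∧ (b ^ D)⁻¹ ≤ η ∧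
        (∀ m : ℤ, c₀ ≤ |cos (π * (b ^ m * u))|) ∧ (D : ℝ) ^ 4 * ρ ^ 3 ≤ 1 ∧
        0 < a ∧ ρ ≤ a ^ 4 ∧ Star b u a ρ := by
  have hb0 : 0 < b := by linarith only [hb]
  have hbinv : b⁻¹ < 1 := inv_lt_one_of_one_lt₀ hb
  obtain ⟨u', s', w', D', ρ', a', hS', -, hρ's, hI', hnD, ha', hst', hr', hA'⟩ := h
  have hρ'0 := hS'.hρ
  refine ⟨u', s', w', D', ρ', a', hS'.adm, hS'.hD, hS'.hu₀, hS'.huD, hS'.hs, hS'.hw, hρ'0, ?_, ?_,
    ?_, hI', ha', ?_, hst'⟩
  · have h4 : log ρ' ≤ log η := by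
      have := neg_abs_le (log η)
      linarith only [h1, hr', this]
    exact (log_le_log_iff hρ'0 hη).1 h4
  · refine le_trans ?_ h2
    rw [← inv_pow]
    exact pow_le_pow_of_le_one (by positivity) hbinv.le hnD
  · intro m
    refine le_trans ?_ (hS'.cu m)
    have : 0 ≤ 8 * π * ((b ^ D')⁻¹ + ρ') := by positivity
    linarith only [this]
  · have h5 : log ρ' ≤ log (a' ^ 4) := by
      rw [log_pow]
      push_cast
      linarith only [h3, hr', hA']
    exact (log_le_log_iff hρ'0 (by positivity)).1 h5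

/-- The final states. -/
theorem exists_states (hb : 1 < b) (hζ : ‖ζ‖ = 1) (hi : IsIntegral ℤ b) (hi' : IsIntegral ℤ b⁻¹)
    (hT : ∀ n : ℤ, ∃ k : ℤ, b ^ n + b ^ (-n) + 2 * (ζ ^ n).re = k) :
    ∃ c u₀ : ℝ, 0 < c ∧ 0 < u₀ ∧ ∀ η : ℝ, 0 < η →
      ∃ (u s : ℝ) (w : ℂ) (D : ℕ) (ρ a : ℝ), Adm b ζ u s w ∧ 1 ≤ D ∧ u₀ ≤ u ∧ u ≤ b ^ D ∧
        |s| ≤ 1 ∧ ‖w‖ ≤ ρ ∧ 0 < ρ ∧ ρ ≤ η ∧ (b ^ D)⁻¹ ≤ η ∧
        (∀ m : ℤ, c ≤ |cos (π * (b ^ m * u))|) ∧ (D : ℝ) ^ 4 * ρ ^ 3 ≤ 1 ∧
        0 < a ∧ ρ ≤ a ^ 4 ∧ Star b u a ρ := by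
  have hb0 : 0 < b := by linarith
  have hbinv : b⁻¹ < 1 := inv_lt_one_of_one_lt₀ hb
  obtain ⟨g₀, u, s, w, c, hadm, hu, hug, hs, hw, hc, hcu, hcs⟩ := exists_start hb hζ hi hi' hT
  -- thresholds
  have hc₀ : 0 < c / 2 := by (clear * - hc; positivity)
  obtain ⟨E, hE0, hE16, hEc, hE3⟩ : ∃ E : ℝ, 0 < E ∧ E ≤ 1 / 16 ∧ E ≤ c / 1000 ∧
      E ≤ c / 2 * (1 - b⁻¹) / 56 := by
    have h4 : 0 < 1 - b⁻¹ := by linarith only [hbinv]
    refine ⟨min (1 / 16) (min (c / 1000) (c / 2 * (1 - b⁻¹) / 56)), ?_, min_le_left _ _,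
      (min_le_right _ _).trans (min_le_left _ _), (min_le_right _ _).trans (min_le_right _ _)⟩
    exact lt_min (by norm_num) (lt_min (by positivity) (by (clear * - hc hbinv; positivity)))
  have hE2 : 2 * E / (1 - b⁻¹) ≤ c / 2 / 28 := by
    have h4 : 0 < 1 - b⁻¹ := by linarith only [hbinv]
    rw [div_le_iff₀ h4]
    linarith only [hE3]
  have hE4 : E ^ 4 ≤ 1 / 2 := by
    have := pow_le_pow_left₀ hE0.le hE16 4
    norm_num at this ⊢
    linarith only [this]
  obtain ⟨ρs, hρs0, hρs1, hρs2, hρs3⟩ : ∃ ρs : ℝ, 0 < ρs ∧ ρs ≤ 1 / 10 ^ 20 ∧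
      ρs ≤ (c / 2 / 168) ^ 4 ∧ ρs ≤ c / 1000 := by
    refine ⟨min (1 / 10 ^ 20) (min ((c / 2 / 168) ^ 4) (c / 1000)), ?_, min_le_left _ _,
      (min_le_right _ _).trans (min_le_left _ _), (min_le_right _ _).trans (min_le_right _ _)⟩
    exact lt_min (by norm_num) (lt_min (by positivity) (by positivity))
  obtain ⟨u₁, s₁, w₁, D₁, ρ₁, hS₁, hDE₁, hρ₁s, hDρ₁⟩ :=
    first_state hb hζ hi hi' hadm hu hug hs hw hcu hcs hE0 hEc hE4 hρs0 hρs3
  obtain ⟨r, A, hr, hG⟩ := first_good hb hζ hi hi' hc₀ hu hE4 hρs1 hS₁ hDE₁ hρ₁s hDρ₁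
  refine ⟨c / 2, u, hc₀, hu, fun η hη => ?_⟩
  obtain ⟨n, hn1, hn2, hn3⟩ := exists_n hb (A := A) (K := -log (kap b)) hr hη
  exact good_final hb hη hn1 hn2 hn3
    (hG.iterate hb hζ hi hi' hc₀ hu hE16 hE2 hρs1 hρs2 hE4 n)

end Vale.Agent.P105.Salem
end
end

section

section

/-!
# Salem numbers of degree four: traces, and an example
-/

open MeasureTheory Real Filter Topology
open scoped ENNReal

set_option linter.unusedSimpArgs false

namespace Vale.Agent.P105.Salem

section Trace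

open Polynomial

/-- integrality of the traces. -/
lemma trace_int {b : ℝ} {ζ : ℂ} (hb : 1 < b) (hζ : ‖ζ‖ = 1) (A C : ℤ)
    (hA : b + b⁻¹ + 2 * ζ.re = A) (hC : (b + b⁻¹) * (2 * ζ.re) = C) (n : ℕ) :
    ∃ k : ℤ, b ^ n + b⁻¹ ^ n + 2 * (ζ ^ n).re = k := by
  have hb0 : b ≠ 0 := by positivity
  have hζ2 : ζ ^ 2 = (2 * ζ.re : ℝ) * ζ - 1 := by
    have h1 : ζ.re ^ 2 + ζ.im ^ 2 = 1 := by
      have h2 := Complex.sq_norm ζ
      rw [hζ, Complex.normSq_apply] at h2
      linarith only [h2]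
    apply Complex.ext
    · simp only [pow_two, Complex.mul_re, Complex.ofReal_mul, Complex.ofReal_ofNat, Complex.sub_re, Complex.re_ofNat, Complex.ofReal_re, Complex.im_ofNat, Complex.ofReal_im, mul_zero, sub_zero, Complex.mul_im, zero_mul, add_zero, Complex.one_re]; linarith only [h1]
    · simp only [pow_two, Complex.mul_im, Complex.ofReal_mul, Complex.ofReal_ofNat, Complex.sub_im, Complex.mul_re, Complex.re_ofNat, Complex.ofReal_re, Complex.im_ofNat, Complex.ofReal_im, mul_zero, sub_zero, zero_mul, add_zero, Complex.one_im]; ring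
  have hτ : ∀ n : ℕ, (ζ ^ (n + 2)).re = 2 * ζ.re * (ζ ^ (n + 1)).re - (ζ ^ n).re := by
    intro n
    have h1 : ζ ^ (n + 2) = ((2 * ζ.re : ℝ) : ℂ) * ζ ^ (n + 1) - ζ ^ n := by
      rw [pow_add, hζ2]; ring
    rw [h1, Complex.sub_re, Complex.re_ofReal_mul]
  have hB : ∀ n : ℕ, b ^ (n + 2) + b⁻¹ ^ (n + 2) =
      (b + b⁻¹) * (b ^ (n + 1) + b⁻¹ ^ (n + 1)) - (b ^ n + b⁻¹ ^ n) := by
    intro n
    have h1 : b * b⁻¹ = 1 := mul_inv_cancel₀ hb0
    have h2 : b * b⁻¹ ^ (n + 1) = b⁻¹ ^ n := by rw [pow_succ']; rw [← mul_assoc, h1, one_mul]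
    have h3 : b⁻¹ * b ^ (n + 1) = b ^ n := by
      rw [pow_succ', ← mul_assoc, mul_comm b⁻¹, h1, one_mul]
    linear_combination -h2 - h3
  have key : ∀ n : ℕ, (∃ k : ℤ, b ^ n + b⁻¹ ^ n + 2 * (ζ ^ n).re = k) ∧
      (∃ k : ℤ, 2 * ζ.re * (b ^ n + b⁻¹ ^ n) + (b + b⁻¹) * (2 * (ζ ^ n).re) = k) ∧
      (∃ k : ℤ, b ^ (n + 1) + b⁻¹ ^ (n + 1) + 2 * (ζ ^ (n + 1)).re = k) ∧
      (∃ k : ℤ, 2 * ζ.re * (b ^ (n + 1) + b⁻¹ ^ (n + 1)) +
        (b + b⁻¹) * (2 * (ζ ^ (n + 1)).re) = k) := by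
    intro n
    induction n with
    | zero =>
      refine ⟨⟨4, by simp only [pow_zero, Complex.one_re, mul_one, Int.cast_ofNat]; norm_num⟩, ⟨2 * A, ?_⟩, ⟨A, ?_⟩, ⟨2 * C, ?_⟩⟩
      · push_cast; rw [← hA]; simp only [pow_zero, Complex.one_re, mul_one]; ring
      · rw [← hA]; simp
      · push_cast; rw [← hC]; simp only [pow_one]; ring
    | succ n ih =>
      obtain ⟨⟨k1, h1⟩, ⟨k2, h2⟩, ⟨k3, h3⟩, ⟨k4, h4⟩⟩ := ih
      refine ⟨⟨k3, h3⟩, ⟨k4, h4⟩, ⟨A * k3 - k4 - k1, ?_⟩, ⟨C * k3 - k2, ?_⟩⟩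
      · push_cast
        rw [← hA, ← h3, ← h4, ← h1, hτ, hB]
        ring
      · push_cast
        rw [← hC, ← h3, ← h2, hτ, hB]
        ring
  exact (key n).1

/-- polynomials of degree at most three vanishing at an element of degree four. -/
lemma coeff_zero_of_vanish {ζ : ℂ} (h4 : (minpoly ℚ ζ).natDegree = 4)
    (p q r s : ℚ) (h : (p : ℂ) * ζ ^ 3 + q * ζ ^ 2 + r * ζ + s = 0) :
    p = 0 ∧ q = 0 ∧ r = 0 ∧ s = 0 := by
  set g : ℚ[X] := C p * X ^ 3 + C q * X ^ 2 + C r * X + C s with hg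
  have hval : aeval ζ g = 0 := by
    rw [hg]
    simp only [map_add, map_mul, aeval_C, map_pow, aeval_X]
    exact h
  have hdeg : g.natDegree < 4 := by
    have h1 : g.natDegree ≤ 3 := by
      rw [hg]
      compute_degree
    omega
  have hg0 : g = 0 := by
    by_contra hne
    have h1 := natDegree_le_natDegree (minpoly.degree_le_of_ne_zero ℚ ζ hne hval)
    omega
  have e0 : g.coeff 0 = s := by rw [hg]; simp only [coeff_add, mul_coeff_zero, coeff_C, ↓reduceIte, coeff_X_pow, OfNat.zero_ne_ofNat, mul_zero, add_zero, coeff_X, one_ne_zero, zero_add]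
  have e1 : g.coeff 1 = r := by rw [hg]; simp [coeff_X, coeff_C]
  have e2 : g.coeff 2 = q := by rw [hg]; simp only [coeff_add, coeff_C_mul, coeff_X_pow, Nat.reduceEqDiff, ↓reduceIte, mul_zero, mul_one, zero_add, coeff_mul_X, coeff_C_succ, add_zero]
  have e3 : g.coeff 3 = p := by rw [hg]; simp only [coeff_add, coeff_C_mul, coeff_X_pow, ↓reduceIte, mul_one, Nat.succ_ne_self, mul_zero, add_zero, coeff_mul_X, coeff_C_succ]
  rw [hg0, coeff_zero] at e0 e1 e2 e3
  exact ⟨e3.symm, e2.symm, e1.symm, e0.symm⟩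

/-- (S1) From a Salem number of degree four to the trace identities. -/
theorem exists_zeta_of_salem {b : ℝ} (h : IsSalem b) (h4 : (minpoly ℚ b).natDegree = 4) :
    IsIntegral ℤ b⁻¹ ∧ ∃ ζ : ℂ, ‖ζ‖ = 1 ∧
      ∀ n : ℤ, ∃ k : ℤ, b ^ n + b ^ (-n) + 2 * (ζ ^ n).re = k := by
  obtain ⟨hb, hint, -, ζ, hζr, hζ⟩ := h
  have hbQ : IsIntegral ℚ b := hint.tower_top
  have hirr : Irreducible (minpoly ℚ b) := minpoly.irreducible hbQ
  have hmon : (minpoly ℚ b).Monic := minpoly.monic hbQ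
  have hmin : minpoly ℚ ζ = minpoly ℚ b :=
    (minpoly.eq_of_irreducible_of_monic hirr hζr hmon).symm
  have hζQ : IsIntegral ℚ ζ := ⟨minpoly ℚ b, hmon, hζr⟩
  have h4' : (minpoly ℚ ζ).natDegree = 4 := by rw [hmin, h4]
  have hmap : minpoly ℚ b = (minpoly ℤ b).map (algebraMap ℤ ℚ) :=
    minpoly.isIntegrallyClosed_eq_field_fractions' ℚ hint
  set F := minpoly ℤ b with hF
  have hFm : F.Monic := minpoly.monic hint
  have hF4 : F.natDegree = 4 := by
    rw [hmap, hFm.natDegree_map] at h4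
    exact h4
  obtain ⟨a, ha⟩ : ∃ a, F.coeff 3 = a := ⟨_, rfl⟩
  obtain ⟨c, hc⟩ : ∃ a, F.coeff 2 = a := ⟨_, rfl⟩
  obtain ⟨d, hd⟩ : ∃ a, F.coeff 1 = a := ⟨_, rfl⟩
  obtain ⟨e, he⟩ : ∃ a, F.coeff 0 = a := ⟨_, rfl⟩
  have hlead : F.coeff 4 = 1 := by rw [← hF4]; exact hFm
  have hFeq : F = X ^ 4 + C a * X ^ 3 + C c * X ^ 2 + C d * X + C e := by
    rw [F.as_sum_range' 5 (by omega)]
    simp only [Finset.sum_range_succ, Finset.sum_range_zero, ha, hc, hd, he, hlead, zero_add,
      ← C_mul_X_pow_eq_monomial]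
    simp only [pow_zero, mul_one, pow_one, map_one, one_mul]
    ring
  have hfb : ∀ {K : Type} [Field K] [CharZero K] (z : K), aeval z F =
      z ^ 4 + a * z ^ 3 + c * z ^ 2 + d * z + e := by
    intro K _ _ z
    rw [hFeq]
    simp
  have hb1 : b ^ 4 + a * b ^ 3 + c * b ^ 2 + d * b + e = 0 := by
    rw [← hfb b]
    exact minpoly.aeval ℤ b
  have hζ1 : ζ ^ 4 + a * ζ ^ 3 + c * ζ ^ 2 + d * ζ + e = 0 := by
    rw [← hfb ζ, ← aeval_map_algebraMap ℚ, ← hmap]
    exact hζr
  have hnorm : ζ * (starRingEnd ℂ) ζ = 1 := by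
    rw [Complex.mul_conj, Complex.normSq_eq_norm_sq, hζ]; simp
  have hζ2 : 1 + a * ζ + c * ζ ^ 2 + d * ζ ^ 3 + e * ζ ^ 4 = 0 := by
    have h1 := congrArg (starRingEnd ℂ) hζ1
    simp only [map_add, map_pow, map_mul, map_intCast, map_zero] at h1
    set z := (starRingEnd ℂ) ζ with hz
    have h2 : ζ ^ 4 * (z ^ 4 + a * z ^ 3 + c * z ^ 2 + d * z + e) = 0 := by rw [h1, mul_zero]
    have h3 : ζ ^ 4 * (z ^ 4 + a * z ^ 3 + c * z ^ 2 + d * z + e) =
        (ζ * z) ^ 4 + a * ζ * (ζ * z) ^ 3 + c * ζ ^ 2 * (ζ * z) ^ 2 + d * ζ ^ 3 * (ζ * z) +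
        e * ζ ^ 4 := by ring
    rw [h3, hnorm] at h2
    linear_combination h2
  obtain ⟨e1, e2, e3, e4⟩ := coeff_zero_of_vanish h4' ((e * a - d : ℤ) : ℚ)
    ((e * c - c : ℤ) : ℚ) ((e * d - a : ℤ) : ℚ) ((e * e - 1 : ℤ) : ℚ)
    (by push_cast; linear_combination (e : ℂ) * hζ1 - hζ2)
  rw [Int.cast_eq_zero] at e1 e2 e3 e4
  have he1 : e = 1 := by
    have h1 : (e - 1) * (e + 1) = 0 := by linear_combination e4
    rcases mul_eq_zero.mp h1 with h2 | h2
    · omega
    · exfalso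
      have h3 : e = -1 := by omega
      rw [h3] at e1 e2
      have hroot : (minpoly ℚ b).IsRoot 1 := by
        rw [IsRoot, hmap, eval_map_algebraMap, hfb (1 : ℚ), h3]
        have h5 : (d : ℚ) = -a := by
          have : d = -a := by omega
          rw [this]; push_cast; ring
        have h6 : (c : ℚ) = 0 := by
          have : c = 0 := by omega
          rw [this]; simp
        rw [h5, h6]
        push_cast
        ring
      have h7 := degree_eq_one_of_irreducible_of_root hirr hroot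
      rw [degree_eq_natDegree hmon.ne_zero, h4] at h7
      norm_num at h7
  have hd' : d = a := by rw [he1] at e1; omega
  rw [he1, hd'] at hb1 hζ1
  have hb0 : b ≠ 0 := by positivity
  have hζ0 : ζ ≠ 0 := by
    intro h0
    rw [h0, norm_zero] at hζ
    exact zero_ne_one hζ
  -- quadratic equations for the traces
  have hy : (b + b⁻¹) ^ 2 + a * (b + b⁻¹) + (c - 2) = 0 := by
    have h1 : b ^ 2 * ((b + b⁻¹) ^ 2 + a * (b + b⁻¹) + (c - 2)) =
        b ^ 4 + a * b ^ 3 + c * b ^ 2 + a * b + (1 : ℤ) := by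
      field_simp
      push_cast
      ring
    rw [hb1] at h1
    exact (mul_eq_zero.mp h1).resolve_left (pow_ne_zero _ hb0)
  have ht : (2 * ζ.re) ^ 2 + a * (2 * ζ.re) + (c - 2) = 0 := by
    have h0 : ((2 * ζ.re : ℝ) : ℂ) = ζ + (starRingEnd ℂ) ζ := (Complex.add_conj ζ).symm
    have h1 : ζ ^ 2 * ((ζ + (starRingEnd ℂ) ζ) ^ 2 + a * (ζ + (starRingEnd ℂ) ζ) + (c - 2)) =
        ζ ^ 4 + a * ζ ^ 3 + c * ζ ^ 2 + a * ζ + (1 : ℤ) := by
      set z := (starRingEnd ℂ) ζ with hz
      push_cast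
      linear_combination (ζ * z + 1 + 2 * ζ ^ 2 + a * ζ) * hnorm
    rw [hζ1] at h1
    have h2 := (mul_eq_zero.mp h1).resolve_left (pow_ne_zero _ hζ0)
    rw [← h0] at h2
    exact_mod_cast h2
  have hlt : 2 * ζ.re < b + b⁻¹ := by
    have h1 : ζ.re ≤ 1 := (Complex.re_le_norm ζ).trans hζ.le
    have h2 : b * b⁻¹ = 1 := mul_inv_cancel₀ hb0
    have h3 : 0 < b⁻¹ := by positivity
    have h4 : b⁻¹ < 1 := inv_lt_one_of_one_lt₀ hb
    nlinarith only [h1, h2, hb]
  have hA : b + b⁻¹ + 2 * ζ.re = ((-a : ℤ) : ℝ) := by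
    have h1 : (b + b⁻¹ - 2 * ζ.re) * (b + b⁻¹ + 2 * ζ.re + a) = 0 := by
      linear_combination hy - ht
    have h2 := (mul_eq_zero.mp h1).resolve_left (by linarith only [hlt])
    push_cast
    linarith only [h2]
  have hC : (b + b⁻¹) * (2 * ζ.re) = ((c - 2 : ℤ) : ℝ) := by
    have h1 : 2 * ζ.re = -a - (b + b⁻¹) := by push_cast at hA; linarith only [hA]
    push_cast
    rw [h1]
    linear_combination -hy
  refine ⟨⟨F, hFm, ?_⟩, ζ, hζ, fun n => ?_⟩
  · have h1 : aeval b⁻¹ F = 0 := by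
      rw [hfb, he1, hd']
      field_simp
      push_cast at hb1 ⊢
      linear_combination hb1
    exact h1
  · obtain ⟨m, rfl | rfl⟩ := n.eq_nat_or_neg
    · obtain ⟨k, hk⟩ := trace_int hb hζ _ _ hA hC m
      refine ⟨k, ?_⟩
      rw [← hk, zpow_neg, zpow_natCast, zpow_natCast, inv_pow]
    · obtain ⟨k, hk⟩ := trace_int hb hζ _ _ hA hC m
      refine ⟨k, ?_⟩
      rw [← hk, neg_neg, zpow_neg, zpow_neg, zpow_natCast, zpow_natCast, inv_pow]
      have h1 : (ζ ^ m)⁻¹ = (starRingEnd ℂ) (ζ ^ m) := by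
        refine inv_eq_of_mul_eq_one_right ?_
        rw [map_pow, ← mul_pow, hnorm, one_pow]
      rw [h1, Complex.conj_re]
      ring

end Trace

section Example

open Polynomial

lemma exPoly_irreducible : Irreducible (X ^ 4 - X ^ 3 - X ^ 2 - X + 1 : ℤ[X]) := by
  set P : ℤ[X] := X ^ 4 - X ^ 3 - X ^ 2 - X + 1 with hP
  have hdeg : P.natDegree = 4 := by rw [hP]; compute_degree!
  have hmon : P.Monic := by rw [hP]; monicity!
  have hev : ∀ x : ℤ, P.eval x = x ^ 4 - x ^ 3 - x ^ 2 - x + 1 := by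
    intro x
    rw [hP]
    simp only [eval_add, eval_sub, eval_pow, eval_X, eval_one]
  rw [hmon.irreducible_iff_natDegree']
  refine ⟨?_, ?_⟩
  · intro h
    rw [h, natDegree_one] at hdeg
    omega
  · intro f g hf hg hfg hmem
    rw [hdeg, Finset.mem_Ioc] at hmem
    have hsum : f.natDegree + g.natDegree = 4 := by
      rw [← hf.natDegree_mul hg, hfg, hdeg]
    have hval : ∀ x : ℤ, f.eval x * g.eval x = x ^ 4 - x ^ 3 - x ^ 2 - x + 1 := by
      intro x
      rw [← eval_mul, hfg, hev]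
    have hg' := hg.coeff_natDegree
    have hf' := hf.coeff_natDegree
    obtain h1 | h2 : g.natDegree = 1 ∨ g.natDegree = 2 := by omega
    · -- a root
      rw [h1] at hg'
      have h3 := hval (-g.coeff 0)
      have h4 : g.eval (-g.coeff 0) = 0 := by
        rw [eval_eq_sum_range, h1]
        simp only [Nat.reduceAdd, Finset.sum_range_succ, Finset.range_one, Finset.sum_singleton, pow_zero, mul_one, hg', pow_one, mul_neg, one_mul, add_neg_cancel]
      rw [h4, mul_zero] at h3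
      set v := g.coeff 0 with hv
      have h5 : v * (-(v ^ 3 + v ^ 2 - v + 1)) = 1 := by linear_combination h3
      rcases Int.eq_one_or_neg_one_of_mul_eq_one h5 with h6 | h6
      · rw [h6] at h3; norm_num at h3
      · rw [h6] at h3; norm_num at h3
    · have hf2 : f.natDegree = 2 := by omega
      rw [h2] at hg'
      rw [hf2] at hf'
      have hfe : ∀ x : ℤ, f.eval x = f.coeff 0 + f.coeff 1 * x + x ^ 2 := by
        intro x
        rw [eval_eq_sum_range, hf2]
        simp only [Nat.reduceAdd, Finset.sum_range_succ, Finset.range_one, Finset.sum_singleton, pow_zero, mul_one, pow_one, hf', one_mul]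
      have hge : ∀ x : ℤ, g.eval x = g.coeff 0 + g.coeff 1 * x + x ^ 2 := by
        intro x
        rw [eval_eq_sum_range, h2]
        simp only [Nat.reduceAdd, Finset.sum_range_succ, Finset.range_one, Finset.sum_singleton, pow_zero, mul_one, pow_one, hg', one_mul]
      have v0 := hval 0
      have v1 := hval 1
      have v2 := hval (-1)
      rw [hfe, hge] at v0 v1 v2
      generalize f.coeff 0 = v at *
      generalize f.coeff 1 = u at *
      generalize g.coeff 0 = z at *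
      generalize g.coeff 1 = w at *
      have w0 : v * z = 1 := by linear_combination v0
      have w1 : (v + u + 1) * (-(z + w + 1)) = 1 := by linear_combination -v1
      have w2 : (v - u + 1) * (z - w + 1) = 3 := by linear_combination v2
      rcases Int.eq_one_or_neg_one_of_mul_eq_one w0 with h | h <;>
        rcases Int.eq_one_or_neg_one_of_mul_eq_one w1 with h' | h'
      · have hz : z = 1 := by rw [h] at w0; omega
        have hu : u = -1 := by omega
        have hw : w = -3 := by rw [h'] at w1; omega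
        rw [h, hz, hu, hw] at w2; norm_num at w2
      · have hz : z = 1 := by rw [h] at w0; omega
        have hu : u = -3 := by omega
        have hw : w = -1 := by rw [h'] at w1; omega
        rw [h, hz, hu, hw] at w2; norm_num at w2
      · have hz : z = -1 := by rw [h] at w0; omega
        have hu : u = 1 := by omega
        have hw : w = -1 := by rw [h'] at w1; omega
        rw [h, hz, hu, hw] at w2; norm_num at w2
      · have hz : z = -1 := by rw [h] at w0; omega
        have hu : u = -1 := by omega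
        have hw : w = 1 := by rw [h'] at w1; omega
        rw [h, hz, hu, hw] at w2; norm_num at w2

lemma minpoly_ex {b : ℝ} (h : b ^ 4 - b ^ 3 - b ^ 2 - b + 1 = 0) :
    IsIntegral ℤ b ∧ minpoly ℚ b = (X ^ 4 - X ^ 3 - X ^ 2 - X + 1 : ℤ[X]).map (algebraMap ℤ ℚ) := by
  have hmon : (X ^ 4 - X ^ 3 - X ^ 2 - X + 1 : ℤ[X]).Monic := by monicity!
  have hb : aeval b (X ^ 4 - X ^ 3 - X ^ 2 - X + 1 : ℤ[X]) = 0 := by
    simpa only [map_add, aeval_sub, map_pow, aeval_X, map_one] using h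
  refine ⟨⟨_, hmon, hb⟩, ?_⟩
  refine (minpoly.eq_of_irreducible_of_monic ?_ ?_ (hmon.map _)).symm
  · exact (hmon.irreducible_iff_irreducible_map_fraction_map (K := ℚ)).mp exPoly_irreducible
  · rw [aeval_map_algebraMap]
    exact hb

/-- (S2) The example `x ^ 4 - x ^ 3 - x ^ 2 - x + 1`. -/
theorem exists_example : ∃ b : ℝ, 1 < b ∧ b < 2 ∧ b ^ 4 - b ^ 3 - b ^ 2 - b + 1 = 0 ∧
    IsSalem b ∧ (minpoly ℚ b).natDegree = 4 ∧ ¬ IsPisot b := by
  obtain ⟨b, ⟨hb1, hb2⟩, hb⟩ : ∃ b ∈ Set.Icc (1.7 : ℝ) 1.8, b ^ 4 - b ^ 3 - b ^ 2 - b + 1 = 0 := by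
    have hc : ContinuousOn (fun x : ℝ => x ^ 4 - x ^ 3 - x ^ 2 - x + 1) (Set.Icc 1.7 1.8) := by
      (clear * -; fun_prop)
    have h := intermediate_value_Icc (by norm_num1) hc
    exact h ⟨by norm_num1, by norm_num⟩
  obtain ⟨hint, hmin⟩ := minpoly_ex hb
  have hb0 : b ≠ 0 := by linarith only [hb1]
  have hroot : ∀ z : ℂ, aeval z (minpoly ℚ b) = z ^ 4 - z ^ 3 - z ^ 2 - z + 1 := by
    intro z
    rw [hmin, aeval_map_algebraMap]
    simp
  set y : ℝ := b + b⁻¹ with hy
  have hyq : y ^ 2 - y - 3 = 0 := by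
    have h1 : b ^ 2 * (y ^ 2 - y - 3) = b ^ 4 - b ^ 3 - b ^ 2 - b + 1 := by
      rw [hy]
      field_simp
      ring
    rw [hb] at h1
    exact (mul_eq_zero.mp h1).resolve_left (pow_ne_zero _ hb0)
  have hinv : b⁻¹ < 1 := inv_lt_one_of_one_lt₀ (by linarith only [hb1])
  have hinv0 : 0 < b⁻¹ := by positivity
  have hylt : y < 3 := by rw [hy]; linarith only [hb2, hinv]
  have hygt : 2 < y := by
    by_contra hcon
    push Not at hcon
    have : 1.7 < y := by rw [hy]; linarith only [hb1, hinv0]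
    linarith only [hyq, hinv0, hb1, Mathlib.Tactic.Linarith.zero_mul_eq (sub_eq_zero_of_eq hyq) (sub_eq_zero_of_eq hyq), mul_nonneg_of_nonpos_of_nonpos (Mathlib.Tactic.Linarith.sub_nonpos_of_le (sq_nonneg y)) (Mathlib.Tactic.Linarith.sub_nonpos_of_le hcon), Mathlib.Tactic.Linarith.mul_zero_eq (Mathlib.Tactic.Linarith.sub_nonpos_of_le (sq_nonneg y)) (sub_eq_zero_of_eq hyq)]
  -- the root on the unit circle
  set t : ℝ := (1 - y) / 2 with ht
  have ht1 : 0 < 1 - t ^ 2 := by rw [ht]; linarith only [hyq, hygt]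
  obtain ⟨r, hsq⟩ : ∃ r : ℝ, r ^ 2 = 1 - t ^ 2 := ⟨√(1 - t ^ 2), Real.sq_sqrt ht1.le⟩
  set ζ : ℂ := ⟨t, r⟩ with hζ
  have hnorm : ‖ζ‖ = 1 := by
    have h1 : ‖ζ‖ ^ 2 = 1 := by
      rw [Complex.sq_norm, Complex.normSq_apply]
      simp only [hζ]
      linarith only [hsq]
    have h2 : (0 : ℝ) ≤ ‖ζ‖ := norm_nonneg _
    nlinarith only [h1, h2]
  have hζq : ζ ^ 2 - (1 - y : ℝ) * ζ + 1 = 0 := by
    apply Complex.ext
    · simp only [hζ, pow_two, Complex.sub_re, Complex.add_re, Complex.mul_re, Complex.ofReal_re,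
        Complex.ofReal_im, Complex.one_re, Complex.zero_re]
      rw [ht]
      rw [ht] at hsq
      linarith only [hsq]
    · simp only [hζ, pow_two, Complex.sub_im, Complex.add_im, Complex.mul_im, Complex.ofReal_re,
        Complex.ofReal_im, Complex.one_im, Complex.zero_im]
      rw [ht]
      ring
  have hfac : ∀ z : ℂ, z ^ 4 - z ^ 3 - z ^ 2 - z + 1 =
      (z ^ 2 - y * z + 1) * (z ^ 2 - (1 - y : ℝ) * z + 1) := by
    intro z
    have h1 : (y : ℂ) ^ 2 - y - 3 = 0 := by exact_mod_cast hyq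
    push_cast
    linear_combination z ^ 2 * h1
  have hζroot : aeval ζ (minpoly ℚ b) = 0 := by
    rw [hroot, hfac, hζq, mul_zero]
  have hquad : ∀ z : ℂ, z ^ 2 - y * z + 1 = (z - b) * (z - (b⁻¹ : ℝ)) := by
    intro z
    have h1 : (b : ℂ) * (b⁻¹ : ℝ) = 1 := by
      rw [← Complex.ofReal_mul, mul_inv_cancel₀ hb0, Complex.ofReal_one]
    rw [hy, Complex.ofReal_add]
    linear_combination -h1
  have hconj : ∀ z : ℂ, aeval z (minpoly ℚ b) = 0 → z ≠ (b : ℂ) → ‖z‖ ≤ 1 := by
    intro z hz hzb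
    rw [hroot, hfac] at hz
    rcases mul_eq_zero.mp hz with h1 | h1
    · rw [hquad] at h1
      have h2 := (mul_eq_zero.mp h1).resolve_left (sub_ne_zero.mpr hzb)
      rw [sub_eq_zero.mp h2, Complex.norm_real, Real.norm_of_nonneg hinv0.le]
      exact hinv.le
    · -- real and imaginary parts
      have hre := congrArg Complex.re h1
      have him := congrArg Complex.im h1
      simp only [pow_two, Complex.sub_re, Complex.add_re, Complex.mul_re, Complex.ofReal_re,
        Complex.ofReal_im, Complex.one_re, Complex.zero_re, Complex.sub_im, Complex.add_im,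
        Complex.mul_im, Complex.one_im, Complex.zero_im] at hre him
      have him' : z.im * (2 * z.re - (1 - y)) = 0 := by linear_combination him
      rcases mul_eq_zero.mp him' with h2 | h2
      · exfalso
        rw [h2] at hre
        linarith only [hyq, hygt, hre, sq_nonneg (z.re - (1 - y) / 2)]
      · have h3 : ‖z‖ ^ 2 = 1 := by
          rw [Complex.sq_norm, Complex.normSq_apply]
          have h4 : 1 - y = 2 * z.re := by linarith only [h2]
          rw [h4] at hre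
          linear_combination -hre
        have h4 : (0 : ℝ) ≤ ‖z‖ := norm_nonneg _
        nlinarith only [h3]
  refine ⟨b, by linarith only [hinv, hygt], by linarith only [hb2], hb, ⟨by linarith only [hinv, hygt], hint, hconj, ζ, hζroot, hnorm⟩, ?_, ?_⟩
  · rw [hmin, Monic.natDegree_map]
    · compute_degree!
    · monicity!
  · rintro ⟨-, -, h⟩
    have h1 : ζ ≠ (b : ℂ) := by
      intro h2
      rw [h2, Complex.norm_real, Real.norm_of_nonneg (by linarith only [hinv, hygt])] at hnorm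
      linarith only [hinv, hygt, hnorm]
    have h2 := h ζ hζroot h1
    rw [hnorm] at h2
    exact lt_irrefl _ h2

end Example

end Vale.Agent.P105.Salem
end
end

section

section

open Real Filter Topology Finset

namespace Vale.Agent.P105

lemma sum_shift_sub (f : ℕ → ℝ) (D N : ℕ) :
    ∑ k ∈ range N, (f (k + D) - f k) = ∑ j ∈ range D, (f (N + j) - f j) := by
  induction D with
  | zero => simp
  | succ D ih =>
    rw [sum_range_succ, ← ih]
    have h : ∑ k ∈ range N, (f (k + (D + 1)) - f (k + D)) = f (N + D) - f D := by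
      have := sum_range_sub (fun k => f (k + D)) N
      simp only [zero_add] at this
      rw [← this]
      refine sum_congr rfl fun k _ => ?_
      rw [show k + (D + 1) = k + 1 + D by ring]
    rw [← h, ← sum_add_distrib]
    refine sum_congr rfl fun k _ => ?_
    ring

/-- **Growth lemma.** A nonnegative monotone sequence whose increments satisfy an exponential
average bound grows linearly, faster than the critical rate. -/
lemma growth {ι : Type*} {I : Finset ι} {a : ι → ℝ} {s D : ι → ℕ} {κ η : ℝ}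
    (ha : ∀ i ∈ I, 0 ≤ a i) (hD : ∀ i ∈ I, 1 ≤ D i)
    (hκ0 : 0 ≤ κ) (hκ : κ < ∑ i ∈ I, a i * exp (-2 * (η * D i))) :
    ∃ c : ℝ, η < c ∧ ∀ (V : ℕ → ℝ) (k0 : ℕ), Monotone V → (∀ j, 0 ≤ V j) →
      (∀ i ∈ I, s i + D i ≤ k0) →
      (∀ k, k0 ≤ k → ∑ i ∈ I, a i * exp (-2 * (V (k - s i) - V (k - s i - D i))) ≤ κ) →
      ∀ N, c * N ≤ V (k0 + N) := by
  set b : ι → ℝ := fun i => a i * exp (-2 * (η * D i)) with hb
  set B := ∑ i ∈ I, b i with hB
  set S := ∑ i ∈ I, b i * D i with hS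
  have hb0 : ∀ i ∈ I, 0 ≤ b i := fun i hi => mul_nonneg (ha i hi) (exp_pos _).le
  have hBS : B ≤ S := by
    refine sum_le_sum fun i hi => ?_
    have h1 : (1 : ℝ) ≤ D i := by exact_mod_cast hD i hi
    have h2 := hb0 i hi
    linarith only [mul_nonneg_of_nonpos_of_nonpos (Mathlib.Tactic.Linarith.sub_nonpos_of_le h1) (Mathlib.Tactic.Linarith.sub_nonpos_of_le h2)]
  have hBκ : κ < B := hκ
  have hS0 : 0 < S := lt_of_le_of_lt hκ0 (hBκ.trans_le hBS)
  refine ⟨η + (B - κ) / (2 * S), ?_, ?_⟩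
  · have : 0 < (B - κ) / (2 * S) := div_pos (by linarith) (by linarith)
    linarith only [this]
  intro V k0 hmono hV0 hk0 hsum N
  -- per-step inequality
  have hstep : ∀ k, k0 ≤ k → (B - κ) + 2 * η * S ≤
      2 * ∑ i ∈ I, b i * (V (k - s i) - V (k - s i - D i)) := by
    intro k hk
    have h1 := hsum k hk
    have h2 : ∑ i ∈ I, b i * (1 + 2 * (η * D i) - 2 * (V (k - s i) - V (k - s i - D i))) ≤
        ∑ i ∈ I, a i * exp (-2 * (V (k - s i) - V (k - s i - D i))) := by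
      refine sum_le_sum fun i hi => ?_
      have h3 : exp (-2 * (V (k - s i) - V (k - s i - D i))) = exp (-2 * (η * D i)) *
          exp (2 * (η * D i) - 2 * (V (k - s i) - V (k - s i - D i))) := by
        rw [← exp_add]; congr 1; ring
      rw [h3, hb]
      simp only
      rw [mul_assoc]
      apply mul_le_mul_of_nonneg_left _ (ha i hi)
      apply mul_le_mul_of_nonneg_left _ (exp_pos _).le
      have := add_one_le_exp (2 * (η * D i) - 2 * (V (k - s i) - V (k - s i - D i)))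
      linarith only [this]
    have h4 : ∑ i ∈ I, b i * (1 + 2 * (η * D i) - 2 * (V (k - s i) - V (k - s i - D i))) =
        B + 2 * η * S - 2 * ∑ i ∈ I, b i * (V (k - s i) - V (k - s i - D i)) := by
      rw [hB, hS, mul_sum, mul_sum, ← sum_add_distrib, ← sum_sub_distrib]
      refine sum_congr rfl fun i _ => ?_
      ring
    rw [h4] at h2
    linarith only [h1, h2]
  -- telescoping
  have htel : ∀ i ∈ I, ∑ p ∈ range N, (V (k0 + p - s i) - V (k0 + p - s i - D i)) ≤
      D i * V (k0 + N) := by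
    intro i hi
    have hk := hk0 i hi
    have h1 := sum_shift_sub (fun p => V (k0 - s i - D i + p)) (D i) N
    have h2 : ∑ p ∈ range N, (V (k0 + p - s i) - V (k0 + p - s i - D i)) =
        ∑ p ∈ range N, (V (k0 - s i - D i + (p + D i)) - V (k0 - s i - D i + p)) := by
      refine sum_congr rfl fun p _ => ?_
      congr 2 <;> omega
    rw [h2, h1]
    calc ∑ j ∈ range (D i), (V (k0 - s i - D i + (N + j)) - V (k0 - s i - D i + j))
        ≤ ∑ j ∈ range (D i), V (k0 + N) := by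
          refine sum_le_sum fun j hj => ?_
          rw [mem_range] at hj
          have h3 := hV0 (k0 - s i - D i + j)
          have h4 : V (k0 - s i - D i + (N + j)) ≤ V (k0 + N) := hmono (by omega)
          linarith only [h3, h4]
      _ = _ := by rw [sum_const, card_range, nsmul_eq_mul]
  have htotal : N * ((B - κ) + 2 * η * S) ≤ 2 * (S * V (k0 + N)) := by
    calc N * ((B - κ) + 2 * η * S) = ∑ p ∈ range N, ((B - κ) + 2 * η * S) := by
          rw [sum_const, card_range, nsmul_eq_mul]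
      _ ≤ ∑ p ∈ range N, 2 * ∑ i ∈ I, b i * (V (k0 + p - s i) - V (k0 + p - s i - D i)) :=
          sum_le_sum fun p _ => hstep (k0 + p) (by omega)
      _ = 2 * ∑ i ∈ I, b i * ∑ p ∈ range N, (V (k0 + p - s i) - V (k0 + p - s i - D i)) := by
          rw [← mul_sum, sum_comm]
          congr 1
          refine sum_congr rfl fun i _ => ?_
          rw [mul_sum]
      _ ≤ 2 * ∑ i ∈ I, b i * (D i * V (k0 + N)) := by
          apply mul_le_mul_of_nonneg_left _ zero_le_two
          refine sum_le_sum fun i hi => ?_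
          exact mul_le_mul_of_nonneg_left (htel i hi) (hb0 i hi)
      _ = 2 * (S * V (k0 + N)) := by
          rw [hS, sum_mul]
          congr 1
          refine sum_congr rfl fun i _ => ?_
          ring
  have hfin : (η + (B - κ) / (2 * S)) * N = N * ((B - κ) + 2 * η * S) / (2 * S) := by
    field_simp
    ring
  rw [hfin, div_le_iff₀ (by linarith only [hκ0, hκ, hBS])]
  linarith only [htotal]

/-- `-log (1 - x) ≥ x + x ^ 2 / 2` -/
lemma add_sq_half_le_neg_log {x : ℝ} (h0 : 0 ≤ x) (h1 : x < 1) : x + x ^ 2 / 2 ≤ -log (1 - x) := by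
  have h := hasSum_pow_div_log_of_abs_lt_one (x := x) (by rw [abs_of_nonneg h0]; exact h1)
  have h2 := sum_le_hasSum (range 2) (fun i _ => by (clear * - h0; (clear * - h0; positivity))) h
  simp only [sum_range_succ, sum_range_zero, zero_add] at h2
  norm_num at h2
  linarith

/-- lower Riemann sum for `(1 - s / u) ^ 2` -/
lemma riemann_step {s a b : ℝ} (hs : 0 < s) (hb : s ≤ b) (hab : b ≤ a) :
    (a - 2 * s * log a - s ^ 2 / a) - (b - 2 * s * log b - s ^ 2 / b) ≤ (1 - s / a) ^ 2 * (a - b) := by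
  have hb0 : 0 < b := hs.trans_le hb
  have ha0 : 0 < a := hb0.trans_le hab
  have h1 := add_sq_half_le_neg_log (x := 1 - b / a) (by
    rw [sub_nonneg, div_le_one ha0]; exact hab) (by
    have : 0 < b / a := by positivity
    linarith)
  rw [sub_sub_cancel, log_div hb0.ne' ha0.ne'] at h1
  have h2 : (1 - s / a) ^ 2 * (a - b) - ((a - 2 * s * log a - s ^ 2 / a) -
      (b - 2 * s * log b - s ^ 2 / b)) = 2 * s * ((log a - log b) - (1 - b / a)) -
      s ^ 2 * (a - b) ^ 2 / (a ^ 2 * b) := by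
    field_simp
    ring
  have h3 : s ^ 2 * (a - b) ^ 2 / (a ^ 2 * b) ≤ s * (1 - b / a) ^ 2 := by
    have e : s * (1 - b / a) ^ 2 = s * b * (a - b) ^ 2 / (a ^ 2 * b) := by
      field_simp
    rw [e]
    apply div_le_div_of_nonneg_right _ (by positivity)
    apply mul_le_mul_of_nonneg_right _ (by (clear * - ; positivity))
    nlinarith only [hb, hs]
  exact le_of_not_gt fun hng => by linarith only [hng, mul_nonneg_of_nonpos_of_nonpos (Mathlib.Tactic.Linarith.sub_nonpos_of_le h3) (le_of_lt (Mathlib.Tactic.Linarith.sub_neg_of_lt hs)), Mathlib.Tactic.Linarith.zero_mul_eq (sub_eq_zero_of_eq h2) (Mathlib.Tactic.Linarith.sub_neg_of_lt hs), mul_pos_of_neg_of_neg (Mathlib.Tactic.Linarith.sub_neg_of_lt hng) (Mathlib.Tactic.Linarith.sub_neg_of_lt hs), mul_nonneg_of_nonpos_of_nonpos (Mathlib.Tactic.Linarith.sub_nonpos_of_le (sq_nonneg s)) (Mathlib.Tactic.Linarith.sub_nonpos_of_le h1)]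

end Vale.Agent.P105
end
end

section

section

open Real Filter Topology Finset

namespace Vale.Agent.P105

/-- antiderivative of `(1 - s / u) ^ 2` -/
noncomputable def FF (s u : ℝ) : ℝ := u - 2 * s * log u - s ^ 2 / u

lemma decay_params {s κ : ℝ} (hs : 0 < s) (hs1 : s < 1) (hκ : κ < 1 - s ^ 2 + 2 * s * log s) :
    ∃ (η : ℝ) (I0 : ℕ) (d : ℕ → ℕ), 0 < η ∧
      (∀ i, i < I0 → s * exp (η * (i + 1)) < 1 ∧ exp (-(η * d i)) < 1 - s * exp (η * (i + 1)) ∧
        1 ≤ d i) ∧
      κ < ∑ i ∈ range I0, exp (-(η * i)) * (1 - exp (-η)) * exp (-2 * (η * (d i + 1 : ℕ))) := by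
  -- choose η
  have hF1 : FF s 1 - FF s s = 1 - s ^ 2 + 2 * s * log s := by
    unfold FF
    rw [log_one]
    field_simp
    ring
  have hcont : ContinuousAt (fun η : ℝ => exp (-3 * η) * (FF s (exp (-η)) - FF s s)) 0 := by
    unfold FF
    have h1 : exp (-(0 : ℝ)) ≠ 0 := (exp_pos _).ne'
    (clear * - h1; fun_prop (disch := assumption))
  have h0 : κ < (fun η : ℝ => exp (-3 * η) * (FF s (exp (-η)) - FF s s)) 0 := by
    simp only [mul_zero, exp_zero, neg_zero, one_mul]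
    rw [hF1]; exact hκ
  have hev := (hcont.tendsto.eventually (lt_mem_nhds h0)).filter_mono
    (nhdsWithin_le_nhds (s := Set.Ioi 0))
  have hcont2 : ContinuousAt (fun η : ℝ => exp (-η)) 0 := by fun_prop
  have hev2 := (hcont2.tendsto.eventually (lt_mem_nhds (a := s) (by simpa only [neg_zero, exp_zero] using hs1))).filter_mono
    (nhdsWithin_le_nhds (s := Set.Ioi 0))
  obtain ⟨η, ⟨hη, hηs⟩, hη0⟩ := ((hev.and hev2).and self_mem_nhdsWithin).exists
  have hη0 : 0 < η := hη0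
  set x := -log s / η with hx
  have hlogs : log s < 0 := log_neg hs hs1
  have hx0 : 0 < x := by rw [hx]; exact div_pos (by linarith only [hlogs]) hη0
  set I0 := ⌈x⌉₊ - 1 with hI0
  have hceil : 1 ≤ ⌈x⌉₊ := Nat.one_le_ceil_iff.mpr hx0
  set y : ℕ → ℝ := fun i => -log (1 - s * exp (η * (i + 1))) with hy
  have hsi : ∀ i : ℕ, i < I0 → s * exp (η * (i + 1)) < 1 := by
    intro i hi
    have h1 : i + 1 < ⌈x⌉₊ := by omega
    have h2 : ((i + 1 : ℕ) : ℝ) < x := Nat.lt_ceil.mp h1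
    rw [hx, lt_div_iff₀ hη0] at h2
    push_cast at h2
    have h3 : exp (η * (i + 1)) < exp (-log s) := exp_lt_exp.mpr (by linarith only [h2])
    rw [exp_neg, exp_log hs] at h3
    calc s * exp (η * (i + 1)) < s * s⁻¹ := by (clear * - h3 hs; gcongr)
      _ = 1 := mul_inv_cancel₀ hs.ne'
  refine ⟨η, I0, fun i => ⌊y i / η⌋₊ + 1, hη0, ?_, ?_⟩
  · intro i hi
    have h1 := hsi i hi
    have h2 : 0 < s * exp (η * (i + 1)) := by positivity
    refine ⟨h1, ?_, Nat.le_add_left 1 _⟩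
    have h3 : y i / η < (⌊y i / η⌋₊ + 1 : ℕ) := by
      push_cast
      exact Nat.lt_floor_add_one _
    rw [div_lt_iff₀ hη0] at h3
    have h4 : exp (-(η * (⌊y i / η⌋₊ + 1 : ℕ))) < exp (-y i) := exp_lt_exp.mpr (by linarith only [h3])
    have h5 : exp (-y i) = 1 - s * exp (η * (i + 1)) := by
      rw [hy]
      simp only [neg_neg]
      rw [exp_log (by linarith only [h1])]
    rwa [h5] at h4
  · refine hη.trans_le ?_
    -- u i = exp(-η i)
    set u : ℕ → ℝ := fun i => exp (-(η * i)) with hu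
    set c : ℕ → ℝ := fun i => max (u i) s with hc
    have hupos : ∀ i, 0 < u i := fun i => exp_pos _
    have huanti : ∀ i, u (i + 1) ≤ u i := by
      intro i
      simp only [hu]
      apply exp_le_exp.mpr
      push_cast
      (clear s κ hs hs1 hκ hF1 hcont h0 hev hcont2 hev2 hη hηs hη0 x hx hlogs hx0 I0 hI0 hceil y hy hsi u hu c hc hupos; nlinarith)
    have hui : ∀ i : ℕ, i < I0 → s < u (i + 1) := by
      intro i hi
      have h1 := hsi i hi
      simp only [hu]
      push_cast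
      rw [exp_neg, lt_inv_comm₀ hs (exp_pos _), inv_eq_one_div, lt_div_iff₀ hs]
      linarith only [h1]
    have huI : u (I0 + 1) ≤ s := by
      have h1 : I0 + 1 = ⌈x⌉₊ := by omega
      simp only [hu]
      rw [h1]
      have h2 : x ≤ ⌈x⌉₊ := Nat.le_ceil x
      rw [hx, div_le_iff₀ hη0] at h2
      calc exp (-(η * ⌈-log s / η⌉₊)) ≤ exp (log s) := exp_le_exp.mpr (by linarith only [h2])
        _ = s := exp_log hs
    have hu1 : s < u 1 := by
      simp only [hu]
      simpa only [Nat.cast_one, mul_one] using hηs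
    have htel : ∑ i ∈ range I0, (FF s (c (i + 1)) - FF s (c (i + 1 + 1))) =
        FF s (c 1) - FF s (c (I0 + 1)) := by
      have := sum_range_sub' (fun i => FF s (c (i + 1))) I0
      simpa only [sum_sub_distrib, zero_add] using this
    have hc1 : c 1 = exp (-η) := by
      simp only [hc]
      rw [max_eq_left hu1.le]
      simp only [hu, Nat.cast_one, mul_one]
    have hcI : c (I0 + 1) = s := by
      simp only [hc]
      exact max_eq_right huI
    rw [hc1, hcI] at htel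
    rw [← htel, mul_sum]
    refine sum_le_sum fun i hi => ?_
    rw [mem_range] at hi
    have hui1 := hui i hi
    have e1 : c (i + 1) = u (i + 1) := max_eq_left hui1.le
    have hstep := riemann_step (s := s) (a := c (i + 1)) (b := c (i + 1 + 1)) hs (le_max_right _ _)
      (max_le_max_right _ (huanti (i + 1)))
    have h2 : c (i + 1) - c (i + 1 + 1) ≤ u (i + 1) - u (i + 1 + 1) := by
      rw [e1]
      have := le_max_left (u (i + 1 + 1)) s
      simp only [hc]
      linarith only [this]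
    have h3 : FF s (c (i + 1)) - FF s (c (i + 1 + 1)) ≤
        (1 - s / u (i + 1)) ^ 2 * (u (i + 1) - u (i + 1 + 1)) := by
      unfold FF
      refine hstep.trans ?_
      rw [e1] at h2 ⊢
      exact mul_le_mul_of_nonneg_left h2 (by (clear * - ; positivity))
    have e2 : u (i + 1) - u (i + 1 + 1) = exp (-η) * (exp (-(η * i)) * (1 - exp (-η))) := by
      simp only [hu]
      rw [mul_sub, mul_one, mul_sub, ← exp_add, ← exp_add, ← exp_add]
      congr 2
      · push_cast; ring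
      · push_cast; ring
    have e3 : s / u (i + 1) = s * exp (η * (i + 1)) := by
      simp only [hu]
      rw [exp_neg, div_inv_eq_mul]
      push_cast
      rfl
    have h4 : exp (-4 * η) * (1 - s * exp (η * (i + 1))) ^ 2 ≤
        exp (-2 * (η * (⌊y i / η⌋₊ + 1 + 1 : ℕ))) := by
      have h5 : ⌊y i / η⌋₊ ≤ y i / η := by
        apply Nat.floor_le
        apply div_nonneg _ hη0.le
        simp only [hy]
        have h6 : 0 < s * exp (η * (i + 1)) := by positivity
        have h7 := hsi i hi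
        have := log_nonpos (x := 1 - s * exp (η * (i + 1))) (by linarith only [h7]) (by linarith only [h6])
        linarith only [this]
      rw [le_div_iff₀ hη0] at h5
      have h7 := hsi i hi
      have h8 : (1 - s * exp (η * (i + 1))) ^ 2 = exp (-2 * y i) := by
        simp only [hy]
        rw [show -2 * -log (1 - s * exp (η * (i + 1))) = 2 * log (1 - s * exp (η * (i + 1))) by ring,
          ← log_rpow (by linarith only [h7]), exp_log (by apply rpow_pos_of_pos; linarith only [h7])]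
        norm_cast
      rw [h8, ← exp_add]
      apply exp_le_exp.mpr
      push_cast
      linarith only [h5]
    have hE : 0 ≤ exp (-(η * i)) * (1 - exp (-η)) := by
      have : exp (-η) < 1 := exp_lt_one_iff.mpr (by (clear s κ hs hs1 hκ hF1 hcont h0 hev hcont2 hev2 hη hηs hη0 x hx hlogs hx0 I0 hI0 hceil y hy hsi u hu c hc hupos huanti hui huI hu1 htel hc1 hcI i hi hui1 e1 hstep h2 h3 e2 e3 h4; linarith))
      have h9 := exp_pos (-(η * i))
      nlinarith only [this, h9]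
    calc exp (-3 * η) * (FF s (c (i + 1)) - FF s (c (i + 1 + 1)))
        ≤ exp (-3 * η) * ((1 - s / u (i + 1)) ^ 2 * (u (i + 1) - u (i + 1 + 1))) := by (clear * - h3; gcongr)
      _ = (exp (-(η * i)) * (1 - exp (-η))) *
          (exp (-4 * η) * (1 - s * exp (η * (i + 1))) ^ 2) := by
          rw [e2, e3]
          have : exp (-4 * η) = exp (-3 * η) * exp (-η) := by
            rw [← exp_add]; congr 1; ring
          rw [this]; ring
      _ ≤ (exp (-(η * i)) * (1 - exp (-η))) * exp (-2 * (η * (⌊y i / η⌋₊ + 1 + 1 : ℕ))) :=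
          mul_le_mul_of_nonneg_left h4 hE

end Vale.Agent.P105
end
end

section

section

open Real Filter Topology Finset

namespace Vale.Agent.P105

lemma sum_windows {A : ℕ → ℕ} (hA : Monotone A) {f : ℕ → ℝ} (hf : ∀ p, 0 ≤ f p) {k I0 : ℕ}
    (h : I0 ≤ k) :
    ∑ i ∈ range I0, ∑ p ∈ Ico (A (k - 1 - i)) (A (k - i)), f p ≤ ∑ p ∈ range (A k), f p := by
  have key : ∑ i ∈ range I0, ∑ p ∈ Ico (A (k - 1 - i)) (A (k - i)), f p =
      ∑ p ∈ Ico (A (k - I0)) (A k), f p := by
    induction I0 with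
    | zero => simp only [range_zero, sum_empty, tsub_zero, Std.le_refl, Ico_eq_empty_of_le]
    | succ I ih =>
      rw [sum_range_succ, ih (by omega), add_comm, show k - (I + 1) = k - 1 - I by omega]
      exact sum_Ico_consecutive f (hA (by omega)) (hA (by omega))
  rw [key, range_eq_Ico]
  exact sum_le_sum_of_subset_of_nonneg (Ico_subset_Ico_left (Nat.zero_le _)) fun p _ _ => hf p

lemma phase_budget {ℓ B : ℝ} {J : ℝ → ℝ} {M : ℝ}
    (hJ : ∀ (T : ℝ) (A : ℕ), T + ℓ ≤ M → 0 ≤ T - (A - 1) * ℓ →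
      ∑ a ∈ range A, J (T - a * ℓ) ^ 2 ≤ B) {φ : ℝ} (hφ : 0 ≤ φ) {P : ℕ} (hP : 1 ≤ P)
    (hPM : φ + ℓ * (P - 1) + ℓ ≤ M) :
    ∑ p ∈ range P, J (φ + ℓ * p) ^ 2 ≤ B := by
  have h := hJ (φ + ℓ * (P - 1)) P hPM (by linarith only [hφ])
  rw [← sum_range_reflect] at h
  refine le_trans (le_of_eq ?_) h
  refine sum_congr rfl fun p hp => ?_
  rw [mem_range] at hp
  have : ((P - 1 - p : ℕ) : ℝ) = P - 1 - p := by
    rw [Nat.cast_sub (by omega), Nat.cast_sub hP]
    simp only [Nat.cast_one]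
  rw [this]
  congr 2
  ring

/-- choice of a good point in a window -/
lemma exists_good {J : ℕ → ℝ} {a b : ℕ} (hab : a < b) :
    ∃ p, a ≤ p ∧ p < b ∧ ((b : ℝ) - a) * J p ^ 2 ≤ ∑ p ∈ Ico a b, J p ^ 2 := by
  obtain ⟨p, hp, hmin⟩ := exists_min_image (Ico a b) (fun p => J p ^ 2) ⟨a, by simp only [mem_Ico, Std.le_refl, hab, and_self]⟩
  rw [mem_Ico] at hp
  refine ⟨p, hp.1, hp.2, ?_⟩
  calc ((b : ℝ) - a) * J p ^ 2 = ∑ _q ∈ Ico a b, J p ^ 2 := by
        rw [sum_const, Nat.card_Ico, nsmul_eq_mul, Nat.cast_sub hab.le]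
    _ ≤ _ := sum_le_sum fun q hq => hmin q hq

/-- set of normalised details at scales at least `j` in a given phase -/
def USet (τ : ℕ → ℝ → ℝ) (ℓ φ η : ℝ) (j : ℕ) : Set ℝ :=
  {x | ∃ n p : ℕ, j + 1 ≤ n ∧ exp (η * j) ≤ φ + ℓ * p ∧ x = τ n (φ + ℓ * p) / (exp 1 * n)}

/-- supremum of the normalised details -/
noncomputable def US (τ : ℕ → ℝ → ℝ) (ℓ φ η B : ℝ) (j : ℕ) : ℝ :=
  max (sSup (USet τ ℓ φ η j)) (exp (-(B * j)))

section
variable {τ : ℕ → ℝ → ℝ} {ℓ φ η B : ℝ}

lemma USet_nonempty (hℓ : 0 < ℓ) (j : ℕ) : (USet τ ℓ φ η j).Nonempty := by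
  obtain ⟨p, hp⟩ := exists_nat_gt ((exp (η * j) - φ) / ℓ)
  rw [div_lt_iff₀ hℓ] at hp
  exact ⟨_, j + 1, p, le_rfl, by linarith, rfl⟩

lemma USet_le (hτ1 : ∀ n T, 1 ≤ n → τ n T ≤ exp 1 * n) {j : ℕ} {x : ℝ} (hx : x ∈ USet τ ℓ φ η j) :
    x ≤ 1 := by
  obtain ⟨n, p, hn, _, rfl⟩ := hx
  have hn1 : 1 ≤ n := by omega
  have hn0 : (0 : ℝ) < n := by exact_mod_cast hn1
  rw [div_le_one (by positivity)]
  exact hτ1 n _ hn1

lemma USet_bdd (hτ1 : ∀ n T, 1 ≤ n → τ n T ≤ exp 1 * n) (j : ℕ) : BddAbove (USet τ ℓ φ η j) :=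
  ⟨1, fun _ hx => USet_le hτ1 hx⟩

lemma US_pos (j : ℕ) : 0 < US τ ℓ φ η B j := lt_max_of_lt_right (exp_pos _)

lemma US_le_one (hℓ : 0 < ℓ) (hB : 0 ≤ B) (hτ1 : ∀ n T, 1 ≤ n → τ n T ≤ exp 1 * n) (j : ℕ) :
    US τ ℓ φ η B j ≤ 1 := by
  apply max_le
  · exact csSup_le (USet_nonempty hℓ j) fun x hx => USet_le hτ1 hx
  · apply exp_le_one_iff.mpr
    have : 0 ≤ B * j := by (clear * - hB; positivity)
    linarith

lemma US_anti (hℓ : 0 < ℓ) (hη : 0 < η) (hB : 0 ≤ B) (hτ1 : ∀ n T, 1 ≤ n → τ n T ≤ exp 1 * n) :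
    Antitone (US τ ℓ φ η B) := by
  intro i j hij
  have hij' : (i : ℝ) ≤ j := by exact_mod_cast hij
  apply max_le_max
  · apply csSup_le_csSup (USet_bdd hτ1 i) (USet_nonempty hℓ j)
    rintro x ⟨n, p, hn, hp, rfl⟩
    refine ⟨n, p, by omega, le_trans ?_ hp, rfl⟩
    apply exp_le_exp.mpr
    gcongr
  · apply exp_le_exp.mpr
    have : B * i ≤ B * j := by gcongr
    linarith only [this]

lemma le_US (hτ1 : ∀ n T, 1 ≤ n → τ n T ≤ exp 1 * n) {n p j : ℕ} (hn : j + 1 ≤ n)
    (hp : exp (η * j) ≤ φ + ℓ * p) : τ n (φ + ℓ * p) / (exp 1 * n) ≤ US τ ℓ φ η B j :=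
  (le_csSup (USet_bdd hτ1 j) ⟨n, p, hn, hp, rfl⟩).trans (le_max_left _ _)

lemma US_step {J : ℕ → ℝ → ℝ} (hℓ : 0 < ℓ) (hφ1 : φ < ℓ)
    (hJ0 : ∀ m T, 0 ≤ J m T) (hτ0 : ∀ n T, 0 ≤ τ n T)
    (hτ1 : ∀ n T, 1 ≤ n → τ n T ≤ exp 1 * n)
    (hstep : ∀ (a m n : ℕ) (T : ℝ), 1 ≤ n → τ (n + 1) T ≤ J m (T - a * ℓ) * τ n (T - (a + m) * ℓ))
    {j D m p0 : ℕ} (hD : 1 ≤ D) (hDj : D ≤ j) (hp0 : φ + ℓ * p0 < exp (η * j))
    (hm : exp (η * (j - D : ℕ)) ≤ φ + ℓ * p0 - m * ℓ) :
    US τ ℓ φ η B j ≤ max (J m (φ + ℓ * p0)) (exp (-(B * D))) * US τ ℓ φ η B (j - D) := by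
  have hUpos : 0 < US τ ℓ φ η B (j - D) := US_pos _
  have hmp : m ≤ p0 := by
    by_contra hcon
    push Not at hcon
    have h1 : (p0 : ℝ) + 1 ≤ m := by exact_mod_cast hcon
    have h2 : 0 < φ + ℓ * p0 - m * ℓ := (exp_pos _).trans_le hm
    linarith only [mul_nonneg_of_nonpos_of_nonpos (le_of_lt (Mathlib.Tactic.Linarith.sub_neg_of_lt hℓ)) (Mathlib.Tactic.Linarith.sub_nonpos_of_le h1), h2, hφ1]
  have hsub : ((p0 - m : ℕ) : ℝ) = p0 - m := Nat.cast_sub hmp
  conv_lhs => unfold US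
  apply max_le
  · apply csSup_le (USet_nonempty hℓ j)
    rintro x ⟨n, p, hn, hp, rfl⟩
    obtain ⟨n', rfl⟩ : ∃ n', n = n' + 1 := ⟨n - 1, by omega⟩
    have hn1 : 1 ≤ n' := by omega
    have hn0 : (0 : ℝ) < n' := by exact_mod_cast hn1
    have hpp : p0 < p := by
      have h1 : φ + ℓ * p0 < φ + ℓ * p := hp0.trans_le hp
      have h2 : (p0 : ℝ) < p := by
        by_contra hcon
        push Not at hcon
        linarith only [hp, hp0, mul_nonneg_of_nonpos_of_nonpos (le_of_lt (Mathlib.Tactic.Linarith.sub_neg_of_lt hℓ)) (Mathlib.Tactic.Linarith.sub_nonpos_of_le hcon)]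
      exact_mod_cast h2
    have hsub2 : ((p - p0 : ℕ) : ℝ) = p - p0 := Nat.cast_sub hpp.le
    have h1 := hstep (p - p0) m n' (φ + ℓ * p) hn1
    have e1 : φ + ℓ * p - ((p - p0 : ℕ) : ℝ) * ℓ = φ + ℓ * p0 := by rw [hsub2]; ring
    have e2 : φ + ℓ * p - (((p - p0 : ℕ) : ℝ) + m) * ℓ = φ + ℓ * ((p0 - m : ℕ) : ℝ) := by
      rw [hsub2, hsub]; ring
    rw [e1, e2] at h1
    have h2 : τ n' (φ + ℓ * ((p0 - m : ℕ) : ℝ)) / (exp 1 * n') ≤ US τ ℓ φ η B (j - D) := by
      apply le_US hτ1 (by omega)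
      refine hm.trans (le_of_eq ?_)
      rw [hsub]; ring
    have hJp := hJ0 m (φ + ℓ * p0)
    have hτp := hτ0 n' (φ + ℓ * ((p0 - m : ℕ) : ℝ))
    have he := exp_pos (1 : ℝ)
    calc τ (n' + 1) (φ + ℓ * p) / (exp 1 * ((n' + 1 : ℕ) : ℝ))
        ≤ (J m (φ + ℓ * p0) * τ n' (φ + ℓ * ((p0 - m : ℕ) : ℝ))) / (exp 1 * ((n' + 1 : ℕ) : ℝ)) := by
          (clear * - h1 hn1; gcongr)
      _ ≤ (J m (φ + ℓ * p0) * τ n' (φ + ℓ * ((p0 - m : ℕ) : ℝ))) / (exp 1 * n') := by
          gcongr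
          linarith only []
      _ = J m (φ + ℓ * p0) * (τ n' (φ + ℓ * ((p0 - m : ℕ) : ℝ)) / (exp 1 * n')) := by ring
      _ ≤ max (J m (φ + ℓ * p0)) (exp (-(B * D))) * US τ ℓ φ η B (j - D) := by
          apply mul_le_mul (le_max_left _ _) h2 (by (clear * - hτp hn1; (clear * - hτp hn1; positivity)))
          exact hJp.trans (le_max_left _ _)
  · have h1 : exp (-(B * (j - D : ℕ))) ≤ US τ ℓ φ η B (j - D) := le_max_right _ _
    have h2 : exp (-(B * j)) = exp (-(B * D)) * exp (-(B * (j - D : ℕ))) := by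
      rw [← exp_add]
      congr 1
      rw [Nat.cast_sub hDj]
      ring
    rw [h2]
    apply mul_le_mul (le_max_right _ _) h1 (exp_pos _).le
    exact (exp_pos _).le.trans (le_max_right _ _)

end

lemma exp_cast_sub {η : ℝ} {k i : ℕ} (h : i ≤ k) : exp (η * (k - i : ℕ)) = exp (η * k) * exp (-(η * i)) := by
  rw [← exp_add, Nat.cast_sub h]
  congr 1
  ring

/-- one window -/
lemma window_term {ℓ θ φ η B ρ aa : ℝ} {J : ℕ → ℝ → ℝ} {τ : ℕ → ℝ → ℝ} (hℓ : 0 < ℓ) (hθ : 0 < θ)
    (hφ1 : φ < ℓ) (hη : 0 < η) (hB : 0 ≤ B)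
    (hJ0 : ∀ m T, 0 ≤ J m T) (hτ0 : ∀ n T, 0 ≤ τ n T)
    (hτ1 : ∀ n T, 1 ≤ n → τ n T ≤ exp 1 * n)
    (hstep : ∀ (a m n : ℕ) (T : ℝ), 1 ≤ n → τ (n + 1) T ≤ J m (T - a * ℓ) * τ n (T - (a + m) * ℓ))
    {k i d : ℕ} (hik : i + d + 1 ≤ k) (haa : aa = (1 / ℓ) * (exp (-(η * i)) * (1 - exp (-η))))
    (hρ : 0 < ρ) (hE1 : ρ * (exp (η * k) * aa) ≤ exp (η * k) * aa - 1)
    (hE3 : exp (η * (k - 1 - i - d : ℕ)) ≤ exp (η * (k - 1 - i : ℕ)) -
      ((exp (η * k) + ℓ) / θ * ℓ + ℓ))
    (hE6 : ℓ ≤ exp (η * (k - 1 - i : ℕ))) :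
    aa * exp (-2 * (-log (US τ ℓ φ η B (k - i)) - -log (US τ ℓ φ η B (k - i - (d + 1))))) ≤
      1 / (ρ * exp (η * k)) * ∑ p ∈ Ico ⌈(exp (η * (k - 1 - i : ℕ)) - φ) / ℓ⌉₊
        ⌈(exp (η * (k - i : ℕ)) - φ) / ℓ⌉₊, J ⌈(exp (η * k) + ℓ) / θ⌉₊ (φ + ℓ * p) ^ 2 +
        aa * exp (-2 * B) := by
  set x := exp (η * k) with hx
  have hx0 : 0 < x := exp_pos _
  set m := ⌈(x + ℓ) / θ⌉₊ with hm
  have hmlt : (m : ℝ) < (x + ℓ) / θ + 1 := Nat.ceil_lt_add_one (by positivity)
  have haa0 : 0 < aa := by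
    rw [haa]
    have : exp (-η) < 1 := exp_lt_one_iff.mpr (by linarith only [hη])
    have h2 : 0 < 1 - exp (-η) := by linarith only [this]
    (clear * - hℓ this; (clear * - hℓ this; positivity))
  set w0 := (exp (η * (k - 1 - i : ℕ)) - φ) / ℓ with hw0
  set w1 := (exp (η * (k - i : ℕ)) - φ) / ℓ with hw1
  have hw00 : 0 ≤ w0 := div_nonneg (by linarith only [hφ1, hE6]) hℓ.le
  have hdiff : w1 - w0 = x * aa := by
    rw [hw1, hw0, haa, ← sub_div, show k - 1 - i = k - (i + 1) by omega,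
      exp_cast_sub (show i ≤ k by omega), exp_cast_sub (show i + 1 ≤ k by omega), ← hx]
    have : exp (-(η * ((i + 1 : ℕ) : ℝ))) = exp (-(η * i)) * exp (-η) := by
      rw [← exp_add]; congr 1; push_cast; ring
    rw [this]
    ring
  have hc0 : (⌈w0⌉₊ : ℝ) < w0 + 1 := Nat.ceil_lt_add_one hw00
  have hc1 : w1 ≤ ⌈w1⌉₊ := Nat.le_ceil _
  have hcard : ρ * (x * aa) ≤ (⌈w1⌉₊ : ℝ) - ⌈w0⌉₊ := by linarith only [hE1, hdiff, hc0, hc1]
  have hpos : 0 < ρ * (x * aa) := by (clear * - hρ haa0; positivity)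
  have hlt : ⌈w0⌉₊ < ⌈w1⌉₊ := by
    have : (⌈w0⌉₊ : ℝ) < ⌈w1⌉₊ := by linarith only [hE1, hdiff, hc0, hc1, hpos]
    exact_mod_cast this
  obtain ⟨p, hp0, hp1, hpsum⟩ := exists_good (J := fun p : ℕ => J m (φ + ℓ * p)) hlt
  have hp0' : exp (η * (k - 1 - i : ℕ)) ≤ φ + ℓ * p := by
    have := Nat.ceil_le.mp hp0
    rw [hw0, div_le_iff₀ hℓ] at this
    linarith only [this]
  have hp1' : φ + ℓ * p < exp (η * (k - i : ℕ)) := by
    have := Nat.lt_ceil.mp hp1
    rw [hw1, lt_div_iff₀ hℓ] at this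
    linarith only [this]
  have hUS := US_step (B := B) hℓ hφ1 hJ0 hτ0 hτ1 hstep (j := k - i) (D := d + 1) (m := m) (p0 := p)
    (by omega) (by omega) hp1' (by
      rw [show k - i - (d + 1) = k - 1 - i - d by (clear * - hik; omega)]
      refine hE3.trans ?_
      have : (m : ℝ) * ℓ ≤ (x + ℓ) / θ * ℓ + ℓ := by
        calc (m : ℝ) * ℓ ≤ ((x + ℓ) / θ + 1) * ℓ := by (clear * - hmlt hℓ; gcongr)
          _ = _ := by ring
      linarith only [hp0', this])
  have hU0 : 0 < US τ ℓ φ η B (k - i - (d + 1)) := US_pos _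
  have hU1 : 0 < US τ ℓ φ η B (k - i) := US_pos _
  have e1 : exp (-2 * (-log (US τ ℓ φ η B (k - i)) - -log (US τ ℓ φ η B (k - i - (d + 1))))) =
      (US τ ℓ φ η B (k - i) / US τ ℓ φ η B (k - i - (d + 1))) ^ 2 := by
    rw [show -2 * (-log (US τ ℓ φ η B (k - i)) - -log (US τ ℓ φ η B (k - i - (d + 1)))) =
      2 * (log (US τ ℓ φ η B (k - i)) - log (US τ ℓ φ η B (k - i - (d + 1)))) by ring,
      ← log_div hU1.ne' hU0.ne', ← log_rpow (by (clear * - hU1 hU0; positivity)), exp_log (by (clear * - hU1 hU0; positivity))]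
    norm_cast
  rw [e1]
  set Jp := J m (φ + ℓ * p) with hJp
  have hJp0 : 0 ≤ Jp := hJ0 _ _
  have h1 : US τ ℓ φ η B (k - i) / US τ ℓ φ η B (k - i - (d + 1)) ≤
      max Jp (exp (-(B * ((d + 1 : ℕ) : ℝ)))) := by
    rw [div_le_iff₀ hU0]; exact hUS
  have h2 : (US τ ℓ φ η B (k - i) / US τ ℓ φ η B (k - i - (d + 1))) ^ 2 ≤
      Jp ^ 2 + exp (-2 * B) := by
    have h3 : exp (-(B * ((d + 1 : ℕ) : ℝ))) ^ 2 ≤ exp (-2 * B) := by
      rw [← exp_nat_mul]
      apply exp_le_exp.mpr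
      push_cast
      have : 0 ≤ B * d := by (clear * - hB; positivity)
      linarith only [this]
    calc (US τ ℓ φ η B (k - i) / US τ ℓ φ η B (k - i - (d + 1))) ^ 2
        ≤ (max Jp (exp (-(B * ((d + 1 : ℕ) : ℝ))))) ^ 2 := by (clear * - hU1 hU0 h1; gcongr)
      _ ≤ _ := by
        rcases max_cases Jp (exp (-(B * ((d + 1 : ℕ) : ℝ)))) with ⟨h4, _⟩ | ⟨h4, _⟩
        · rw [h4]
          have := exp_pos (-2 * B)
          linarith only [this]
        · rw [h4]
          have : 0 ≤ Jp ^ 2 := sq_nonneg _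
          linarith only [h3, this]
  have h5 : aa * Jp ^ 2 ≤ 1 / (ρ * x) * ∑ p ∈ Ico ⌈w0⌉₊ ⌈w1⌉₊, J m (φ + ℓ * p) ^ 2 := by
    rw [one_div, inv_mul_eq_div, le_div_iff₀ (by positivity)]
    calc aa * Jp ^ 2 * (ρ * x) = (ρ * (x * aa)) * Jp ^ 2 := by ring
      _ ≤ ((⌈w1⌉₊ : ℝ) - ⌈w0⌉₊) * Jp ^ 2 := by (clear * - hcard; gcongr)
      _ ≤ _ := hpsum
  calc aa * (US τ ℓ φ η B (k - i) / US τ ℓ φ η B (k - i - (d + 1))) ^ 2
      ≤ aa * (Jp ^ 2 + exp (-2 * B)) := by (clear * - h2 haa0; gcongr)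
    _ = aa * Jp ^ 2 + aa * exp (-2 * B) := by ring
    _ ≤ _ := by (clear * - h5; (clear * - h5; gcongr))

end Vale.Agent.P105
end
end

section

section

open Real Filter Topology Finset

namespace Vale.Agent.P105

/-- **Decay of the details** under the sharp budget condition. -/
theorem windows {ℓ θ δ K C : ℝ} (hℓ : 0 < ℓ) (hθ : ℓ < θ) (hδ : 0 ≤ δ) (hK : 0 < K)
    (hcond : K * ℓ * δ / θ < 1 - (ℓ / θ) ^ 2 + 2 * (ℓ / θ) * log (ℓ / θ))
    {J : ℕ → ℝ → ℝ} {τ : ℕ → ℝ → ℝ} (hJ0 : ∀ m T, 0 ≤ J m T) (hτ0 : ∀ n T, 0 ≤ τ n T)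
    (hτ1 : ∀ n T, 1 ≤ n → τ n T ≤ exp 1 * n)
    (hstep : ∀ (a m n : ℕ) (T : ℝ), 1 ≤ n → τ (n + 1) T ≤ J m (T - a * ℓ) * τ n (T - (a + m) * ℓ))
    {m0 : ℕ} (hJ : ∀ m : ℕ, m0 ≤ m → ∀ (T : ℝ) (A : ℕ), T + ℓ ≤ θ * m →
      0 ≤ T - (A - 1) * ℓ → ∑ a ∈ range A, J m (T - a * ℓ) ^ 2 ≤ K * (C + δ * m)) :
    ∃ β C' T0 c1 c2 : ℝ, 1 < β ∧ 0 ≤ C' ∧ ∀ T, T0 ≤ T → ∀ n : ℕ, c1 * log T + c2 ≤ n →
      τ n T ≤ exp 1 * n * (C' * T ^ (-β)) := by
  have hθ0 : 0 < θ := hℓ.trans hθ
  set s := ℓ / θ with hs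
  have hs0 : 0 < s := div_pos hℓ hθ0
  have hs1 : s < 1 := (div_lt_one hθ0).mpr hθ
  obtain ⟨κ, hκ1, hκ2⟩ := exists_between hcond
  obtain ⟨η, I0, d, hη, hd, hsum⟩ := decay_params hs0 hs1 hκ2
  set a : ℕ → ℝ := fun i => (1 / ℓ) * (exp (-(η * i)) * (1 - exp (-η))) with ha
  have hEη : exp (-η) < 1 := exp_lt_one_iff.mpr (by linarith only [hη])
  have ha0 : ∀ i, 0 < a i := by
    intro i
    simp only [ha]
    have : 0 < 1 - exp (-η) := by linarith only [hEη]
    (clear * - hℓ hEη; (clear * - hℓ hEη; positivity))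
  set κ' := κ / ℓ with hκ'
  set κa := K * δ / θ with hκa
  have hκa0 : 0 ≤ κa := by (clear * - hK hδ hθ0; positivity)
  have hκaκ : κa < κ' := by
    rw [hκ', lt_div_iff₀ hℓ, hκa]
    calc K * δ / θ * ℓ = K * ℓ * δ / θ := by ring
      _ < κ := hκ1
  have hsum' : κ' < ∑ i ∈ range I0, a i * exp (-2 * (η * ((d i + 1 : ℕ) : ℝ))) := by
    rw [hκ', div_lt_iff₀ hℓ, sum_mul]
    refine hsum.trans_le (le_of_eq ?_)
    refine sum_congr rfl fun i _ => ?_
    simp only [ha]
    (clear * - hℓ; field_simp)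
  obtain ⟨c, hc, hG⟩ := growth (I := range I0) (a := a) (s := fun i => i) (D := fun i => d i + 1)
    (κ := κ') (η := η) (fun i _ => (ha0 i).le) (fun i _ => Nat.le_add_left 1 _)
    (hκa0.trans hκaκ.le) hsum'
  set κ3 := (κa + κ') / 2 with hκ3
  have hκ30 : 0 < κ3 := by rw [hκ3]; linarith only [hκa0, hκaκ]
  set ρ := (κ3 + κa) / (2 * κ3) with hρ
  have hρ0 : 0 < ρ := by (clear * - hκ30 hK hδ hθ0; (clear * - hκ30 hK hδ hθ0; positivity))
  have hρ1 : ρ < 1 := by
    rw [hρ, div_lt_one (by (clear * - hκ30; positivity))]; linarith only [hκaκ, hκ3]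
  have hρκ : κa < ρ * κ3 := by
    have : ρ * κ3 = (κ3 + κa) / 2 := by rw [hρ]; (clear * - hκ30 hκa0; field_simp)
    rw [this]; linarith only [hκaκ, hκ3]
  -- choice of B
  obtain ⟨B, hB0, hB⟩ : ∃ B : ℝ, 0 ≤ B ∧ (∑ i ∈ range I0, a i) * exp (-2 * B) ≤ κ' - κ3 := by
    have h1 : Tendsto (fun B : ℝ => (∑ i ∈ range I0, a i) * exp (-2 * B)) atTop
        (𝓝 ((∑ i ∈ range I0, a i) * 0)) := by
      apply Tendsto.const_mul
      have : Tendsto (fun B : ℝ => -2 * B) atTop atBot :=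
        tendsto_id.const_mul_atTop_of_neg (by norm_num)
      exact tendsto_exp_atBot.comp this
    rw [mul_zero] at h1
    have h2 : 0 < κ' - κ3 := by rw [hκ3]; linarith only [hκaκ]
    obtain ⟨B, hB1, hB2⟩ := ((h1.eventually (gt_mem_nhds h2)).and (eventually_ge_atTop 0)).exists
    exact ⟨B, hB2, hB1.le⟩
  -- eventual conditions
  have hx : Tendsto (fun k : ℕ => exp (η * k)) atTop atTop := by
    have : Tendsto (fun k : ℕ => η * (k : ℝ)) atTop atTop :=
      tendsto_natCast_atTop_atTop.const_mul_atTop hη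
    exact tendsto_exp_atTop.comp this
  have hE2 : ∀ᶠ k : ℕ in atTop, K * (C + δ * ((exp (η * k) + ℓ) / θ + 1)) ≤
      ρ * κ3 * exp (η * k) := by
    filter_upwards [hx.eventually_ge_atTop (K * (C + δ * (ℓ / θ + 1)) / (ρ * κ3 - κa))] with k hk
    rw [div_le_iff₀ (by linarith only [hρκ])] at hk
    have : K * (C + δ * ((exp (η * k) + ℓ) / θ + 1)) =
        κa * exp (η * k) + K * (C + δ * (ℓ / θ + 1)) := by
      rw [hκa]; field_simp; ring
    rw [this]
    linarith only [hk]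
  have hE1 : ∀ᶠ k : ℕ in atTop, ∀ i ∈ range I0,
      ρ * (exp (η * k) * a i) ≤ exp (η * k) * a i - 1 := by
    rw [eventually_all_finset]
    intro i _
    filter_upwards [hx.eventually_ge_atTop (1 / ((1 - ρ) * a i))] with k hk
    have h1 : 0 < (1 - ρ) * a i := mul_pos (by linarith only [hρ1]) (ha0 i)
    rw [div_le_iff₀ h1] at hk
    linarith only [hk]
  have hE3 : ∀ᶠ k : ℕ in atTop, ∀ i ∈ range I0,
      i + d i + 1 ≤ k ∧ exp (η * (k - 1 - i - d i : ℕ)) ≤ exp (η * (k - 1 - i : ℕ)) -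
      ((exp (η * k) + ℓ) / θ * ℓ + ℓ) ∧ ℓ ≤ exp (η * (k - 1 - i : ℕ)) := by
    rw [eventually_all_finset]
    intro i hi
    obtain ⟨hd1, hd2, hd3⟩ := hd i (mem_range.mp hi)
    set g := exp (-(η * (i + 1))) * (1 - s * exp (η * (i + 1)) - exp (-(η * d i))) with hg
    have hg0 : 0 < g := mul_pos (exp_pos _) (by linarith only [hd2])
    filter_upwards [hx.eventually_ge_atTop ((ℓ / θ * ℓ + ℓ) / g), eventually_ge_atTop (i + d i + 1),
      hx.eventually_ge_atTop (ℓ * exp (η * (i + 1)))] with k hk1 hk2 hk3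
    rw [div_le_iff₀ hg0] at hk1
    have e0 : k - 1 - i = k - (i + 1) := by (clear * - hd3 hk2; omega)
    have e1 : exp (η * (k - 1 - i : ℕ)) = exp (η * k) * exp (-(η * (i + 1))) := by
      rw [e0, exp_cast_sub (by omega)]
      push_cast
      rfl
    have e2 : exp (η * (k - 1 - i - d i : ℕ)) = exp (η * k) * exp (-(η * (i + 1))) *
        exp (-(η * d i)) := by
      have e3 : exp (-(η * ((i + 1 + d i : ℕ) : ℝ))) = exp (-(η * (i + 1))) * exp (-(η * d i)) := by
        rw [← exp_add]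
        congr 1
        push_cast
        ring
      rw [show k - 1 - i - d i = k - (i + 1 + d i) by omega, exp_cast_sub (by omega), e3, mul_assoc]
    refine ⟨hk2, ?_, ?_⟩
    · rw [e1, e2]
      have h1 : exp (η * k) * g = exp (η * k) * exp (-(η * (i + 1))) -
          exp (η * k) / θ * ℓ - exp (η * k) * exp (-(η * (i + 1))) * exp (-(η * d i)) := by
        have h2 : exp (-(η * (i + 1))) * exp (η * (i + 1)) = 1 := by
          rw [← exp_add]; simp only [neg_add_cancel, exp_zero]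
        rw [hg, hs]
        linear_combination (-(exp (η * k)) * (ℓ / θ)) * h2
      have h3 : (exp (η * k) + ℓ) / θ * ℓ = exp (η * k) / θ * ℓ + ℓ / θ * ℓ := by ring
      rw [h3]
      linarith only [hk1, h1]
    · rw [e1, exp_neg, ← div_eq_mul_inv, le_div_iff₀ (exp_pos _)]
      exact hk3
  have hE5 : ∀ᶠ k : ℕ in atTop, θ * m0 ≤ exp (η * k) := hx.eventually_ge_atTop _
  obtain ⟨k0, hk0⟩ := eventually_atTop.mp (((hE1.and hE2).and (hE3.and hE5)).and
    (eventually_ge_atTop I0))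
  -- phase-wise decay
  have hphase : ∀ φ : ℝ, 0 ≤ φ → φ < ℓ → ∀ N : ℕ, US τ ℓ φ η B (k0 + N) ≤ exp (-(c * N)) := by
    intro φ hφ0 hφ1 N
    have hV := hG (fun j => -log (US τ ℓ φ η B j)) k0 ?_ ?_ ?_ ?_ N
    · have h1 : 0 < US τ ℓ φ η B (k0 + N) := US_pos _
      rw [← log_le_iff_le_exp h1]
      linarith only [hV]
    · intro i j hij
      have h1 : US τ ℓ φ η B j ≤ US τ ℓ φ η B i := US_anti hℓ hη hB0 hτ1 hij
      have h2 := log_le_log (US_pos (τ := τ) (ℓ := ℓ) (φ := φ) (η := η) (B := B) j) h1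
      linarith only [h2]
    · intro j
      have h1 := log_nonpos (US_pos (τ := τ) (ℓ := ℓ) (φ := φ) (η := η) (B := B) j).le
        (US_le_one hℓ hB0 hτ1 j)
      linarith only [h1]
    · intro i hi
      have := (hk0 k0 le_rfl).1.2.1 i hi
      omega
    · intro k hk
      obtain ⟨⟨⟨q1, q2⟩, q3, q5⟩, q6⟩ := hk0 k hk
      set x := exp (η * k) with hxk
      have hx0 : 0 < x := exp_pos _
      set m := ⌈(x + ℓ) / θ⌉₊ with hm
      have hm1 : (x + ℓ) / θ ≤ m := Nat.le_ceil _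
      have hmlt : (m : ℝ) < (x + ℓ) / θ + 1 := Nat.ceil_lt_add_one (by (clear * - hℓ hθ0; positivity))
      have hmθ : x + ℓ ≤ θ * m := by
        rw [div_le_iff₀ hθ0] at hm1; linarith only [hm1]
      have hm0m : m0 ≤ m := by
        have h1 : θ * m0 ≤ θ * m := by linarith only [hℓ, q5, hmθ]
        have h2 : (m0 : ℝ) ≤ m := le_of_mul_le_mul_left h1 hθ0
        exact_mod_cast h2
      set Aw : ℕ → ℕ := fun j => ⌈(exp (η * j) - φ) / ℓ⌉₊ with hAw
      have hAmono : Monotone Aw := by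
        intro i j hij
        simp only [hAw]
        apply Nat.ceil_mono
        (clear * - hij hη hℓ; gcongr)
      -- total budget
      have htot : ∑ p ∈ range (Aw k), J m (φ + ℓ * p) ^ 2 ≤ K * (C + δ * m) := by
        rcases Nat.eq_zero_or_pos (Aw k) with h0 | h0
        · rw [h0, range_zero, sum_empty]
          have := hJ m hm0m 0 0 (by linarith only [hx0, hmθ]) (by push_cast; linarith only [hℓ])
          simpa only [ge_iff_le, range_zero, zero_sub, sum_empty] using this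
        · apply phase_budget (M := θ * m) (hJ m hm0m) hφ0 h0
          have h1 : ((Aw k : ℕ) : ℝ) < (exp (η * k) - φ) / ℓ + 1 := by
            have h3 : 0 < (exp (η * k) - φ) / ℓ := Nat.ceil_pos.mp h0
            exact Nat.ceil_lt_add_one h3.le
          have h2 : ((Aw k : ℕ) : ℝ) - 1 < (x - φ) / ℓ := by rw [hxk]; linarith only [h1]
          rw [lt_div_iff₀ hℓ] at h2
          linarith only [hmθ, h2]
      have hterm : ∀ i ∈ range I0, a i * exp (-2 * (-log (US τ ℓ φ η B (k - i)) -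
          -log (US τ ℓ φ η B (k - i - (d i + 1))))) ≤
          1 / (ρ * x) * ∑ p ∈ Ico (Aw (k - 1 - i)) (Aw (k - i)), J m (φ + ℓ * p) ^ 2 +
            a i * exp (-2 * B) := by
        intro i hi
        exact window_term hℓ hθ0 hφ1 hη hB0 hJ0 hτ0 hτ1 hstep (q3 i hi).1 rfl hρ0
          (q1 i hi) (q3 i hi).2.1 (q3 i hi).2.2
      refine (sum_le_sum hterm).trans ?_
      rw [sum_add_distrib, ← mul_sum, ← sum_mul]
      have h1 := sum_windows hAmono (f := fun p : ℕ => J m (φ + ℓ * p) ^ 2)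
        (fun p => sq_nonneg _) q6
      have h2 : 1 / (ρ * x) * ∑ i ∈ range I0, ∑ p ∈ Ico (Aw (k - 1 - i)) (Aw (k - i)),
          J m (φ + ℓ * p) ^ 2 ≤ κ3 := by
        rw [one_div, inv_mul_eq_div, div_le_iff₀ (by (clear * - hκ30 hK hδ hθ0; positivity))]
        refine h1.trans (htot.trans ?_)
        calc K * (C + δ * m) ≤ K * (C + δ * ((x + ℓ) / θ + 1)) := by (clear * - hmlt hδ hK; gcongr)
          _ ≤ ρ * κ3 * x := q2
          _ = _ := by ring
      linarith only [hB, h2]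
  -- conclusion
  refine ⟨c / η, exp (c * (k0 + 1)), exp (η * k0), 1 / η, 1, ?_, (exp_pos _).le, ?_⟩
  · rw [one_lt_div hη]; exact hc
  intro T hT n hn
  have hT0 : 0 < T := (exp_pos _).trans_le hT
  set p := ⌊T / ℓ⌋₊ with hp
  have hp1 : (p : ℝ) ≤ T / ℓ := Nat.floor_le (by (clear * - hT0 hℓ; positivity))
  have hp2 : T / ℓ < p + 1 := Nat.lt_floor_add_one _
  rw [le_div_iff₀ hℓ] at hp1
  rw [div_lt_iff₀ hℓ] at hp2
  have hlogT : η * k0 ≤ log T := by
    rw [le_log_iff_exp_le hT0]; exact hT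
  set j := ⌊log T / η⌋₊ with hj
  have hlT0 : 0 ≤ log T / η := by
    apply div_nonneg _ hη.le
    have : 0 ≤ η * (k0 : ℝ) := by (clear * - hη; positivity)
    linarith only [hlogT, this]
  have hj1 : (j : ℝ) ≤ log T / η := Nat.floor_le hlT0
  have hj2 : log T / η < j + 1 := Nat.lt_floor_add_one _
  have hjk : k0 ≤ j := by
    apply Nat.le_floor
    rw [le_div_iff₀ hη]; linarith only [hlogT]
  have h1 := hphase (T - ℓ * p) (by linarith only [hp1]) (by linarith only [hp2]) (j - k0)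
  rw [show k0 + (j - k0) = j by (clear * - hjk; omega)] at h1
  have hnj : j + 1 ≤ n := by
    have : (j : ℝ) + 1 ≤ n := by
      calc (j : ℝ) + 1 ≤ log T / η + 1 := by linarith only [hj1]
        _ = 1 / η * log T + 1 := by ring
        _ ≤ n := hn
    exact_mod_cast this
  have h2 := le_US (τ := τ) (ℓ := ℓ) (φ := T - ℓ * p) (η := η) (B := B) hτ1 hnj (p := p) (by
    rw [sub_add_cancel]
    rw [le_div_iff₀ hη] at hj1
    calc exp (η * j) ≤ exp (log T) := exp_le_exp.mpr (by linarith only [hj1])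
      _ = T := exp_log hT0)
  rw [sub_add_cancel] at h2
  have hn0 : (0 : ℝ) < n := by
    have : 1 ≤ n := by omega
    exact_mod_cast this
  rw [div_le_iff₀ (by (clear * - hn0; positivity))] at h2
  have h3 : US τ ℓ (T - ℓ * p) η B j ≤ exp (c * (k0 + 1)) * T ^ (-(c / η)) := by
    refine h1.trans ?_
    rw [rpow_def_of_pos hT0, ← exp_add]
    apply exp_le_exp.mpr
    rw [Nat.cast_sub hjk]
    have hc0 : 0 < c := hη.trans hc
    have h4 : log T * -(c / η) = -(c * (log T / η)) := by ring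
    rw [h4]
    nlinarith only [hη, hj2, hc]
  calc τ n T ≤ US τ ℓ (T - ℓ * p) η B j * (exp 1 * n) := h2
    _ ≤ (exp (c * (k0 + 1)) * T ^ (-(c / η))) * (exp 1 * n) := by (clear * - h3 hn0; gcongr)
    _ = _ := by ring

end Vale.Agent.P105
end
end

section

section

open MeasureTheory Real Filter Topology

namespace Vale.Agent.P105

/-- Heat kernel (centred Gaussian density of variance v). -/
noncomputable def G (v x : ℝ) : ℝ := (√(2 * π * v))⁻¹ * exp (-x ^ 2 / (2 * v))

noncomputable def G1 (v x : ℝ) : ℝ := (-(x / v)) * G v x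
noncomputable def G2 (v x : ℝ) : ℝ := (x ^ 2 / v ^ 2 - 1 / v) * G v x
noncomputable def G3 (v x : ℝ) : ℝ := (-(x ^ 3 / v ^ 3) + 3 * x / v ^ 2) * G v x
lemma G_nonneg (v x : ℝ) : 0 ≤ G v x := by unfold G; positivity

lemma G_pos {v : ℝ} (hv : 0 < v) (x : ℝ) : 0 < G v x := by unfold G; positivity

lemma hasDerivAt_G {v : ℝ} (hv : 0 < v) (x : ℝ) : HasDerivAt (G v) (G1 v x) x := by
  unfold G1 G
  have h1 : HasDerivAt (fun x : ℝ => -x ^ 2 / (2 * v)) (-(x / v)) x := by
    have := ((hasDerivAt_pow 2 x).neg.div_const (2 * v))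
    convert! this using 1
    field_simp
    ring
  have := (h1.exp.const_mul (√(2 * π * v))⁻¹)
  convert! this using 1
  ring

lemma hasDerivAt_G1 {v : ℝ} (hv : 0 < v) (x : ℝ) : HasDerivAt (G1 v) (G2 v x) x := by
  have h0 := hasDerivAt_G hv x
  have h1 : HasDerivAt (fun x : ℝ => -(x / v)) (-(1 / v)) x :=
    ((hasDerivAt_id x).div_const v).neg
  have := h1.mul h0
  convert! this using 1
  unfold G2 G1
  field_simp
  ring

/-- heat equation for the kernel -/
lemma hasDerivAt_G_var {v : ℝ} (hv : 0 < v) (x : ℝ) :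
    HasDerivAt (fun v => G v x) ((1 / 2) * G2 v x) v := by
  have hpos : 0 < 2 * π * v := by positivity
  have h1 : HasDerivAt (fun v : ℝ => 2 * π * v) (2 * π) v := by
    simpa using (hasDerivAt_id v).const_mul (2 * π)
  have h2 : HasDerivAt (fun v : ℝ => √(2 * π * v)) (2 * π / (2 * √(2 * π * v))) v :=
    h1.sqrt hpos.ne'
  have h3 : HasDerivAt (fun v : ℝ => (√(2 * π * v))⁻¹)
      (-(2 * π / (2 * √(2 * π * v))) / (√(2 * π * v)) ^ 2) v :=
    h2.inv (by positivity)
  have h4 : HasDerivAt (fun v : ℝ => -x ^ 2 / (2 * v)) (x ^ 2 / (2 * v ^ 2)) v := by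
    have := ((hasDerivAt_inv hv.ne').const_mul (-x ^ 2 / 2))
    convert! this using 1
    · ext y
      simp only [div_eq_mul_inv, mul_inv]
      ring
    · (clear * - hv; field_simp)
  have h5 := h3.mul h4.exp
  convert! h5 using 1
  unfold G2 G
  have hs : (√(2 * π * v)) ^ 2 = 2 * π * v := Real.sq_sqrt hpos.le
  have hs0 : √(2 * π * v) ≠ 0 := by positivity
  rw [hs]
  field_simp
  ring

end Vale.Agent.P105
end
end

section

section

open MeasureTheory Real Filter Topology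

namespace Vale.Agent.P105

lemma G_eq {v : ℝ} (hv : 0 < v) : G v = fun x => (√(2 * π * v))⁻¹ * exp (-(1 / (2 * v)) * x ^ 2) := by
  ext x
  unfold G
  congr 2
  field_simp

lemma continuous_G (v : ℝ) : Continuous (G v) := by
  unfold G; fun_prop

lemma continuous_G1 (v : ℝ) : Continuous (G1 v) := by
  unfold G1; have := continuous_G v; fun_prop

lemma integrable_pow_mul_G {v : ℝ} (hv : 0 < v) (n : ℕ) :
    Integrable (fun x => x ^ n * G v x) := by
  rw [G_eq hv]
  have h := integrable_rpow_mul_exp_neg_mul_sq (b := 1 / (2 * v)) (by positivity)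
    (s := (n : ℝ)) (by have : (0 : ℝ) ≤ n := Nat.cast_nonneg n
                       linarith)
  have h2 := h.const_mul (√(2 * π * v))⁻¹
  refine h2.congr (ae_of_all _ fun x => ?_)
  simp only [rpow_natCast]
  ring

lemma integrable_G {v : ℝ} (hv : 0 < v) : Integrable (G v) := by
  simpa only [pow_zero, one_mul] using integrable_pow_mul_G hv 0

lemma integral_G {v : ℝ} (hv : 0 < v) : ∫ x, G v x = 1 := by
  rw [G_eq hv, integral_const_mul, integral_gaussian]
  have : π / (1 / (2 * v)) = 2 * π * v := by field_simp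
  rw [this]
  have hpos : 0 < √(2 * π * v) := by positivity
  field_simp

lemma G_neg (v x : ℝ) : G v (-x) = G v x := by unfold G; simp only [even_two, Even.neg_pow]

lemma integral_id_mul_G (v : ℝ) : ∫ x, x * G v x = 0 := by
  have h : ∫ x, x * G v x = ∫ x, (-x) * G v (-x) :=
    (integral_neg_eq_self (fun x => x * G v x) volume).symm
  have h2 : ∫ x, (-x) * G v (-x) = - ∫ x, x * G v x := by
    rw [← integral_neg]
    congr 1
    ext x
    rw [G_neg]; ring
  linarith only [h, h2]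

lemma integrable_G1 {v : ℝ} (hv : 0 < v) : Integrable (G1 v) := by
  have := (integrable_pow_mul_G hv 1).const_mul (-(1 / v))
  refine this.congr (ae_of_all _ fun x => ?_)
  unfold G1; ring

lemma integrable_G2 {v : ℝ} (hv : 0 < v) : Integrable (G2 v) := by
  have := ((integrable_pow_mul_G hv 2).const_mul (1 / v ^ 2)).sub
    ((integrable_G hv).const_mul (1 / v))
  refine this.congr (ae_of_all _ fun x => ?_)
  simp only [Pi.sub_apply]
  unfold G2; ring

/-- x^n G is bounded -/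
lemma bdd_pow_mul_G {v : ℝ} (hv : 0 < v) (n : ℕ) : ∃ C, ∀ x, |x ^ n * G v x| ≤ C := by
  have hc : Continuous (fun x => x ^ n * G v x) := (continuous_pow n).mul (continuous_G v)
  have ht : Tendsto (fun x => x ^ n * G v x) (cocompact ℝ) (𝓝 0) := by
    have h := tendsto_rpow_abs_mul_exp_neg_mul_sq_cocompact (a := 1 / (2 * v)) (by positivity) (n : ℝ)
    have h2 := h.const_mul (√(2 * π * v))⁻¹
    rw [mul_zero] at h2
    rw [tendsto_zero_iff_abs_tendsto_zero]
    refine h2.congr fun x => ?_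
    simp only [Function.comp, G_eq hv, abs_mul, abs_pow, rpow_natCast, abs_exp, abs_inv]
    rw [abs_of_nonneg (Real.sqrt_nonneg _)]
    ring
  have hb := ZeroAtInftyContinuousMap.isBounded_range
    (⟨⟨fun x => x ^ n * G v x, hc⟩, ht⟩ : ZeroAtInftyContinuousMap ℝ ℝ)
  obtain ⟨C, hC⟩ := hb.exists_norm_le
  exact ⟨C, fun x => hC _ ⟨x, rfl⟩⟩

lemma bdd_G {v : ℝ} (v0 : 0 < v) : ∀ x, |G v x| ≤ (√(2 * π * v))⁻¹ := by
  intro x
  rw [abs_of_nonneg (G_nonneg v x)]
  unfold G
  have : exp (-x ^ 2 / (2 * v)) ≤ 1 := by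
    apply exp_le_one_iff.mpr
    apply div_nonpos_of_nonpos_of_nonneg
    · linarith only [sq_nonneg x]
    · positivity
  calc (√(2 * π * v))⁻¹ * exp (-x ^ 2 / (2 * v)) ≤ (√(2 * π * v))⁻¹ * 1 := by (clear * - this v0; gcongr)
    _ = _ := mul_one _

lemma abs_cmul_le {a X C : ℝ} (h : |X| ≤ C) : |a * X| ≤ |a| * C := by
  rw [abs_mul]
  exact mul_le_mul_of_nonneg_left h (abs_nonneg _)

lemma bdd_G1 {v : ℝ} (hv : 0 < v) : ∃ C, ∀ x, |G1 v x| ≤ C := by
  obtain ⟨C, hC⟩ := bdd_pow_mul_G hv 1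
  refine ⟨|-(1 / v)| * C, fun x => ?_⟩
  have : G1 v x = -(1 / v) * (x ^ 1 * G v x) := by unfold G1; ring
  rw [this]
  exact abs_cmul_le (hC x)

lemma integral_G2 {v : ℝ} (hv : 0 < v) : ∫ x, G2 v x = 0 :=
  integral_eq_zero_of_hasDerivAt_of_integrable (fun x => hasDerivAt_G1 hv x) (integrable_G2 hv)
    (integrable_G1 hv)

/-- second moment of the kernel -/
lemma integral_sq_mul_G {v : ℝ} (hv : 0 < v) : ∫ x, x ^ 2 * G v x = v := by
  have h0 := integral_G2 hv
  have h1 : ∫ x, G2 v x = (1 / v ^ 2) * (∫ x, x ^ 2 * G v x) - (1 / v) * ∫ x, G v x := by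
    rw [← integral_const_mul, ← integral_const_mul, ← integral_sub]
    · congr 1
      ext x
      unfold G2
      ring
    · exact (integrable_pow_mul_G hv 2).const_mul _
    · exact (integrable_G hv).const_mul _
  rw [integral_G hv] at h1
  rw [h0] at h1
  field_simp at h1
  linarith only [h1]

/-- `ConvE A B C`: C is the convolution of A and B -/
def ConvE (A B C : ℝ → ℝ) : Prop := ∀ x, ∫ t, A t * B (x - t) = C x

lemma ConvE.symm {A B C : ℝ → ℝ} (h : ConvE A B C) : ConvE B A C := by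
  intro x
  rw [← h x, ← integral_sub_left_eq_self (fun t => A t * B (x - t)) volume x]
  congr 1
  ext t
  rw [sub_sub_cancel, mul_comm]

lemma hasDerivAt_conv {A B B' : ℝ → ℝ} (hA : Integrable A) (hBc : Continuous B)
    (hBc' : Continuous B') {K K' : ℝ} (hB : ∀ x, |B x| ≤ K) (hB' : ∀ x, |B' x| ≤ K')
    (hd : ∀ x, HasDerivAt B (B' x) x) (x : ℝ) :
    HasDerivAt (fun x => ∫ t, A t * B (x - t)) (∫ t, A t * B' (x - t)) x := by
  refine (hasDerivAt_integral_of_dominated_loc_of_deriv_le (F := fun x t => A t * B (x - t))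
    (F' := fun x t => A t * B' (x - t)) (s := Set.univ) (bound := fun t => |A t| * K')
    Filter.univ_mem ?_ ?_ ?_ ?_ ?_ ?_).2
  · refine Eventually.of_forall fun y => ?_
    exact hA.aestronglyMeasurable.mul (by fun_prop)
  · refine (hA.norm.mul_const K).mono' (hA.aestronglyMeasurable.mul (by fun_prop)) ?_
    refine ae_of_all _ fun t => ?_
    rw [norm_mul]
    exact mul_le_mul_of_nonneg_left (hB _) (norm_nonneg _)
  · exact hA.aestronglyMeasurable.mul (by fun_prop)
  · refine ae_of_all _ fun t y _ => ?_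
    rw [norm_mul]
    exact mul_le_mul_of_nonneg_left (hB' _) (norm_nonneg _)
  · exact hA.norm.mul_const K'
  · refine ae_of_all _ fun t y _ => ?_
    exact ((hd (y - t)).comp_sub_const y t).const_mul (A t)

lemma ConvE.deriv {A B B' C C' : ℝ → ℝ} (h : ConvE A B C) (hA : Integrable A)
    (hBc : Continuous B) (hBc' : Continuous B') (hB : ∃ K, ∀ x, |B x| ≤ K)
    (hB' : ∃ K', ∀ x, |B' x| ≤ K')
    (hd : ∀ x, HasDerivAt B (B' x) x) (hC : ∀ x, HasDerivAt C (C' x) x) : ConvE A B' C' := by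
  intro x
  obtain ⟨K, hB⟩ := hB
  obtain ⟨K', hB'⟩ := hB'
  have h1 := hasDerivAt_conv hA hBc hBc' hB hB' hd x
  have h2 : (fun x => ∫ t, A t * B (x - t)) = C := funext h
  rw [h2] at h1
  exact h1.unique (hC x)

lemma convE_G {u w : ℝ} (hu : 0 < u) (hw : 0 < w) : ConvE (G u) (G w) (G (u + w)) := by
  intro x
  have hs : 0 < u * w / (u + w) := by positivity
  have key : ∀ t, G u t * G w (x - t) = G (u + w) x * G (u * w / (u + w)) (t - u * x / (u + w)) := by
    intro t
    unfold G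
    have e1 : exp (-t ^ 2 / (2 * u)) * exp (-(x - t) ^ 2 / (2 * w)) =
        exp (-x ^ 2 / (2 * (u + w))) *
          exp (-(t - u * x / (u + w)) ^ 2 / (2 * (u * w / (u + w)))) := by
      rw [← exp_add, ← exp_add]
      congr 1
      field_simp
      ring
    have e2 : (√(2 * π * u))⁻¹ * (√(2 * π * w))⁻¹ =
        (√(2 * π * (u + w)))⁻¹ * (√(2 * π * (u * w / (u + w))))⁻¹ := by
      rw [← mul_inv, ← mul_inv, ← Real.sqrt_mul (by positivity), ← Real.sqrt_mul (by positivity)]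
      congr 2
      field_simp
    calc _ = ((√(2 * π * u))⁻¹ * (√(2 * π * w))⁻¹) *
          (exp (-t ^ 2 / (2 * u)) * exp (-(x - t) ^ 2 / (2 * w))) := by ring
      _ = _ := by rw [e1, e2]; ring
  simp_rw [key]
  rw [integral_const_mul, integral_sub_right_eq_self (fun t => G (u * w / (u + w)) t),
    integral_G hs, mul_one]

lemma bdd_G' {v : ℝ} (hv : 0 < v) : ∃ C, ∀ x, |G v x| ≤ C := ⟨_, bdd_G hv⟩

lemma convE_G_G1 {u w : ℝ} (hu : 0 < u) (hw : 0 < w) : ConvE (G u) (G1 w) (G1 (u + w)) :=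
  (convE_G hu hw).deriv (integrable_G hu) (continuous_G w) (continuous_G1 w) (bdd_G' hw)
    (bdd_G1 hw) (hasDerivAt_G hw) (hasDerivAt_G (add_pos hu hw))

end Vale.Agent.P105
end
end

section

section

open MeasureTheory Real Filter Topology
open scoped ENNReal

namespace Vale.Agent.P105

/-- smoothing of a measure by a kernel -/
noncomputable def sm (μ : Measure ℝ) (K : ℝ → ℝ) (x : ℝ) : ℝ := ∫ t, K (x - t) ∂μ

/-- the L1 norm of the smoothing -/
noncomputable def nrm (μ : Measure ℝ) (K : ℝ → ℝ) : ℝ≥0∞ := ∫⁻ x, ‖sm μ K x‖ₑ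

lemma continuous_sm {μ : Measure ℝ} [IsFiniteMeasure μ] {K : ℝ → ℝ} (hK : Continuous K)
    (hb : ∃ C, ∀ x, |K x| ≤ C) : Continuous (sm μ K) := by
  obtain ⟨C, hC⟩ := hb
  unfold sm
  refine continuous_of_dominated (bound := fun _ => C) ?_ ?_ ?_ ?_
  · intro x
    exact (by fun_prop : Continuous fun t => K (x - t)).aestronglyMeasurable
  · intro x
    exact ae_of_all _ fun t => hC _
  · exact integrable_const _
  · exact ae_of_all _ fun t => by fun_prop

lemma integrable_kernel {μ : Measure ℝ} [IsFiniteMeasure μ] {K : ℝ → ℝ} (hK : Continuous K)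
    (hb : ∃ C, ∀ x, |K x| ≤ C) (x : ℝ) : Integrable (fun t => K (x - t)) μ := by
  obtain ⟨C, hC⟩ := hb
  exact (integrable_const C).mono' (by fun_prop : Continuous fun t => K (x - t)).aestronglyMeasurable
    (ae_of_all _ fun t => hC _)

lemma nrm_le {μ : Measure ℝ} [IsProbabilityMeasure μ] {K : ℝ → ℝ} (hK : Continuous K) :
    nrm μ K ≤ ∫⁻ x, ‖K x‖ₑ := by
  unfold nrm sm
  calc ∫⁻ x, ‖∫ t, K (x - t) ∂μ‖ₑ ≤ ∫⁻ x, ∫⁻ t, ‖K (x - t)‖ₑ ∂μ :=
        lintegral_mono fun x => enorm_integral_le_lintegral_enorm _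
    _ = ∫⁻ t, (∫⁻ x, ‖K (x - t)‖ₑ) ∂μ := by
        refine lintegral_lintegral_swap (f := fun x t => ‖K (x - t)‖ₑ) ?_
        exact (by fun_prop : Continuous fun p : ℝ × ℝ => ‖K (p.1 - p.2)‖ₑ).measurable.aemeasurable
    _ = ∫⁻ _t, (∫⁻ x, ‖K x‖ₑ) ∂μ :=
        lintegral_congr fun t => lintegral_sub_right_eq_self (fun x => ‖K x‖ₑ) t
    _ = ∫⁻ x, ‖K x‖ₑ := by simp

lemma sm_conv {μ ρ : Measure ℝ} [IsProbabilityMeasure μ] [IsProbabilityMeasure ρ]
    {K : ℝ → ℝ} (hK : Continuous K) (hb : ∃ C, ∀ x, |K x| ≤ C) (x : ℝ) :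
    sm (μ ∗ ρ) K x = ∫ a, sm ρ K (x - a) ∂μ := by
  unfold sm Measure.conv
  have hKx : Continuous fun t => K (x - t) := by (clear * - hK; fun_prop)
  rw [integral_map (by fun_prop) hKx.aestronglyMeasurable]
  obtain ⟨C, hC⟩ := hb
  rw [integral_prod]
  · simp only [sub_sub]
  · refine (integrable_const C).mono' ?_ (ae_of_all _ fun t => hC _)
    exact (by fun_prop : Continuous fun p : ℝ × ℝ => K (x - (p.1 + p.2))).aestronglyMeasurable

lemma nrm_conv_le_right {μ ρ : Measure ℝ} [IsProbabilityMeasure μ] [IsProbabilityMeasure ρ]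
    {K : ℝ → ℝ} (hK : Continuous K) (hb : ∃ C, ∀ x, |K x| ≤ C) :
    nrm (μ ∗ ρ) K ≤ nrm ρ K := by
  unfold nrm
  have hc : Continuous (sm ρ K) := continuous_sm hK hb
  calc ∫⁻ x, ‖sm (μ ∗ ρ) K x‖ₑ = ∫⁻ x, ‖∫ a, sm ρ K (x - a) ∂μ‖ₑ := by
        congr 1; ext x; rw [sm_conv hK hb]
    _ ≤ ∫⁻ x, ∫⁻ a, ‖sm ρ K (x - a)‖ₑ ∂μ :=
        lintegral_mono fun x => enorm_integral_le_lintegral_enorm _
    _ = ∫⁻ a, (∫⁻ x, ‖sm ρ K (x - a)‖ₑ) ∂μ := by
        refine lintegral_lintegral_swap (f := fun x a => ‖sm ρ K (x - a)‖ₑ) ?_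
        exact (by fun_prop : Continuous fun p : ℝ × ℝ =>
          ‖sm ρ K (p.1 - p.2)‖ₑ).measurable.aemeasurable
    _ = ∫⁻ _t, (∫⁻ x, ‖sm ρ K x‖ₑ) ∂μ :=
        lintegral_congr fun t => lintegral_sub_right_eq_self (fun x => ‖sm ρ K x‖ₑ) t
    _ = ∫⁻ x, ‖sm ρ K x‖ₑ := by simp

lemma sm_conv_mul {μ ρ : Measure ℝ} [IsProbabilityMeasure μ] [IsProbabilityMeasure ρ]
    {A B C : ℝ → ℝ} (hA : Continuous A) (hB : Continuous B) (hC : Continuous C)
    (hAi : Integrable A) (hbB : ∃ C, ∀ x, |B x| ≤ C) (h : ConvE A B C) (x : ℝ) :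
    sm (μ ∗ ρ) C x = ∫ s, sm μ A s * sm ρ B (x - s) := by
  have h1 : sm (μ ∗ ρ) C x = ∫ p : ℝ × ℝ, C (x - (p.1 + p.2)) ∂(μ.prod ρ) := by
    unfold sm Measure.conv
    have hKx : Continuous fun t => C (x - t) := by fun_prop
    rw [integral_map (by fun_prop) hKx.aestronglyMeasurable]
  rw [h1]
  have h2 : ∀ p : ℝ × ℝ, C (x - (p.1 + p.2)) = ∫ s, A (s - p.1) * B (x - s - p.2) := by
    intro p
    rw [← h (x - (p.1 + p.2)), ← integral_sub_right_eq_self
      (fun s => A s * B (x - (p.1 + p.2) - s)) p.1]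
    congr 1
    ext s
    congr 2
    ring
  simp_rw [h2]
  obtain ⟨K, hK⟩ := hbB
  have hint : Integrable (Function.uncurry fun (p : ℝ × ℝ) (s : ℝ) => A (s - p.1) * B (x - s - p.2))
      ((μ.prod ρ).prod volume) := by
    have hdom : Integrable (Function.uncurry fun (p : ℝ × ℝ) (s : ℝ) => A (s - p.1))
        ((μ.prod ρ).prod volume) := by
      have hm : AEStronglyMeasurable (Function.uncurry fun (p : ℝ × ℝ) (s : ℝ) => A (s - p.1))
          ((μ.prod ρ).prod volume) :=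
        (by fun_prop : Continuous (Function.uncurry fun (p : ℝ × ℝ) (s : ℝ) =>
          A (s - p.1))).aestronglyMeasurable
      rw [integrable_prod_iff hm]
      refine ⟨ae_of_all _ fun p => hAi.comp_sub_right p.1, ?_⟩
      have : (fun p : ℝ × ℝ => ∫ y : ℝ, ‖Function.uncurry (fun (p : ℝ × ℝ) (s : ℝ) => A (s - p.1))
          (p, y)‖) = fun _ => ∫ y, ‖A y‖ := by
        ext p
        simp only [Function.uncurry_apply_pair]
        exact integral_sub_right_eq_self (fun s => ‖A s‖) p.1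
      rw [this]
      exact integrable_const _
    refine (hdom.norm.mul_const K).mono' ?_ (ae_of_all _ fun q => ?_)
    · exact (by (clear * - hA hB; fun_prop) : Continuous (Function.uncurry fun (p : ℝ × ℝ) (s : ℝ) =>
          A (s - p.1) * B (x - s - p.2))).aestronglyMeasurable
    · simp only [Function.uncurry]
      rw [norm_mul]
      exact mul_le_mul_of_nonneg_left (hK _) (norm_nonneg _)
  rw [integral_integral_swap hint]
  congr 1
  ext s
  unfold sm
  exact integral_prod_mul (fun a => A (s - a)) (fun b => B (x - s - b))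

lemma nrm_conv_le {μ ρ : Measure ℝ} [IsProbabilityMeasure μ] [IsProbabilityMeasure ρ]
    {A B C : ℝ → ℝ} (hA : Continuous A) (hB : Continuous B) (hC : Continuous C)
    (hAi : Integrable A) (hbA : ∃ C, ∀ x, |A x| ≤ C)
    (hbB : ∃ C, ∀ x, |B x| ≤ C) (h : ConvE A B C) :
    nrm (μ ∗ ρ) C ≤ nrm μ A * nrm ρ B := by
  unfold nrm
  have hcA : Continuous (sm μ A) := continuous_sm hA hbA
  have hcB : Continuous (sm ρ B) := continuous_sm hB hbB
  calc ∫⁻ x, ‖sm (μ ∗ ρ) C x‖ₑ = ∫⁻ x, ‖∫ s, sm μ A s * sm ρ B (x - s)‖ₑ := by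
        congr 1; ext x; rw [sm_conv_mul hA hB hC hAi hbB h]
    _ ≤ ∫⁻ x, ∫⁻ s, ‖sm μ A s * sm ρ B (x - s)‖ₑ :=
        lintegral_mono fun x => enorm_integral_le_lintegral_enorm _
    _ = ∫⁻ s, ∫⁻ x, ‖sm μ A s * sm ρ B (x - s)‖ₑ := by
        refine lintegral_lintegral_swap (f := fun x s => ‖sm μ A s * sm ρ B (x - s)‖ₑ) ?_
        exact (by (clear * - hcA hcB; fun_prop) : Continuous fun p : ℝ × ℝ =>
          ‖sm μ A p.2 * sm ρ B (p.1 - p.2)‖ₑ).measurable.aemeasurable
    _ = ∫⁻ s, ‖sm μ A s‖ₑ * ∫⁻ x, ‖sm ρ B x‖ₑ := by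
        refine lintegral_congr fun s => ?_
        simp_rw [enorm_mul]
        rw [lintegral_const_mul _ (by fun_prop : Continuous fun x => ‖sm ρ B (x - s)‖ₑ).measurable]
        congr 1
        exact lintegral_sub_right_eq_self (fun x => ‖sm ρ B x‖ₑ) s
    _ = (∫⁻ x, ‖sm μ A x‖ₑ) * ∫⁻ x, ‖sm ρ B x‖ₑ := by
        rw [lintegral_mul_const _ (by fun_prop : Continuous fun x => ‖sm μ A x‖ₑ).measurable]

end Vale.Agent.P105
end
end

section

section

open MeasureTheory Real Filter Topology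
open scoped ENNReal

namespace Vale.Agent.P105

lemma G_scale {v c : ℝ} (hv : 0 < v) (hc : 0 < c) (x : ℝ) : G v (c * x) = c⁻¹ * G (v / c ^ 2) x := by
  unfold G
  have e1 : √(2 * π * (v / c ^ 2)) = √(2 * π * v) / c := by
    rw [show 2 * π * (v / c ^ 2) = (2 * π * v) / c ^ 2 by ring, Real.sqrt_div' _ (by positivity),
      Real.sqrt_sq hc.le]
  have e2 : -(c * x) ^ 2 / (2 * v) = -x ^ 2 / (2 * (v / c ^ 2)) := by
    field_simp
  rw [e1, e2, inv_div]
  (clear * - hc hv; field_simp)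

lemma G1_scale {v c : ℝ} (hv : 0 < v) (hc : 0 < c) (x : ℝ) :
    G1 v (c * x) = (c ^ 2)⁻¹ * G1 (v / c ^ 2) x := by
  unfold G1
  rw [G_scale hv hc]
  field_simp

lemma lintegral_comp_mul (f : ℝ → ℝ≥0∞) (hf : Measurable f) {c : ℝ} (hc : 0 < c) :
    ∫⁻ x, f x = ENNReal.ofReal c * ∫⁻ x, f (c * x) := by
  have h := Real.smul_map_volume_mul_left hc.ne'
  have h2 : ∫⁻ x, f x = ∫⁻ x, f x ∂(ENNReal.ofReal |c| • Measure.map (c * ·) volume) := by
    rw [h]
  rw [h2, lintegral_smul_measure, lintegral_map hf (by fun_prop), abs_of_pos hc, smul_eq_mul]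

lemma sm_map {μ : Measure ℝ} {K : ℝ → ℝ} (hK : Continuous K) (c x : ℝ) :
    sm (μ.map (c * ·)) K x = ∫ t, K (x - c * t) ∂μ := by
  unfold sm
  rw [integral_map (by fun_prop)
    (by fun_prop : Continuous fun t => K (x - t)).aestronglyMeasurable]

/-- uniform bound for G2 -/
lemma abs_G2_le {v : ℝ} (hv : 0 < v) (x : ℝ) : |G2 v x| ≤ 3 / v * (√(2 * π * v))⁻¹ := by
  set s := x ^ 2 / (2 * v) with hs
  have hs0 : 0 ≤ s := by (clear * - hv; positivity)
  have hx2 : x ^ 2 = 2 * v * s := by rw [hs]; field_simp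
  have h1 : s ≤ exp s := by
    have := Real.add_one_le_exp s
    linarith only [this]
  have he : exp (-x ^ 2 / (2 * v)) = (exp s)⁻¹ := by
    rw [← exp_neg, hs]; congr 1; ring
  have hG : G v x = (√(2 * π * v))⁻¹ * (exp s)⁻¹ := by
    unfold G; rw [he]
  have hE : 0 < exp s := exp_pos s
  have e : G2 v x = (√(2 * π * v))⁻¹ * ((2 * s - 1) / v * (exp s)⁻¹) := by
    unfold G2
    rw [hG, hx2]
    (clear * - hv; field_simp)
  rw [e, abs_mul, abs_of_pos (by positivity : 0 < (√(2 * π * v))⁻¹), mul_comm]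
  gcongr
  rw [abs_mul, abs_div, abs_of_pos (by positivity : 0 < (exp s)⁻¹), abs_of_pos hv,
    div_mul_eq_mul_div, div_le_div_iff_of_pos_right (by positivity)]
  rw [← div_eq_mul_inv, div_le_iff₀ hE]
  have h3 : 1 ≤ exp s := one_le_exp hs0
  rw [abs_le]
  constructor <;> nlinarith only [h1, hE, hs0, h3]

lemma measurable_G2_uncurry : Measurable (fun p : ℝ × ℝ => G2 p.1 p.2) := by
  unfold G2 G
  (clear * -; fun_prop)

lemma continuousOn_G2_var (x : ℝ) : ContinuousOn (fun v => G2 v x) (Set.Ioi 0) := by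
  unfold G2 G
  intro v hv
  have hv : 0 < v := hv
  apply ContinuousAt.continuousWithinAt
  have h1 : √(2 * π * v) ≠ 0 := by positivity
  (clear * - hv h1; fun_prop (disch := first | assumption | positivity))

/-- integrated heat equation, abstract form -/
lemma sm_sub_gen {K L : ℝ → ℝ → ℝ} {μ : Measure ℝ} [IsProbabilityMeasure μ] {y0 y1 : ℝ}
    (h0 : 0 < y0) (h1 : y0 ≤ y1)
    (hKc : ∀ y, Continuous (K y)) (hKb : ∀ y, 0 < y → ∃ C, ∀ x, |K y x| ≤ C)
    (hd : ∀ y, 0 < y → ∀ z, HasDerivAt (fun y => K y z) ((1 / 2) * L y z) y)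
    (hLc : ∀ z, ContinuousOn (fun y => L y z) (Set.Ioi 0))
    (hLm : Measurable (fun p : ℝ × ℝ => L p.1 p.2))
    (hLb : ∃ C, ∀ y, y0 ≤ y → ∀ z, |L y z| ≤ C)
    (x : ℝ) : sm μ (K y1) x - sm μ (K y0) x =
      ∫ y in Set.Ioc y0 y1, (1 / 2) * sm μ (L y) x := by
  have hy1 : 0 < y1 := h0.trans_le h1
  obtain ⟨C, hC⟩ := hLb
  unfold sm
  rw [← integral_sub (integrable_kernel (hKc _) (hKb _ hy1) x)
    (integrable_kernel (hKc _) (hKb _ h0) x)]
  have hk : ∀ z, K y1 z - K y0 z = ∫ y in Set.Ioc y0 y1, (1 / 2) * L y z := by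
    intro z
    rw [← intervalIntegral.integral_of_le h1, intervalIntegral.integral_eq_sub_of_hasDerivAt
      (f := fun y => K y z)]
    · intro y hy
      rw [Set.uIcc_of_le h1] at hy
      exact hd y (h0.trans_le hy.1) z
    · apply ContinuousOn.intervalIntegrable
      rw [Set.uIcc_of_le h1]
      exact ContinuousOn.mul continuousOn_const ((hLc z).mono
        (fun y hy => h0.trans_le hy.1))
  simp_rw [hk]
  have hint : Integrable (Function.uncurry fun (t y : ℝ) => (1 / 2) * L y (x - t))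
      (μ.prod (volume.restrict (Set.Ioc y0 y1))) := by
    have hfin : IsFiniteMeasure (volume.restrict (Set.Ioc y0 y1)) := by
      constructor; simp only [MeasurableSet.univ, Measure.restrict_apply, Set.univ_inter, volume_Ioc, ENNReal.ofReal_lt_top]
    refine (integrable_const ((1 / 2) * C)).mono' ?_ ?_
    · apply Measurable.aestronglyMeasurable
      exact (hLm.comp (by fun_prop : Measurable fun p : ℝ × ℝ =>
        (p.2, x - p.1))).const_mul (1 / 2)
    · have hae : ∀ᵐ p : ℝ × ℝ ∂(μ.prod (volume.restrict (Set.Ioc y0 y1))), p.2 ∈ Set.Ioc y0 y1 := by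
        have := (Measure.ae_prod_mem_iff_ae_ae_mem (μ := μ)
          (ν := volume.restrict (Set.Ioc y0 y1)) (s := {p : ℝ × ℝ | p.2 ∈ Set.Ioc y0 y1})
          (measurable_snd measurableSet_Ioc)).mpr
          (ae_of_all _ fun t => (ae_restrict_mem measurableSet_Ioc))
        exact this
      filter_upwards [hae] with p hp
      simp only [Function.uncurry]
      rw [norm_mul, Real.norm_of_nonneg (by norm_num : (0 : ℝ) ≤ 1 / 2)]
      gcongr
      exact hC _ hp.1.le _
  rw [integral_integral_swap hint]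
  congr 1
  ext y
  rw [integral_const_mul]

lemma nrm_sub_gen {K L : ℝ → ℝ → ℝ} {μ : Measure ℝ} [IsProbabilityMeasure μ] {y0 y1 : ℝ}
    (h0 : 0 < y0) (h1 : y0 ≤ y1)
    (hKc : ∀ y, Continuous (K y)) (hKb : ∀ y, 0 < y → ∃ C, ∀ x, |K y x| ≤ C)
    (hd : ∀ y, 0 < y → ∀ z, HasDerivAt (fun y => K y z) ((1 / 2) * L y z) y)
    (hLc : ∀ z, ContinuousOn (fun y => L y z) (Set.Ioi 0))
    (hLm : Measurable (fun p : ℝ × ℝ => L p.1 p.2))
    (hLb : ∃ C, ∀ y, y0 ≤ y → ∀ z, |L y z| ≤ C) :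
    ∫⁻ x, ‖sm μ (K y1) x - sm μ (K y0) x‖ₑ ≤
      ∫⁻ y in Set.Ioc y0 y1, ENNReal.ofReal (1 / 2) * nrm μ (L y) := by
  have hms : Measurable (fun p : ℝ × ℝ => sm μ (L p.1) p.2) := by
    unfold sm
    apply StronglyMeasurable.measurable
    apply StronglyMeasurable.integral_prod_right (f := fun (p : ℝ × ℝ) (t : ℝ) => L p.1 (p.2 - t))
    apply Measurable.stronglyMeasurable
    exact hLm.comp (by fun_prop : Measurable fun q : (ℝ × ℝ) × ℝ => (q.1.1, q.1.2 - q.2))
  calc ∫⁻ x, ‖sm μ (K y1) x - sm μ (K y0) x‖ₑ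
      = ∫⁻ x, ‖∫ y in Set.Ioc y0 y1, (1 / 2) * sm μ (L y) x‖ₑ := by
        refine lintegral_congr fun x => ?_
        rw [sm_sub_gen h0 h1 hKc hKb hd hLc hLm hLb]
    _ ≤ ∫⁻ x, ∫⁻ y in Set.Ioc y0 y1, ‖(1 / 2) * sm μ (L y) x‖ₑ :=
        lintegral_mono fun x => enorm_integral_le_lintegral_enorm _
    _ = ∫⁻ y in Set.Ioc y0 y1, ∫⁻ x, ‖(1 / 2) * sm μ (L y) x‖ₑ := by
        refine lintegral_lintegral_swap (f := fun x y => ‖(1 / 2) * sm μ (L y) x‖ₑ) ?_
        apply Measurable.aemeasurable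
        apply Measurable.enorm
        apply Measurable.const_mul
        exact hms.comp (by fun_prop : Measurable fun p : ℝ × ℝ => (p.2, p.1))
    _ = ∫⁻ y in Set.Ioc y0 y1, ENNReal.ofReal (1 / 2) * nrm μ (L y) := by
        refine lintegral_congr fun y => ?_
        unfold nrm
        rw [← lintegral_const_mul]
        · refine lintegral_congr fun x => ?_
          rw [enorm_mul, Real.enorm_of_nonneg (by norm_num : (0 : ℝ) ≤ 1 / 2)]
        · apply Measurable.enorm
          exact hms.comp (by fun_prop : Measurable fun x : ℝ => (y, x))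

lemma sqrt_inv_anti {a b : ℝ} (ha : 0 < a) (hab : a ≤ b) :
    (√(2 * π * b))⁻¹ ≤ (√(2 * π * a))⁻¹ := by
  gcongr

lemma nrm_sub_G {μ : Measure ℝ} [IsProbabilityMeasure μ] {y0 y1 : ℝ}
    (h0 : 0 < y0) (h1 : y0 ≤ y1) :
    ∫⁻ x, ‖sm μ (G y1) x - sm μ (G y0) x‖ₑ ≤
      ∫⁻ y in Set.Ioc y0 y1, ENNReal.ofReal (1 / 2) * nrm μ (G2 y) := by
  refine nrm_sub_gen h0 h1 (fun y => continuous_G y) (fun y hy => bdd_G' hy)
    (fun y hy z => hasDerivAt_G_var hy z) continuousOn_G2_var measurable_G2_uncurry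
    ⟨3 / y0 * (√(2 * π * y0))⁻¹, fun y hy z => ?_⟩
  refine (abs_G2_le (h0.trans_le hy) z).trans ?_
  have := sqrt_inv_anti h0 hy
  gcongr

lemma nrm_le_add_of_sub {μ : Measure ℝ} [IsProbabilityMeasure μ] {A B : ℝ → ℝ}
    (hA : Continuous A) (hbA : ∃ C, ∀ x, |A x| ≤ C) :
    nrm μ B ≤ nrm μ A + ∫⁻ x, ‖sm μ A x - sm μ B x‖ₑ := by
  unfold nrm
  rw [← lintegral_add_left (by
    have := continuous_sm (μ := μ) hA hbA
    exact (by fun_prop : Continuous fun x => ‖sm μ A x‖ₑ).measurable)]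
  refine lintegral_mono fun x => ?_
  have : sm μ B x = sm μ A x + (-(sm μ A x - sm μ B x)) := by ring
  calc ‖sm μ B x‖ₑ = ‖sm μ A x + (-(sm μ A x - sm μ B x))‖ₑ := by rw [← this]
    _ ≤ ‖sm μ A x‖ₑ + ‖-(sm μ A x - sm μ B x)‖ₑ := enorm_add_le _ _
    _ = _ := by rw [enorm_neg]

end Vale.Agent.P105
end
end

section

section

open MeasureTheory Real Filter Topology
open scoped ENNReal

namespace Vale.Agent.P105

/-- n-th space derivative of the heat kernel, by the Hermite recurrence -/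
noncomputable def Gd : ℕ → ℝ → ℝ → ℝ
  | 0, v, x => G v x
  | 1, v, x => (-(x / v)) * G v x
  | (n + 2), v, x => (-(x / v)) * Gd (n + 1) v x - ((n + 1 : ℝ) / v) * Gd n v x

lemma Gd_zero (v : ℝ) : Gd 0 v = G v := by ext x; simp only [Gd]
lemma Gd_one (v : ℝ) : Gd 1 v = G1 v := by ext x; simp only [Gd, neg_mul, G1]
lemma Gd_succ_succ (n : ℕ) (v x : ℝ) :
    Gd (n + 2) v x = (-(x / v)) * Gd (n + 1) v x - ((n + 1 : ℝ) / v) * Gd n v x := by
  simp only [Gd, neg_mul]

lemma Gd_two (v : ℝ) : Gd 2 v = G2 v := by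
  ext x
  rw [Gd_succ_succ, Gd_zero, zero_add, Gd_one]
  unfold G2 G1
  push_cast
  ring

lemma hasDerivAt_Gd {v : ℝ} (hv : 0 < v) (n : ℕ) (x : ℝ) :
    HasDerivAt (Gd n v) (Gd (n + 1) v x) x := by
  induction n using Nat.twoStepInduction generalizing x with
  | zero => rw [Gd_zero, zero_add, Gd_one]; exact hasDerivAt_G hv x
  | one => rw [Gd_one]; rw [show 1 + 1 = 2 from rfl, Gd_two]; exact hasDerivAt_G1 hv x
  | more n ih1 ih2 =>
    have h1 : HasDerivAt (fun x : ℝ => -(x / v)) (-(1 / v)) x :=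
      ((hasDerivAt_id x).div_const v).neg
    have h2 := (h1.mul (ih2 x)).sub ((ih1 x).const_mul ((n + 1 : ℝ) / v))
    have e : Gd (n + 2) v = fun x => (-(x / v)) * Gd (n + 1) v x - ((n + 1 : ℝ) / v) * Gd n v x := by
      ext x; exact Gd_succ_succ n v x
    rw [e]
    convert! h2 using 1
    rw [Gd_succ_succ (n + 1) v x]
    push_cast
    rw [show n + 1 + 1 = n + 2 from rfl]
    ring

lemma hasDerivAt_Gd_var {v : ℝ} (hv : 0 < v) (n : ℕ) (x : ℝ) :
    HasDerivAt (fun v => Gd n v x) ((1 / 2) * Gd (n + 2) v x) v := by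
  induction n using Nat.twoStepInduction with
  | zero =>
    simp only [Gd_zero]
    rw [zero_add, Gd_two]
    exact hasDerivAt_G_var hv x
  | one =>
    have h1 : HasDerivAt (fun v : ℝ => -(x / v)) (x / v ^ 2) v := by
      have := ((hasDerivAt_inv hv.ne').const_mul (-x))
      convert! this using 1
      · ext y; simp only [div_eq_mul_inv, neg_mul]
      · (clear * - hv; field_simp)
    have h2 := h1.mul (hasDerivAt_G_var hv x)
    have e : (fun v => Gd 1 v x) = fun v => (-(x / v)) * G v x := by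
      ext v; simp only [Gd, neg_mul]
    rw [e]
    convert! h2 using 1
    rw [show 1 + 2 = 1 + 2 from rfl, Gd_succ_succ 1 v x, show 1 + 1 = 2 from rfl, Gd_two, Gd_one]
    unfold G2 G1
    push_cast
    field_simp
    ring
  | more n ih1 ih2 =>
    have h1 : HasDerivAt (fun v : ℝ => -(x / v)) (x / v ^ 2) v := by
      have := ((hasDerivAt_inv hv.ne').const_mul (-x))
      convert! this using 1
      · ext y; simp only [div_eq_mul_inv, neg_mul]
      · (clear * - hv; field_simp)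
    have h1' : HasDerivAt (fun v : ℝ => (n + 1 : ℝ) / v) (-((n + 1 : ℝ) / v ^ 2)) v := by
      have := ((hasDerivAt_inv hv.ne').const_mul (n + 1 : ℝ))
      convert! this using 1
      (clear * - hv; field_simp)
    have h2 := (h1.mul ih2).sub (h1'.mul ih1)
    have e : (fun v => Gd (n + 2) v x) =
        fun v => (-(x / v)) * Gd (n + 1) v x - ((n + 1 : ℝ) / v) * Gd n v x := by
      ext v; exact Gd_succ_succ n v x
    rw [e]
    convert! h2 using 1
    have r4 := Gd_succ_succ (n + 2) v x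
    have r2 := Gd_succ_succ n v x
    push_cast at r4
    rw [show n + 1 + 2 = n + 2 + 1 from rfl, r4, r2]
    field_simp
    ring

lemma continuous_Gd (n : ℕ) (v : ℝ) : Continuous (Gd n v) := by
  induction n using Nat.twoStepInduction with
  | zero => rw [Gd_zero]; exact continuous_G v
  | one => rw [Gd_one]; exact continuous_G1 v
  | more n ih1 ih2 =>
    have e : Gd (n + 2) v = fun x => (-(x / v)) * Gd (n + 1) v x - ((n + 1 : ℝ) / v) * Gd n v x := by
      ext x; exact Gd_succ_succ n v x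
    rw [e]
    (clear * - ih2 ih1; fun_prop)

lemma measurable_Gd_uncurry (n : ℕ) : Measurable (fun p : ℝ × ℝ => Gd n p.1 p.2) := by
  induction n using Nat.twoStepInduction with
  | zero => simp only [Gd_zero]; unfold G; (clear * -; fun_prop)
  | one => simp only [Gd_one]; unfold G1 G; fun_prop
  | more n ih1 ih2 =>
    simp only [Gd_succ_succ]
    (clear * - ih2 ih1; fun_prop)

lemma continuousOn_Gd_var (n : ℕ) (x : ℝ) : ContinuousOn (fun v => Gd n v x) (Set.Ioi 0) :=
  fun v hv => (hasDerivAt_Gd_var (v := v) hv n x).continuousAt.continuousWithinAt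

lemma integrable_pow_mul_Gd {v : ℝ} (hv : 0 < v) (n k : ℕ) :
    Integrable (fun x => x ^ k * Gd n v x) := by
  induction n using Nat.twoStepInduction generalizing k with
  | zero => simp only [Gd_zero]; exact integrable_pow_mul_G hv k
  | one =>
    have := (integrable_pow_mul_G hv (k + 1)).const_mul (-(1 / v))
    refine this.congr (ae_of_all _ fun x => ?_)
    simp only [Gd_one]
    unfold G1; ring
  | more n ih1 ih2 =>
    have := ((ih2 (k + 1)).const_mul (-(1 / v))).sub ((ih1 k).const_mul ((n + 1 : ℝ) / v))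
    refine this.congr (ae_of_all _ fun x => ?_)
    simp only [Pi.sub_apply]
    rw [Gd_succ_succ]; ring

lemma bdd_Gd_unif_zero {y0 : ℝ} (h0 : 0 < y0) (k : ℕ) :
    ∃ C, ∀ v, y0 ≤ v → ∀ x, |(x / v) ^ k * Gd 0 v x| ≤ C := by
  refine ⟨√((2 / y0) ^ k * k.factorial) * (√(2 * π * y0))⁻¹, fun v hv x => ?_⟩
  have hv0 : 0 < v := h0.trans_le hv
  rw [Gd_zero, abs_mul, abs_of_nonneg (G_nonneg v x)]
  set s := x ^ 2 / (2 * v) with hs
  have hs0 : 0 ≤ s := by (clear * - hv0; positivity)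
  have he : exp (-x ^ 2 / (2 * v)) = (exp s)⁻¹ := by
    rw [← exp_neg, hs]; congr 1; ring
  unfold G
  rw [he]
  have hE : 0 < exp s := exp_pos s
  have h1 : |(x / v) ^ k| ≤ √((2 / y0) ^ k * k.factorial) * exp s := by
    have h2 : ((x / v) ^ k) ^ 2 ≤ ((2 / y0) ^ k * k.factorial) * (exp s) ^ 2 := by
      have e1 : ((x / v) ^ k) ^ 2 = (2 / v) ^ k * s ^ k := by
        rw [← pow_mul, mul_comm k 2, pow_mul, ← mul_pow]
        congr 1
        rw [hs]; field_simp
      have h3 : s ^ k ≤ k.factorial * exp s := by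
        have := Real.pow_div_factorial_le_exp s hs0 k
        rwa [div_le_iff₀ (by positivity), mul_comm] at this
      have h4 : (2 / v) ^ k ≤ (2 / y0) ^ k := by gcongr
      have h5 : exp s ≤ exp s ^ 2 := by
        have := one_le_exp hs0
        nlinarith only [this]
      rw [e1]
      calc (2 / v) ^ k * s ^ k ≤ (2 / y0) ^ k * (k.factorial * exp s) := by (clear * - h4 h3 hv0 h0; gcongr)
        _ ≤ (2 / y0) ^ k * (k.factorial * exp s ^ 2) := by gcongr
        _ = _ := by ring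
    have h6 := Real.abs_le_sqrt h2
    rwa [Real.sqrt_mul (by (clear * - h0; positivity)), Real.sqrt_sq hE.le] at h6
  have h7 := sqrt_inv_anti h0 hv
  calc |(x / v) ^ k| * ((√(2 * π * v))⁻¹ * (exp s)⁻¹)
      ≤ (√((2 / y0) ^ k * k.factorial) * exp s) * ((√(2 * π * y0))⁻¹ * (exp s)⁻¹) := by gcongr
    _ = _ := by (clear * - h0; field_simp)

/-- uniform bounds for v bounded below -/
lemma bdd_Gd_unif {y0 : ℝ} (h0 : 0 < y0) (n k : ℕ) :
    ∃ C, ∀ v, y0 ≤ v → ∀ x, |(x / v) ^ k * Gd n v x| ≤ C := by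
  induction n using Nat.twoStepInduction generalizing k with
  | zero => exact bdd_Gd_unif_zero h0 k
  | one =>
    obtain ⟨C, hC⟩ := bdd_Gd_unif_zero h0 (k + 1)
    refine ⟨C, fun v hv x => ?_⟩
    have := hC v hv x
    rw [Gd_zero] at this
    rw [Gd_one]
    have e : (x / v) ^ k * G1 v x = -((x / v) ^ (k + 1) * G v x) := by unfold G1; ring
    rw [e, abs_neg]
    exact this
  | more n ih1 ih2 =>
    obtain ⟨C, hC⟩ := ih2 (k + 1)
    obtain ⟨D, hD⟩ := ih1 k
    refine ⟨C + (n + 1 : ℝ) / y0 * D, fun v hv x => ?_⟩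
    have hv0 : 0 < v := h0.trans_le hv
    have e : (x / v) ^ k * Gd (n + 2) v x = (-((x / v) ^ (k + 1) * Gd (n + 1) v x)) +
        (-((n + 1 : ℝ) / v) * ((x / v) ^ k * Gd n v x)) := by
      rw [Gd_succ_succ]; ring
    rw [e]
    refine (abs_add_le _ _).trans (add_le_add ?_ ?_)
    · rw [abs_neg]; exact hC v hv x
    · rw [abs_mul, abs_neg, abs_of_nonneg (by (clear * - hv0; (clear * - hv0; positivity)) : 0 ≤ (n + 1 : ℝ) / v)]
      have := hD v hv x
      (clear * - h0 hv this; gcongr)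

lemma bdd_Gd {v : ℝ} (hv : 0 < v) (n : ℕ) : ∃ C, ∀ x, |Gd n v x| ≤ C := by
  obtain ⟨C, hC⟩ := bdd_Gd_unif hv n 0
  exact ⟨C, fun x => by simpa only [pow_zero, one_mul] using hC v le_rfl x⟩

lemma bdd_Gd_unif' {y0 : ℝ} (h0 : 0 < y0) (n : ℕ) : ∃ C, ∀ v, y0 ≤ v → ∀ x, |Gd n v x| ≤ C := by
  obtain ⟨C, hC⟩ := bdd_Gd_unif h0 n 0
  exact ⟨C, fun v hv x => by simpa only [pow_zero, one_mul] using hC v hv x⟩

lemma convE_G1_Gd {u w : ℝ} (hu : 0 < u) (hw : 0 < w) (n : ℕ) :
    ConvE (G1 u) (Gd n w) (Gd (n + 1) (u + w)) := by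
  induction n with
  | zero =>
    rw [Gd_zero, zero_add, Gd_one]
    have := (convE_G_G1 hw hu).symm
    rwa [add_comm w u] at this
  | succ n ih =>
    exact ih.deriv (integrable_G1 hu) (continuous_Gd n w) (continuous_Gd (n + 1) w) (bdd_Gd hw n)
      (bdd_Gd hw (n + 1)) (fun x => hasDerivAt_Gd hw n x)
      (fun x => hasDerivAt_Gd (add_pos hu hw) (n + 1) x)

/-- Hermite factor: Gd n = Hn n * G -/
noncomputable def Hn : ℕ → ℝ → ℝ → ℝ
  | 0, _, _ => 1
  | 1, v, x => -(x / v)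
  | (n + 2), v, x => (-(x / v)) * Hn (n + 1) v x - ((n + 1 : ℝ) / v) * Hn n v x

lemma Hn_zero (v x : ℝ) : Hn 0 v x = 1 := by simp only [Hn]
lemma Hn_one (v x : ℝ) : Hn 1 v x = -(x / v) := by simp [Hn]
lemma Hn_succ_succ (n : ℕ) (v x : ℝ) :
    Hn (n + 2) v x = (-(x / v)) * Hn (n + 1) v x - ((n + 1 : ℝ) / v) * Hn n v x := by
  simp only [Hn, neg_mul]

lemma Gd_eq_Hn_mul (n : ℕ) (v x : ℝ) : Gd n v x = Hn n v x * G v x := by
  induction n using Nat.twoStepInduction with
  | zero => simp [Gd, Hn]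
  | one => simp only [Gd, neg_mul, Hn]
  | more n ih1 ih2 => rw [Gd_succ_succ, Hn_succ_succ, ih1, ih2]; ring

lemma hasDerivAt_Hn {v : ℝ} (hv : 0 < v) (n : ℕ) (x : ℝ) :
    HasDerivAt (Hn (n + 1) v) (-((n + 1 : ℝ) / v) * Hn n v x) x := by
  induction n using Nat.twoStepInduction generalizing x with
  | zero =>
    have e : Hn (0 + 1) v = fun x => -(x / v) := by ext x; simp [Hn]
    rw [e, Hn_zero]
    have h1 : HasDerivAt (fun x : ℝ => -(x / v)) (-(1 / v)) x :=
      ((hasDerivAt_id x).div_const v).neg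
    convert! h1 using 1
    simp only [CharP.cast_eq_zero, zero_add, one_div, mul_one]
  | one =>
    have e : Hn (1 + 1) v = fun x => x ^ 2 / v ^ 2 - 1 / v := by
      ext x
      rw [show 1 + 1 = 0 + 2 from rfl, Hn_succ_succ, zero_add, Hn_one, Hn_zero]
      push_cast; ring
    rw [e, Hn_one]
    have := ((hasDerivAt_pow 2 x).div_const (v ^ 2)).sub_const (1 / v)
    convert! this using 1
    push_cast
    field_simp
    ring
  | more n ih1 ih2 =>
    have h1 : HasDerivAt (fun x : ℝ => -(x / v)) (-(1 / v)) x :=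
      ((hasDerivAt_id x).div_const v).neg
    have h2 := (h1.mul (ih2 x)).sub ((ih1 x).const_mul ((n + 1 + 1 : ℝ) / v))
    have e : Hn (n + 2 + 1) v = fun x => (-(x / v)) * Hn (n + 1 + 1) v x -
        ((n + 1 + 1 : ℝ) / v) * Hn (n + 1) v x := by
      ext x
      have := Hn_succ_succ (n + 1) v x
      push_cast at this
      exact this
    rw [e]
    convert! h2 using 1
    have r := Hn_succ_succ n v x
    rw [show n + 2 = n + 1 + 1 from rfl] at r ⊢
    push_cast at r ⊢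
    rw [r]
    ring

lemma integrable_pow_mul_Hn_mul_Gd {v : ℝ} (hv : 0 < v) (m n k : ℕ) :
    Integrable (fun x => x ^ k * (Hn m v x * Gd n v x)) := by
  induction m using Nat.twoStepInduction generalizing k with
  | zero => simp only [Hn_zero, one_mul]; exact integrable_pow_mul_Gd hv n k
  | one =>
    have := (integrable_pow_mul_Gd hv n (k + 1)).const_mul (-(1 / v))
    refine this.congr (ae_of_all _ fun x => ?_)
    simp only [Hn_one]
    ring
  | more m ih1 ih2 =>
    have := ((ih2 (k + 1)).const_mul (-(1 / v))).sub ((ih1 k).const_mul ((m + 1 : ℝ) / v))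
    refine this.congr (ae_of_all _ fun x => ?_)
    simp only [Pi.sub_apply]
    rw [Hn_succ_succ]; ring

lemma integrable_Hn_mul_Gd {v : ℝ} (hv : 0 < v) (m n : ℕ) :
    Integrable (fun x => Hn m v x * Gd n v x) := by
  simpa only [pow_zero, one_mul] using integrable_pow_mul_Hn_mul_Gd hv m n 0

lemma integral_Hn_mul_Gd {v : ℝ} (hv : 0 < v) (n : ℕ) :
    ∫ x, Hn n v x * Gd n v x = n.factorial / v ^ n := by
  induction n with
  | zero => simp only [Hn_zero, Gd_zero, one_mul, integral_G hv, Nat.factorial_zero, Nat.cast_one, pow_zero, ne_eq, one_ne_zero, not_false_eq_true, div_self]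
  | succ n ih =>
    have h := integral_mul_deriv_eq_deriv_mul_of_integrable
      (u := Hn (n + 1) v) (v := Gd n v) (u' := fun x => -((n + 1 : ℝ) / v) * Hn n v x)
      (v' := Gd (n + 1) v) (fun x _ => hasDerivAt_Hn hv n x) (fun x _ => hasDerivAt_Gd hv n x)
      (integrable_Hn_mul_Gd hv (n + 1) (n + 1))
      (by
        have := (integrable_Hn_mul_Gd hv n n).const_mul (-((n + 1 : ℝ) / v))
        refine this.congr (ae_of_all _ fun x => ?_)
        simp only [Pi.mul_apply]; ring)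
      (integrable_Hn_mul_Gd hv (n + 1) n)
    rw [h]
    have e : ∫ x, -((n + 1 : ℝ) / v) * Hn n v x * Gd n v x =
        -((n + 1 : ℝ) / v) * ∫ x, Hn n v x * Gd n v x := by
      rw [← integral_const_mul]
      congr 1
      ext x; ring
    rw [e, ih, Nat.factorial_succ]
    push_cast
    field_simp
    ring

/-- sharp-order L1 bound -/
lemma lintegral_Gd_le {v : ℝ} (hv : 0 < v) (n : ℕ) :
    ∫⁻ x, ‖Gd n v x‖ₑ ≤ ENNReal.ofReal (√(n.factorial / v ^ n)) := by
  set q : ℝ := n.factorial / v ^ n with hq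
  have hq0 : 0 < q := by positivity
  have hs : 0 < √q := Real.sqrt_pos.mpr hq0
  have i1 := (integrable_Hn_mul_Gd hv n n).const_mul (1 / (2 * √q))
  have i2 := (integrable_G hv).const_mul (√q / 2)
  have hint : Integrable (fun x => 1 / (2 * √q) * (Hn n v x * Gd n v x) + √q / 2 * G v x) :=
    i1.add i2
  have hval : ∫ x, (1 / (2 * √q) * (Hn n v x * Gd n v x) + √q / 2 * G v x) = √q := by
    rw [integral_add i1 i2, integral_const_mul, integral_const_mul, integral_Hn_mul_Gd hv,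
      integral_G hv, ← hq]
    have : √q ^ 2 = q := Real.sq_sqrt hq0.le
    field_simp
    linarith only [this]
  have hpt : ∀ x, |Gd n v x| ≤ 1 / (2 * √q) * (Hn n v x * Gd n v x) + √q / 2 * G v x := by
    intro x
    have hG := G_nonneg v x
    rw [Gd_eq_Hn_mul, abs_mul, abs_of_nonneg hG]
    have h1 : |Hn n v x| ≤ 1 / (2 * √q) * (Hn n v x) ^ 2 + √q / 2 := by
      have h2 : 0 ≤ (|Hn n v x| - √q) ^ 2 := sq_nonneg _
      have h3 : |Hn n v x| ^ 2 = (Hn n v x) ^ 2 := sq_abs _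
      have h4 : 1 / (2 * √q) * (Hn n v x) ^ 2 + √q / 2 =
          ((Hn n v x) ^ 2 + √q ^ 2) / (2 * √q) := by (clear * - hq0; field_simp)
      rw [h4, le_div_iff₀ (by (clear * - hv; positivity))]
      linarith
    calc |Hn n v x| * G v x ≤ (1 / (2 * √q) * (Hn n v x) ^ 2 + √q / 2) * G v x := by (clear * - h1 hG; gcongr)
      _ = _ := by ring
  rw [← hval, ofReal_integral_eq_lintegral_ofReal hint
    (ae_of_all _ fun x => (abs_nonneg _).trans (hpt x))]
  refine lintegral_mono fun x => ?_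
  rw [Real.enorm_eq_ofReal_abs]
  exact ENNReal.ofReal_le_ofReal (hpt x)

end Vale.Agent.P105
end
end

section

section

open MeasureTheory Real Filter Topology
open scoped ENNReal

namespace Vale.Agent.P105

lemma log_ge_aux {t : ℝ} (ht : 1 ≤ t) : 2 * (t - 1) ≤ (t + 1) * log t := by
  have hmono : MonotoneOn (fun t : ℝ => (t + 1) * log t - 2 * (t - 1)) (Set.Ici 1) := by
    apply monotoneOn_of_deriv_nonneg (convex_Ici 1)
    · intro x hx
      have : x ≠ 0 := by have : (1 : ℝ) ≤ x := hx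
                         linarith
      apply ContinuousAt.continuousWithinAt
      fun_prop (disch := assumption)
    · intro x hx
      rw [interior_Ici] at hx
      have : x ≠ 0 := by have : (1 : ℝ) < x := hx
                         linarith
      apply DifferentiableAt.differentiableWithinAt
      (clear * - this; fun_prop (disch := assumption))
    · intro x hx
      rw [interior_Ici] at hx
      have hx1 : (1 : ℝ) < x := hx
      have hx0 : 0 < x := by linarith
      have hd : HasDerivAt (fun t : ℝ => (t + 1) * log t - 2 * (t - 1))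
          (1 * log x + (x + 1) * x⁻¹ - 2) x := by
        have h1 := ((hasDerivAt_id x).add_const (1 : ℝ)).mul (hasDerivAt_log hx0.ne')
        have h2 := ((hasDerivAt_id x).sub_const (1 : ℝ)).const_mul 2
        have := h1.sub h2
        convert! this using 1
        simp only [one_mul, id_eq, mul_one]
      rw [hd.deriv]
      have h3 : 1 - x⁻¹ ≤ log x := one_sub_inv_le_log_of_pos hx0
      have h4 : (x + 1) * x⁻¹ = 1 + x⁻¹ := by (clear * - hx1; field_simp)
      rw [h4]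
      linarith only [h3]
  have := hmono (Set.mem_Ici.mpr le_rfl) (Set.mem_Ici.mpr ht) ht
  simp only [log_one, mul_zero, sub_self, sub_nonneg] at this
  linarith only [this]

lemma log_le_aux {t : ℝ} (ht0 : 0 < t) (ht : t ≤ 1) : (t + 1) * log t ≤ 2 * (t - 1) := by
  have h := log_ge_aux (t := t⁻¹) ((one_le_inv₀ ht0).mpr ht)
  rw [log_inv] at h
  have h2 := mul_le_mul_of_nonneg_left h ht0.le
  have e1 : t * (2 * (t⁻¹ - 1)) = 2 * (1 - t) := by field_simp
  have e2 : t * ((t⁻¹ + 1) * -log t) = -((t + 1) * log t) := by field_simp; ring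
  rw [e1, e2] at h2
  linarith only [h2]

/-- pointwise inequality behind Pinsker's inequality -/
lemma pinsker_pointwise {t : ℝ} (ht : 0 < t) :
    3 * (t - 1) ^ 2 ≤ (2 * t + 4) * (t * log t - t + 1) := by
  set h : ℝ → ℝ := fun t => (2 * t + 4) * (t * log t - t + 1) - 3 * (t - 1) ^ 2 with hh
  have hd : ∀ x : ℝ, 0 < x → HasDerivAt h (4 * ((x + 1) * log x - 2 * (x - 1))) x := by
    intro x hx
    have h1 := (((hasDerivAt_id x).const_mul 2).add_const (4 : ℝ))
    have h2 := (((hasDerivAt_mul_log hx.ne').sub (hasDerivAt_id x)).add_const (1 : ℝ))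
    have h3 := (((hasDerivAt_id x).sub_const (1 : ℝ)).pow 2).const_mul 3
    have := (h1.mul h2).sub h3
    convert! this using 1
    simp only [mul_one, Pi.sub_apply, id_eq, add_sub_cancel_right, Nat.cast_ofNat, Nat.add_one_sub_one, pow_one]
    ring
  have h1 : h 1 = 0 := by simp [hh]
  have hcont : ∀ x : ℝ, 0 < x → ContinuousAt h x := fun x hx => (hd x hx).continuousAt
  rcases le_total t 1 with h01 | h01
  · have hanti : AntitoneOn h (Set.Icc t 1) := by
      apply antitoneOn_of_deriv_nonpos (convex_Icc t 1)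
      · intro x hx
        exact (hcont x (ht.trans_le hx.1)).continuousWithinAt
      · intro x hx
        rw [interior_Icc] at hx
        exact (hd x (ht.trans hx.1)).differentiableAt.differentiableWithinAt
      · intro x hx
        rw [interior_Icc] at hx
        rw [(hd x (ht.trans hx.1)).deriv]
        have := log_le_aux (ht.trans hx.1) hx.2.le
        linarith only [this]
    have := hanti (Set.left_mem_Icc.mpr h01) (Set.right_mem_Icc.mpr h01) h01
    rw [h1] at this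
    simp only [hh] at this
    linarith only [this]
  · have hmono : MonotoneOn h (Set.Ici 1) := by
      apply monotoneOn_of_deriv_nonneg (convex_Ici 1)
      · intro x hx
        exact (hcont x (lt_of_lt_of_le one_pos hx)).continuousWithinAt
      · intro x hx
        rw [interior_Ici] at hx
        exact (hd x (lt_trans one_pos hx)).differentiableAt.differentiableWithinAt
      · intro x hx
        rw [interior_Ici] at hx
        have hx1 : (1 : ℝ) < x := hx
        rw [(hd x (by linarith)).deriv]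
        have := log_ge_aux hx1.le
        linarith
    have := hmono (Set.mem_Ici.mpr le_rfl) (Set.mem_Ici.mpr h01) h01
    rw [h1] at this
    simp only [hh] at this
    linarith

/-- two-variable form -/
lemma pinsker_pq {p q : ℝ} (hp : 0 < p) (hq : 0 < q) :
    3 * (p - q) ^ 2 ≤ (2 * p + 4 * q) * (p * (log p - log q) - p + q) := by
  have h := pinsker_pointwise (t := p / q) (by positivity)
  rw [log_div hp.ne' hq.ne'] at h
  have h2 := mul_le_mul_of_nonneg_left h (by positivity : 0 ≤ q ^ 2)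
  have e1 : q ^ 2 * (3 * (p / q - 1) ^ 2) = 3 * (p - q) ^ 2 := by field_simp
  have e2 : q ^ 2 * ((2 * (p / q) + 4) * (p / q * (log p - log q) - p / q + 1)) =
      (2 * p + 4 * q) * (p * (log p - log q) - p + q) := by (clear * - hq hp; field_simp)
  rw [e1, e2] at h2
  exact h2

lemma kl_nonneg {p q : ℝ} (hp : 0 < p) (hq : 0 < q) : 0 ≤ p * (log p - log q) - p + q := by
  have h := pinsker_pq hp hq
  have : 0 ≤ (2 * p + 4 * q) * (p * (log p - log q) - p + q) := le_trans (by (clear * - ; positivity)) h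
  exact nonneg_of_mul_nonneg_right this (by positivity)

lemma pinsker_amgm {p q z s : ℝ} (hp : 0 < p) (hq : 0 < q) (hs : 0 < s) :
    |z| * |p - q| ≤ s / 3 * z ^ 2 * (p + 2 * q) + 1 / (2 * s) * (p * (log p - log q) - p + q) := by
  have h := pinsker_pq hp hq
  have hk := kl_nonneg hp hq
  set k := p * (log p - log q) - p + q with hkdef
  set a := s / 3 * z ^ 2 * (p + 2 * q) with ha
  set b := 1 / (2 * s) * k with hb
  have ha0 : 0 ≤ a := by (clear * - hs hp hq; (clear * - hs hp hq; positivity))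
  have hb0 : 0 ≤ b := by (clear * - hs hk; (clear * - hs hk; positivity))
  have h1 : (|z| * |p - q|) ^ 2 ≤ 4 * a * b := by
    rw [mul_pow, sq_abs, sq_abs]
    have : 4 * a * b = z ^ 2 * ((2 * p + 4 * q) * k / 3) := by
      rw [ha, hb]; field_simp; ring
    rw [this]
    gcongr
    linarith only [h]
  have h2 : (|z| * |p - q|) ^ 2 ≤ (a + b) ^ 2 := by linarith only [h1, sq_nonneg (a - b)]
  exact le_of_sq_le_sq h2 (by (clear * - hs hp hq hk; (clear * - hs hp hq hk; positivity))) 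

end Vale.Agent.P105
end
end

section

section

open MeasureTheory Real Filter Topology
open scoped ENNReal

namespace Vale.Agent.P105

/-- differential entropy of the Gaussian smoothing of a measure -/
noncomputable def ent (μ : Measure ℝ) (v : ℝ) : ℝ := ∫ x, negMulLog (sm μ (G v) x)

lemma sm_semigroup {μ : Measure ℝ} [IsProbabilityMeasure μ]
    {A B C : ℝ → ℝ} (hA : Continuous A) (hB : Continuous B) (hC : Continuous C)
    (hAi : Integrable A) (hbB : ∃ C, ∀ x, |B x| ≤ C) (h : ConvE A B C) (x : ℝ) :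
    sm μ C x = ∫ z, sm μ A (x - z) * B z := by
  have h1 := sm_conv_mul (μ := μ) (ρ := Measure.dirac 0) hA hB hC hAi hbB h x
  rw [Measure.conv_dirac_zero] at h1
  rw [h1, ← integral_sub_left_eq_self (fun z => sm μ A (x - z) * B z) volume x]
  congr 1
  ext s
  have : sm (Measure.dirac 0) B (x - s) = B (x - s) := by
    unfold sm
    rw [integral_dirac]
    simp
  rw [this, sub_sub_cancel]

lemma integrable_sm {μ : Measure ℝ} [IsProbabilityMeasure μ] {K : ℝ → ℝ} (hK : Continuous K)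
    (hb : ∃ C, ∀ x, |K x| ≤ C) (hi : Integrable K) : Integrable (sm μ K) := by
  refine ⟨(continuous_sm hK hb).aestronglyMeasurable, ?_⟩
  exact lt_of_le_of_lt (nrm_le hK) hi.2

lemma integral_sm {μ : Measure ℝ} [IsProbabilityMeasure μ] {K : ℝ → ℝ} (hK : Continuous K)
    (hi : Integrable K) : ∫ x, sm μ K x = ∫ x, K x := by
  unfold sm
  have hint : Integrable (Function.uncurry fun (x t : ℝ) => K (x - t)) (volume.prod μ) := by
    have hm : AEStronglyMeasurable (Function.uncurry fun (x t : ℝ) => K (x - t)) (volume.prod μ) :=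
      (by fun_prop : Continuous (Function.uncurry fun (x t : ℝ) => K (x - t))).aestronglyMeasurable
    rw [integrable_prod_iff' hm]
    refine ⟨ae_of_all _ fun t => hi.comp_sub_right t, ?_⟩
    have : (fun t : ℝ => ∫ x : ℝ, ‖Function.uncurry (fun (x t : ℝ) => K (x - t)) (x, t)‖) =
        fun _ => ∫ y, ‖K y‖ := by
      ext t
      simp only [Function.uncurry_apply_pair]
      exact integral_sub_right_eq_self (fun s => ‖K s‖) t
    rw [this]
    exact integrable_const _
  rw [integral_integral_swap hint]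
  have : ∀ t : ℝ, ∫ x, K (x - t) = ∫ x, K x := fun t => integral_sub_right_eq_self K t
  simp_rw [this]
  simp

section
variable {μ : Measure ℝ} [IsProbabilityMeasure μ] {R : ℝ}

lemma sm_G_le {v : ℝ} (hv : 0 < v) (x : ℝ) : sm μ (G v) x ≤ (√(2 * π * v))⁻¹ := by
  unfold sm
  calc ∫ t, G v (x - t) ∂μ ≤ ∫ _t, (√(2 * π * v))⁻¹ ∂μ := by
        apply integral_mono (integrable_kernel (continuous_G v) (bdd_G' hv) x) (integrable_const _)
        intro t
        exact (le_abs_self _).trans (bdd_G hv _)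
    _ = _ := by simp only [integral_const, probReal_univ, smul_eq_mul, one_mul]

lemma sm_G_ge (hR : ∀ᵐ t ∂μ, |t| ≤ R) {v : ℝ} (hv : 0 < v) (x : ℝ) :
    (√(2 * π * v))⁻¹ * exp (-(|x| + R) ^ 2 / (2 * v)) ≤ sm μ (G v) x := by
  unfold sm
  calc (√(2 * π * v))⁻¹ * exp (-(|x| + R) ^ 2 / (2 * v))
      = ∫ _t, (√(2 * π * v))⁻¹ * exp (-(|x| + R) ^ 2 / (2 * v)) ∂μ := by simp only [integral_const, probReal_univ, smul_eq_mul, one_mul]
    _ ≤ ∫ t, G v (x - t) ∂μ := by
        apply integral_mono_ae (integrable_const _)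
          (integrable_kernel (continuous_G v) (bdd_G' hv) x)
        filter_upwards [hR] with t ht
        unfold G
        have h1 : |x - t| ≤ |x| + R := (abs_sub _ _).trans (by linarith)
        have h2 : (x - t) ^ 2 ≤ (|x| + R) ^ 2 := by
          rw [← sq_abs (x - t)]
          exact pow_le_pow_left₀ (abs_nonneg _) h1 2
        gcongr

lemma sm_G_pos (hR : ∀ᵐ t ∂μ, |t| ≤ R) {v : ℝ} (hv : 0 < v) (x : ℝ) : 0 < sm μ (G v) x :=
  lt_of_lt_of_le (by positivity) (sm_G_ge hR hv x)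

lemma integral_sm_G {v : ℝ} (hv : 0 < v) : ∫ x, sm μ (G v) x = 1 := by
  rw [integral_sm (continuous_G v) (integrable_G hv), integral_G hv]

lemma integrable_sm_G {v : ℝ} (hv : 0 < v) : Integrable (sm μ (G v)) :=
  integrable_sm (continuous_G v) (bdd_G' hv) (integrable_G hv)

lemma R_nonneg (hR : ∀ᵐ t ∂μ, |t| ≤ R) : 0 ≤ R := by
  obtain ⟨t, ht⟩ := hR.exists
  exact (abs_nonneg t).trans ht

lemma abs_log_sm_le (hR : ∀ᵐ t ∂μ, |t| ≤ R) {v : ℝ} (hv : 0 < v) (x : ℝ) :
    |log (sm μ (G v) x)| ≤ (|log (√(2 * π * v))⁻¹| + R ^ 2 / v) + x ^ 2 / v := by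
  have h1 := sm_G_ge hR hv x
  have h2 := sm_G_le (μ := μ) hv x
  have h0 := sm_G_pos hR hv x
  have hR0 := R_nonneg hR
  have hc : 0 < (√(2 * π * v))⁻¹ := by positivity
  have h3 := log_le_log h0 h2
  have h4 := log_le_log (by positivity) h1
  rw [log_mul hc.ne' (exp_pos _).ne', log_exp] at h4
  have h5 : (|x| + R) ^ 2 ≤ 2 * (x ^ 2 + R ^ 2) := by
    have := sq_abs x
    linarith only [this, sq_nonneg (|x| - R)]
  have h6 : (|x| + R) ^ 2 / (2 * v) ≤ R ^ 2 / v + x ^ 2 / v := by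
    rw [div_le_iff₀ (by positivity)]
    have : (R ^ 2 / v + x ^ 2 / v) * (2 * v) = 2 * (x ^ 2 + R ^ 2) := by
      field_simp
      ring
    linarith only [h5, this]
  have h7 : 0 ≤ R ^ 2 / v + x ^ 2 / v := by (clear * - hv; positivity)
  have h8 := neg_abs_le (log (√(2 * π * v))⁻¹)
  have h9 := le_abs_self (log (√(2 * π * v))⁻¹)
  have h10 : -(|x| + R) ^ 2 / (2 * v) = -((|x| + R) ^ 2 / (2 * v)) := by ring
  rw [h10] at h4
  rw [abs_le]
  constructor <;> linarith only [h3, h4, h6, h9, h8]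

lemma sq_mul_sm_le (hR : ∀ᵐ t ∂μ, |t| ≤ R) {v : ℝ} (hv : 0 < v) (x : ℝ) :
    x ^ 2 * sm μ (G v) x ≤ sm μ (fun z => 2 * (z ^ 2 * G v z) + 2 * R ^ 2 * G v z) x := by
  unfold sm
  rw [← integral_const_mul]
  obtain ⟨C, hC⟩ := bdd_pow_mul_G hv 2
  obtain ⟨D, hD⟩ := bdd_G' hv
  apply integral_mono_ae
  · exact (integrable_kernel (continuous_G v) (bdd_G' hv) x).const_mul _
  · refine integrable_kernel (K := fun z => 2 * (z ^ 2 * G v z) + 2 * R ^ 2 * G v z) ?_ ?_ x
    · have := continuous_G v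
      (clear * - this; fun_prop)
    · refine ⟨|2| * C + |2 * R ^ 2| * D, fun z => ?_⟩
      exact (abs_add_le _ _).trans (add_le_add (abs_cmul_le (hC z)) (abs_cmul_le (hD z)))
  · filter_upwards [hR] with t ht
    have hG := G_nonneg v (x - t)
    have ht2 : t ^ 2 ≤ R ^ 2 := by
      rw [← sq_abs t]; exact pow_le_pow_left₀ (abs_nonneg _) ht 2
    have : x ^ 2 ≤ 2 * (x - t) ^ 2 + 2 * R ^ 2 := by linarith only [ht2, sq_nonneg (x - 2 * t)]
    calc x ^ 2 * G v (x - t) ≤ (2 * (x - t) ^ 2 + 2 * R ^ 2) * G v (x - t) := by gcongr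
      _ = _ := by ring

lemma sqK_cont {v : ℝ} : Continuous (fun z => 2 * (z ^ 2 * G v z) + 2 * R ^ 2 * G v z) := by
  have := continuous_G v
  (clear * - this; fun_prop)

lemma sqK_bdd {v : ℝ} (hv : 0 < v) :
    ∃ C, ∀ z, |2 * (z ^ 2 * G v z) + 2 * R ^ 2 * G v z| ≤ C := by
  obtain ⟨C, hC⟩ := bdd_pow_mul_G hv 2
  obtain ⟨D, hD⟩ := bdd_G' hv
  refine ⟨|2| * C + |2 * R ^ 2| * D, fun z => ?_⟩
  exact (abs_add_le _ _).trans (add_le_add (abs_cmul_le (hC z)) (abs_cmul_le (hD z)))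

lemma sqK_int {v : ℝ} (hv : 0 < v) :
    Integrable (fun z => 2 * (z ^ 2 * G v z) + 2 * R ^ 2 * G v z) :=
  ((integrable_pow_mul_G hv 2).const_mul 2).add ((integrable_G hv).const_mul _)

lemma integrable_sq_mul_sm (hR : ∀ᵐ t ∂μ, |t| ≤ R) {v : ℝ} (hv : 0 < v) :
    Integrable (fun x => x ^ 2 * sm μ (G v) x) := by
  refine (integrable_sm (μ := μ) sqK_cont (sqK_bdd (R := R) hv) (sqK_int hv)).mono' ?_ ?_
  · have := continuous_sm (μ := μ) (continuous_G v) (bdd_G' hv)
    exact (by fun_prop : Continuous fun x => x ^ 2 * sm μ (G v) x).aestronglyMeasurable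
  · refine ae_of_all _ fun x => ?_
    rw [Real.norm_of_nonneg (by have := sm_G_pos hR hv x; (clear * - this; positivity))]
    exact sq_mul_sm_le hR hv x

lemma integral_sq_mul_sm_le (hR : ∀ᵐ t ∂μ, |t| ≤ R) {v : ℝ} (hv : 0 < v) :
    ∫ x, x ^ 2 * sm μ (G v) x ≤ 2 * v + 2 * R ^ 2 := by
  calc ∫ x, x ^ 2 * sm μ (G v) x
      ≤ ∫ x, sm μ (fun z => 2 * (z ^ 2 * G v z) + 2 * R ^ 2 * G v z) x :=
        integral_mono (integrable_sq_mul_sm hR hv)
          (integrable_sm (μ := μ) sqK_cont (sqK_bdd (R := R) hv) (sqK_int hv))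
          (fun x => sq_mul_sm_le hR hv x)
    _ = 2 * v + 2 * R ^ 2 := by
        rw [integral_sm sqK_cont (sqK_int hv), integral_add ((integrable_pow_mul_G hv 2).const_mul 2)
          ((integrable_G hv).const_mul _), integral_const_mul, integral_const_mul,
          integral_sq_mul_G hv, integral_G hv]
        ring

lemma integrable_mul_log (hR : ∀ᵐ t ∂μ, |t| ≤ R) {v : ℝ} (hv : 0 < v) :
    Integrable (fun x => sm μ (G v) x * log (sm μ (G v) x)) := by
  have hc := continuous_sm (μ := μ) (continuous_G v) (bdd_G' hv)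
  refine ((((integrable_sm_G (μ := μ) hv).const_mul (|log (√(2 * π * v))⁻¹| + R ^ 2 / v))).add
    ((integrable_sq_mul_sm hR hv).const_mul (1 / v))).mono' ?_ ?_
  · have h2 : ∀ x, sm μ (G v) x ≠ 0 := fun x => (sm_G_pos hR hv x).ne'
    exact (by fun_prop (disch := assumption) :
      Continuous fun x => sm μ (G v) x * log (sm μ (G v) x)).aestronglyMeasurable
  · refine ae_of_all _ fun x => ?_
    have h0 := sm_G_pos hR hv x
    rw [norm_mul, Real.norm_of_nonneg h0.le, Real.norm_eq_abs]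
    have := mul_le_mul_of_nonneg_left (abs_log_sm_le hR hv x) h0.le
    simp only [Pi.add_apply]
    calc _ ≤ _ := this
      _ = _ := by ring

lemma ent_eq {v : ℝ} : ent μ v = - ∫ x, sm μ (G v) x * log (sm μ (G v) x) := by
  unfold ent
  rw [← integral_neg]
  congr 1
  ext x
  unfold negMulLog
  ring

end

end Vale.Agent.P105
end
end

section

section

open MeasureTheory Real Filter Topology
open scoped ENNReal

namespace Vale.Agent.P105

lemma conv_integrand {a b : ℝ → ℝ} (ha : Integrable a) (hb : Integrable b) :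
    Integrable (fun p : ℝ × ℝ => a p.2 * b (p.1 - p.2)) (volume.prod volume) := by
  have := ha.convolution_integrand (ContinuousLinearMap.mul ℝ ℝ) hb
  simpa only [ContinuousLinearMap.mul_apply'] using this

lemma integral_conv_integrand {a b : ℝ → ℝ} (ha : Integrable a) (hb : Integrable b) :
    ∫ p : ℝ × ℝ, a p.2 * b (p.1 - p.2) ∂(volume.prod volume) = (∫ z, a z) * ∫ x, b x := by
  rw [integral_prod_symm _ (conv_integrand ha hb)]
  simp only [integral_const_mul]
  have : ∀ z : ℝ, ∫ x, b (x - z) = ∫ x, b x := fun z => integral_sub_right_eq_self b z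
  simp_rw [this]
  rw [integral_mul_const]

section
variable {μ : Measure ℝ} [IsProbabilityMeasure μ] {R : ℝ}

lemma cross_int (hR : ∀ᵐ t ∂μ, |t| ≤ R) {v w : ℝ} (hv : 0 < v) (hw : 0 < w) :
    Integrable (fun p : ℝ × ℝ => (G w p.2 * sm μ (G v) (p.1 - p.2)) * log (sm μ (G (v + w)) p.1))
      (volume.prod volume) := by
  have hvw : 0 < v + w := by positivity
  have hcf := continuous_sm (μ := μ) (continuous_G v) (bdd_G' hv)
  have hcg := continuous_sm (μ := μ) (continuous_G (v + w)) (bdd_G' hvw)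
  have hcG := continuous_G w
  have hg0 : ∀ p : ℝ × ℝ, sm μ (G (v + w)) p.1 ≠ 0 := fun p => (sm_G_pos hR hvw p.1).ne'
  set A := |log (√(2 * π * (v + w)))⁻¹| + R ^ 2 / (v + w) with hA
  have i1 := conv_integrand (integrable_G hw) (integrable_sm_G (μ := μ) hv)
  have i2 := conv_integrand (integrable_G hw) (integrable_sq_mul_sm hR hv)
  have i3 := conv_integrand (integrable_pow_mul_G hw 2) (integrable_sm_G (μ := μ) hv)
  refine (((i1.const_mul A).add (i2.const_mul (2 / (v + w)))).add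
    (i3.const_mul (2 / (v + w)))).mono' ?_ ?_
  · exact (by (clear * - hcG hcf hcg hg0; fun_prop (disch := assumption)) : Continuous (fun p : ℝ × ℝ =>
      (G w p.2 * sm μ (G v) (p.1 - p.2)) * log (sm μ (G (v + w)) p.1))).aestronglyMeasurable
  · refine ae_of_all _ fun p => ?_
    have hG := G_nonneg w p.2
    have hf := (sm_G_pos hR hv (p.1 - p.2)).le
    have hGf : 0 ≤ G w p.2 * sm μ (G v) (p.1 - p.2) := mul_nonneg hG hf
    rw [norm_mul, Real.norm_of_nonneg hGf, Real.norm_eq_abs]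
    have h1 := abs_log_sm_le hR hvw p.1
    have h2 : p.1 ^ 2 / (v + w) ≤ 2 / (v + w) * (p.1 - p.2) ^ 2 + 2 / (v + w) * p.2 ^ 2 := by
      rw [div_le_iff₀ hvw]
      have : (2 / (v + w) * (p.1 - p.2) ^ 2 + 2 / (v + w) * p.2 ^ 2) * (v + w) =
        2 * (p.1 - p.2) ^ 2 + 2 * p.2 ^ 2 := by (clear * - hv hw; field_simp)
      rw [this]
      linarith only [sq_nonneg (p.1 - 2 * p.2)]
    have h3 : |log (sm μ (G (v + w)) p.1)| ≤
        A + (2 / (v + w) * (p.1 - p.2) ^ 2 + 2 / (v + w) * p.2 ^ 2) := by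
      rw [hA]; linarith only [h1, h2]
    have h4 := mul_le_mul_of_nonneg_left h3 hGf
    simp only [Pi.add_apply]
    calc _ ≤ _ := h4
      _ = _ := by ring

lemma cross_val (hR : ∀ᵐ t ∂μ, |t| ≤ R) {v w : ℝ} (hv : 0 < v) (hw : 0 < w) :
    ∫ p : ℝ × ℝ, (G w p.2 * sm μ (G v) (p.1 - p.2)) * log (sm μ (G (v + w)) p.1)
      ∂(volume.prod volume) = - ent μ (v + w) := by
  have hvw : 0 < v + w := by (clear * - hv hw; positivity)
  rw [integral_prod _ (cross_int hR hv hw), ent_eq, neg_neg]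
  congr 1
  ext x
  simp only
  rw [integral_mul_const]
  congr 1
  rw [sm_semigroup (continuous_G v) (continuous_G w) (continuous_G (v + w)) (integrable_G hv)
    (bdd_G' hw) (convE_G hv hw)]
  congr 1
  ext z
  ring

/-- dominating function -/
noncomputable def domF (μ : Measure ℝ) (v w s : ℝ) (p : ℝ × ℝ) : ℝ :=
  s / 3 * ((p.2 ^ 2 * G w p.2) * sm μ (G v) (p.1 - p.2)) +
  2 * s / 3 * (sm μ (G (v + w)) p.1 * (p.2 ^ 2 * G w p.2)) +
  1 / (2 * s) * (G w p.2 * (sm μ (G v) (p.1 - p.2) * log (sm μ (G v) (p.1 - p.2)))) -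
  1 / (2 * s) * ((G w p.2 * sm μ (G v) (p.1 - p.2)) * log (sm μ (G (v + w)) p.1)) -
  1 / (2 * s) * (G w p.2 * sm μ (G v) (p.1 - p.2)) +
  1 / (2 * s) * (sm μ (G (v + w)) p.1 * G w p.2)

lemma domF_int (hR : ∀ᵐ t ∂μ, |t| ≤ R) {v w s : ℝ} (hv : 0 < v) (hw : 0 < w) (hs : 0 < s) :
    Integrable (domF μ v w s) (volume.prod volume) ∧
    ∫ p, domF μ v w s p ∂(volume.prod volume) =
      s * w + (ent μ (v + w) - ent μ v) / (2 * s) := by
  have hvw : 0 < v + w := by positivity
  have i1 := conv_integrand (integrable_pow_mul_G hw 2) (integrable_sm_G (μ := μ) hv)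
  have v1 := integral_conv_integrand (integrable_pow_mul_G hw 2) (integrable_sm_G (μ := μ) hv)
  have i2 := (integrable_sm_G (μ := μ) hvw).mul_prod (integrable_pow_mul_G hw 2)
  have v2 := integral_prod_mul (μ := volume) (ν := volume) (sm μ (G (v + w)))
    (fun z => z ^ 2 * G w z)
  have i3 := conv_integrand (integrable_G hw) (integrable_mul_log hR hv)
  have v3 := integral_conv_integrand (integrable_G hw) (integrable_mul_log hR hv)
  have i4 := cross_int hR hv hw
  have v4 := cross_val hR hv hw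
  have i5 := conv_integrand (integrable_G hw) (integrable_sm_G (μ := μ) hv)
  have v5 := integral_conv_integrand (integrable_G hw) (integrable_sm_G (μ := μ) hv)
  have i6 := (integrable_sm_G (μ := μ) hvw).mul_prod (integrable_G hw)
  have v6 := integral_prod_mul (μ := volume) (ν := volume) (sm μ (G (v + w))) (G w)
  rw [integral_sq_mul_G hw, integral_sm_G hv] at v1
  rw [integral_sq_mul_G hw, integral_sm_G hvw] at v2
  rw [integral_G hw] at v3
  rw [integral_G hw, integral_sm_G hv] at v5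
  rw [integral_G hw, integral_sm_G hvw] at v6
  have e3 : ∫ x, sm μ (G v) x * log (sm μ (G v) x) = - ent μ v := by rw [ent_eq, neg_neg]
  rw [e3] at v3
  have j1 := i1.const_mul (s / 3)
  have j2 := i2.const_mul (2 * s / 3)
  have j3 := i3.const_mul (1 / (2 * s))
  have j4 := i4.const_mul (1 / (2 * s))
  have j5 := i5.const_mul (1 / (2 * s))
  have j6 := i6.const_mul (1 / (2 * s))
  constructor
  · exact ((((j1.add j2).add j3).sub j4).sub j5).add j6
  · have e : domF μ v w s = ((((((fun p : ℝ × ℝ => s / 3 * ((p.2 ^ 2 * G w p.2) *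
        sm μ (G v) (p.1 - p.2))) +
        (fun p : ℝ × ℝ => 2 * s / 3 * (sm μ (G (v + w)) p.1 * (p.2 ^ 2 * G w p.2)))) +
        (fun p : ℝ × ℝ => 1 / (2 * s) * (G w p.2 * (sm μ (G v) (p.1 - p.2) *
          log (sm μ (G v) (p.1 - p.2)))))) -
        (fun p : ℝ × ℝ => 1 / (2 * s) * ((G w p.2 * sm μ (G v) (p.1 - p.2)) *
          log (sm μ (G (v + w)) p.1)))) -
        (fun p : ℝ × ℝ => 1 / (2 * s) * (G w p.2 * sm μ (G v) (p.1 - p.2)))) +
        (fun p : ℝ × ℝ => 1 / (2 * s) * (sm μ (G (v + w)) p.1 * G w p.2))) := rfl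
    rw [e, integral_add' ((((j1.add j2).add j3).sub j4).sub j5) j6,
      integral_sub' (((j1.add j2).add j3).sub j4) j5, integral_sub' ((j1.add j2).add j3) j4,
      integral_add' (j1.add j2) j3, integral_add' j1 j2]
    simp only [integral_const_mul]
    rw [v1, v2, v3, v4, v5, v6]
    field_simp
    ring

lemma domF_ge (hR : ∀ᵐ t ∂μ, |t| ≤ R) {v w s : ℝ} (hv : 0 < v) (hw : 0 < w) (hs : 0 < s)
    (x z : ℝ) : |z| * |sm μ (G v) (x - z) - sm μ (G (v + w)) x| * G w z ≤ domF μ v w s (x, z) := by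
  have hvw : 0 < v + w := by positivity
  have hf := sm_G_pos hR hv (x - z)
  have hg := sm_G_pos hR hvw x
  have h := pinsker_amgm (z := z) hf hg hs
  have h2 := mul_le_mul_of_nonneg_right h (G_nonneg w z)
  refine h2.trans (le_of_eq ?_)
  unfold domF
  ring

lemma sm_G1_formula (hR : ∀ᵐ t ∂μ, |t| ≤ R) {v w : ℝ} (hv : 0 < v) (hw : 0 < w) (x : ℝ) :
    sm μ (G1 (v + w)) x =
      ∫ z, (-(1 / w)) * (z * (sm μ (G v) (x - z) - sm μ (G (v + w)) x) * G w z) := by
  rw [sm_semigroup (continuous_G v) (continuous_G1 w) (continuous_G1 (v + w)) (integrable_G hv)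
    (bdd_G1 hw) (convE_G_G1 hv hw)]
  have hcf := continuous_sm (μ := μ) (continuous_G v) (bdd_G' hv)
  have hz : ∫ z, (1 / w) * sm μ (G (v + w)) x * (z * G w z) = 0 := by
    rw [integral_const_mul, integral_id_mul_G, mul_zero]
  have i1 : Integrable (fun z => sm μ (G v) (x - z) * G1 w z) := by
    refine ((integrable_G1 hw).norm.const_mul (√(2 * π * v))⁻¹).mono' ?_ ?_
    · have := continuous_G1 w
      exact (by (clear * - hcf this; fun_prop) : Continuous fun z => sm μ (G v) (x - z) * G1 w z).aestronglyMeasurable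
    · refine ae_of_all _ fun z => ?_
      rw [norm_mul, Real.norm_of_nonneg (sm_G_pos hR hv (x - z)).le]
      exact mul_le_mul_of_nonneg_right (sm_G_le hv _) (norm_nonneg _)
  have i2 : Integrable (fun z => (1 / w) * sm μ (G (v + w)) x * (z * G w z)) := by
    have := (integrable_pow_mul_G hw 1).const_mul ((1 / w) * sm μ (G (v + w)) x)
    simpa only [one_div, pow_one] using this
  have : ∫ z, sm μ (G v) (x - z) * G1 w z =
      ∫ z, sm μ (G v) (x - z) * G1 w z + (1 / w) * sm μ (G (v + w)) x * (z * G w z) := by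
    rw [integral_add i1 i2, hz, add_zero]
  rw [this]
  congr 1
  ext z
  unfold G1
  ring

lemma nrm_G1_le_aux (hR : ∀ᵐ t ∂μ, |t| ≤ R) {v w s : ℝ} (hv : 0 < v) (hw : 0 < w) (hs : 0 < s) :
    nrm μ (G1 (v + w)) ≤ ENNReal.ofReal (s + (ent μ (v + w) - ent μ v) / (2 * s * w)) := by
  obtain ⟨hi, hval⟩ := domF_int hR hv hw hs
  have hnn : ∀ p : ℝ × ℝ, 0 ≤ domF μ v w s p := fun p =>
    le_trans (by have := G_nonneg w p.2; (clear * - this; (clear * - this; positivity))) (domF_ge hR hv hw hs p.1 p.2)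
  have hi2 : Integrable (fun p => (1 / w) * domF μ v w s p) (volume.prod volume) := hi.const_mul _
  have hval2 : s + (ent μ (v + w) - ent μ v) / (2 * s * w) =
      ∫ p, (1 / w) * domF μ v w s p ∂(volume.prod volume) := by
    rw [integral_const_mul, hval]
    field_simp
  rw [hval2, ofReal_integral_eq_lintegral_ofReal hi2
    (ae_of_all _ fun p => by have := hnn p; (clear * - hw this; (clear * - hw this; positivity)))]
  rw [lintegral_prod _ hi2.aestronglyMeasurable.aemeasurable.ennreal_ofReal]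
  unfold nrm
  refine lintegral_mono fun x => ?_
  rw [sm_G1_formula hR hv hw]
  refine (enorm_integral_le_lintegral_enorm _).trans (lintegral_mono fun z => ?_)
  rw [Real.enorm_eq_ofReal_abs]
  apply ENNReal.ofReal_le_ofReal
  have h := domF_ge hR hv hw hs x z
  rw [abs_mul, abs_mul, abs_mul, abs_neg, abs_of_pos (by positivity : 0 < 1 / w),
    abs_of_nonneg (G_nonneg w z)]
  gcongr

lemma quad_opt {a c : ℝ} (ha : 0 ≤ a) (h : ∀ s : ℝ, 0 < s → a ≤ s + c / s) : 0 ≤ c ∧ a ^ 2 ≤ 4 * c := by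
  have hc : 0 ≤ c := by
    by_contra hneg
    push Not at hneg
    have hs : 0 < √(-c / 2) := by apply Real.sqrt_pos.mpr; linarith
    have := h _ hs
    have h2 : √(-c / 2) ^ 2 = -c / 2 := Real.sq_sqrt (by linarith only [hneg])
    have h3 : 0 ≤ √(-c / 2) * √(-c / 2) + c := by
      have h4 := mul_le_mul_of_nonneg_right (ha.trans this) hs.le
      rw [zero_mul, add_mul, div_mul_cancel₀ _ hs.ne'] at h4
      exact h4
    linarith only [hneg, h2, h3]
  refine ⟨hc, ?_⟩
  rcases hc.eq_or_lt with h0 | h0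
  · subst h0
    have : a ≤ 0 := by
      apply le_of_forall_pos_le_add
      intro e he
      have := h e he
      simpa only [zero_add, ge_iff_le, zero_div, add_zero] using this
    have : a = 0 := le_antisymm this ha
    simp [this]
  · have hs : 0 < √c := Real.sqrt_pos.mpr h0
    have h1 := h _ hs
    have h2 : c / √c = √c := Real.div_sqrt
    rw [h2] at h1
    have h3 : √c ^ 2 = c := Real.sq_sqrt hc
    linarith only [h3, mul_nonneg_of_nonpos_of_nonpos (Mathlib.Tactic.Linarith.sub_nonpos_of_le h1) (Mathlib.Tactic.Linarith.sub_nonpos_of_le h1), mul_nonneg_of_nonpos_of_nonpos (Mathlib.Tactic.Linarith.sub_nonpos_of_le ha) (Mathlib.Tactic.Linarith.sub_nonpos_of_le h1)]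

/-- The entropy step: control of the smoothed derivative by an entropy increment. -/
lemma ent_step (hR : ∀ᵐ t ∂μ, |t| ≤ R) {v w : ℝ} (hv : 0 < v) (hw : 0 < w) :
    ent μ v ≤ ent μ (v + w) ∧
    (nrm μ (G1 (v + w))).toReal ^ 2 ≤ 2 / w * (ent μ (v + w) - ent μ v) := by
  have key := quad_opt (a := (nrm μ (G1 (v + w))).toReal) (c := (ent μ (v + w) - ent μ v) / (2 * w))
    ENNReal.toReal_nonneg (fun s hs => by
      have h := nrm_G1_le_aux hR hv hw hs
      have hnn : 0 ≤ s + (ent μ (v + w) - ent μ v) / (2 * s * w) := by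
        obtain ⟨hi, hval⟩ := domF_int hR hv hw hs
        have hnn : ∀ p : ℝ × ℝ, 0 ≤ domF μ v w s p := fun p =>
          le_trans (by have := G_nonneg w p.2; (clear * - this; (clear * - this; positivity))) (domF_ge hR hv hw hs p.1 p.2)
        have h1 : 0 ≤ s * w + (ent μ (v + w) - ent μ v) / (2 * s) := by
          rw [← hval]; exact integral_nonneg hnn
        have h2 : s + (ent μ (v + w) - ent μ v) / (2 * s * w) =
          (s * w + (ent μ (v + w) - ent μ v) / (2 * s)) / w := by (clear * - hw hs; field_simp)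
        rw [h2]; (clear * - h1 hw; (clear * - h1 hw; positivity))
      have h3 := ENNReal.toReal_mono ENNReal.ofReal_ne_top h
      rw [ENNReal.toReal_ofReal hnn] at h3
      refine h3.trans (le_of_eq ?_)
      (clear * - hw hs; field_simp))
  refine ⟨?_, ?_⟩
  · have := key.1
    rw [div_nonneg_iff] at this
    rcases this with h | h
    · linarith only [h.1]
    · linarith only [hw, h.2]
  · refine key.2.trans (le_of_eq ?_)
    field_simp
    ring

end

end Vale.Agent.P105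
end
end

section

section

open MeasureTheory Real Filter Topology
open scoped ENNReal

namespace Vale.Agent.P105

lemma Gd_scale {v c : ℝ} (hv : 0 < v) (hc : 0 < c) (n : ℕ) (x : ℝ) :
    Gd n v (c * x) = (c ^ (n + 1))⁻¹ * Gd n (v / c ^ 2) x := by
  induction n using Nat.twoStepInduction with
  | zero => rw [Gd_zero, Gd_zero, G_scale hv hc]; simp only [zero_add, pow_one]
  | one => rw [Gd_one, Gd_one, G1_scale hv hc]
  | more n ih1 ih2 =>
    rw [Gd_succ_succ, Gd_succ_succ, ih1, ih2]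
    field_simp
    ring

lemma nrm_map_Gd {μ : Measure ℝ} [IsProbabilityMeasure μ] {v c : ℝ} (hv : 0 < v) (hc : 0 < c)
    (n : ℕ) : nrm (μ.map (c * ·)) (Gd n v) = ENNReal.ofReal (c ^ n)⁻¹ * nrm μ (Gd n (v / c ^ 2)) := by
  have : IsProbabilityMeasure (μ.map (c * ·)) := Measure.isProbabilityMeasure_map (by fun_prop)
  have hcont : Continuous (sm (μ.map (c * ·)) (Gd n v)) :=
    continuous_sm (continuous_Gd n v) (bdd_Gd hv n)
  unfold nrm
  rw [lintegral_comp_mul _ (by fun_prop : Continuous fun x =>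
    ‖sm (μ.map (c * ·)) (Gd n v) x‖ₑ).measurable hc]
  have h : ∀ x, sm (μ.map (c * ·)) (Gd n v) (c * x) = (c ^ (n + 1))⁻¹ * sm μ (Gd n (v / c ^ 2)) x := by
    intro x
    rw [sm_map (continuous_Gd n v)]
    unfold sm
    rw [← integral_const_mul]
    congr 1
    ext t
    rw [← mul_sub, Gd_scale hv hc]
  simp_rw [h, enorm_mul]
  have hc2 : Continuous (sm μ (Gd n (v / c ^ 2))) :=
    continuous_sm (continuous_Gd n _) (bdd_Gd (by positivity) n)
  rw [lintegral_const_mul _ (by fun_prop : Continuous fun x => ‖sm μ (Gd n (v / c ^ 2)) x‖ₑ).measurable,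
    ← mul_assoc, Real.enorm_eq_ofReal (by positivity), ← ENNReal.ofReal_mul hc.le]
  congr 2
  field_simp
  ring

/-- real valued L1 norm -/
noncomputable def rn (μ : Measure ℝ) (K : ℝ → ℝ) : ℝ := (nrm μ K).toReal

lemma rn_nonneg (μ : Measure ℝ) (K : ℝ → ℝ) : 0 ≤ rn μ K := ENNReal.toReal_nonneg

lemma nrm_Gd_ne_top {μ : Measure ℝ} [IsProbabilityMeasure μ] {v : ℝ} (hv : 0 < v) (n : ℕ) :
    nrm μ (Gd n v) ≠ ∞ :=
  ((nrm_le (continuous_Gd n v)).trans (lintegral_Gd_le hv n)).trans_lt ENNReal.ofReal_lt_top |>.ne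

lemma nrm_eq_ofReal_rn {μ : Measure ℝ} [IsProbabilityMeasure μ] {v : ℝ} (hv : 0 < v) (n : ℕ) :
    nrm μ (Gd n v) = ENNReal.ofReal (rn μ (Gd n v)) := by
  unfold rn
  rw [ENNReal.ofReal_toReal (nrm_Gd_ne_top hv n)]

lemma rn_le {μ : Measure ℝ} [IsProbabilityMeasure μ] {v : ℝ} (hv : 0 < v) (n : ℕ) :
    rn μ (Gd n v) ≤ √(n.factorial / v ^ n) := by
  have h := (nrm_le (μ := μ) (continuous_Gd n v)).trans (lintegral_Gd_le hv n)
  have := ENNReal.toReal_mono ENNReal.ofReal_ne_top h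
  rwa [ENNReal.toReal_ofReal (Real.sqrt_nonneg _)] at this

lemma rn_map_Gd {μ : Measure ℝ} [IsProbabilityMeasure μ] {v c : ℝ} (hv : 0 < v) (hc : 0 < c)
    (n : ℕ) : rn (μ.map (c * ·)) (Gd n v) = (c ^ n)⁻¹ * rn μ (Gd n (v / c ^ 2)) := by
  unfold rn
  rw [nrm_map_Gd hv hc, ENNReal.toReal_mul, ENNReal.toReal_ofReal (by positivity)]

section
variable {lam : ℝ} {ν : Measure ℝ} [IsProbabilityMeasure ν] {μ : ℕ → Measure ℝ}
  [∀ n, IsProbabilityMeasure (μ n)]

lemma map_conv_mul (α β : Measure ℝ) [IsProbabilityMeasure α] [IsProbabilityMeasure β] (c : ℝ) :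
    (α ∗ β).map (c * ·) = (α.map (c * ·)) ∗ (β.map (c * ·)) := by
  have h := Measure.map_conv_continuousLinearMap (μ := α) (ν := β) (c • ContinuousLinearMap.id ℝ ℝ)
  have e : (⇑(c • ContinuousLinearMap.id ℝ ℝ) : ℝ → ℝ) = (c * ·) := by ext; simp only [smul_apply, ContinuousLinearMap.id_apply, smul_eq_mul]
  rw [e] at h
  exact h

lemma map_map_mul (α : Measure ℝ) (c d : ℝ) : (α.map (c * ·)).map (d * ·) = α.map ((d * c) * ·) := by
  rw [Measure.map_map (by fun_prop) (by fun_prop)]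
  congr 1
  ext x
  simp [mul_assoc]

/-- peeling off one block -/
lemma peel (hself : ∀ n, ν = μ n ∗ ν.map (lam ^ n * ·)) (a m : ℕ) {n : ℕ}
    {u w : ℝ} (hu : 0 < u) (hw : 0 < w) :
    rn ν (Gd (n + 1) (u + w)) ≤ rn ((μ m).map (lam ^ a * ·)) (Gd 1 u) *
      rn (ν.map (lam ^ (a + m) * ·)) (Gd n w) := by
  have hp1 : IsProbabilityMeasure (ν.map (lam ^ a * ·)) :=
    Measure.isProbabilityMeasure_map (by fun_prop)
  have hp2 : IsProbabilityMeasure ((μ m).map (lam ^ a * ·)) :=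
    Measure.isProbabilityMeasure_map (by fun_prop)
  have hp3 : IsProbabilityMeasure (ν.map (lam ^ (a + m) * ·)) :=
    Measure.isProbabilityMeasure_map (by fun_prop)
  have hp4 : IsProbabilityMeasure (ν.map (lam ^ m * ·)) :=
    Measure.isProbabilityMeasure_map (by fun_prop)
  have huw : 0 < u + w := add_pos hu hw
  have e1 : ν.map (lam ^ a * ·) = (μ m).map (lam ^ a * ·) ∗ ν.map (lam ^ (a + m) * ·) := by
    conv_lhs => rw [hself m]
    rw [map_conv_mul, map_map_mul, ← pow_add]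
  have h1 : nrm ν (Gd (n + 1) (u + w)) ≤ nrm ((μ m).map (lam ^ a * ·)) (Gd 1 u) *
      nrm (ν.map (lam ^ (a + m) * ·)) (Gd n w) := by
    calc nrm ν (Gd (n + 1) (u + w)) = nrm (μ a ∗ ν.map (lam ^ a * ·)) (Gd (n + 1) (u + w)) := by
          rw [← hself a]
      _ ≤ nrm (ν.map (lam ^ a * ·)) (Gd (n + 1) (u + w)) :=
          nrm_conv_le_right (continuous_Gd _ _) (bdd_Gd huw _)
      _ = nrm ((μ m).map (lam ^ a * ·) ∗ ν.map (lam ^ (a + m) * ·)) (Gd (n + 1) (u + w)) := by
          rw [e1]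
      _ ≤ nrm ((μ m).map (lam ^ a * ·)) (G1 u) * nrm (ν.map (lam ^ (a + m) * ·)) (Gd n w) :=
          nrm_conv_le (continuous_G1 u) (continuous_Gd n w) (continuous_Gd (n + 1) (u + w))
            (integrable_G1 hu) (bdd_G1 hu) (bdd_Gd hw n) (convE_G1_Gd hu hw n)
      _ = _ := by rw [Gd_one]
  unfold rn
  rw [← ENNReal.toReal_mul]
  exact ENNReal.toReal_mono (ENNReal.mul_ne_top (nrm_Gd_ne_top hu 1) (nrm_Gd_ne_top hw n)) h1

/-- normalised n-th detail at logarithmic scale T -/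
noncomputable def Tau (ν : Measure ℝ) (n : ℕ) (T : ℝ) : ℝ :=
  exp (n * (1 / 2 - T)) * rn ν (Gd n (n * exp (-2 * T)))

/-- normalised block detail -/
noncomputable def Jr (μ : ℕ → Measure ℝ) (m : ℕ) (T : ℝ) : ℝ :=
  exp (1 / 2 - T) * rn (μ m) (Gd 1 (exp (-2 * T)))

lemma exp_div_pow (ℓ T : ℝ) (a : ℕ) : exp (-2 * T) / (exp (-ℓ) ^ a) ^ 2 = exp (-2 * (T - a * ℓ)) := by
  rw [← exp_nat_mul, ← exp_nat_mul, ← exp_sub]
  congr 1
  push_cast
  ring

lemma tau_step {ℓ : ℝ} (hself : ∀ n, ν = μ n ∗ ν.map (exp (-ℓ) ^ n * ·)) (a m : ℕ) {n : ℕ}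
    (hn : 1 ≤ n) (T : ℝ) :
    Tau ν (n + 1) T ≤ Jr μ m (T - a * ℓ) * Tau ν n (T - (a + m) * ℓ) := by
  have hE : 0 < exp (-2 * T) := exp_pos _
  have hn0 : (0 : ℝ) < n := by exact_mod_cast hn
  have h := peel hself a m (n := n) hE (mul_pos hn0 hE)
  rw [rn_map_Gd hE (by positivity), rn_map_Gd (mul_pos hn0 hE) (by positivity), mul_div_assoc,
    exp_div_pow, exp_div_pow] at h
  unfold Tau Jr
  have e0 : ((n + 1 : ℕ) : ℝ) * exp (-2 * T) = exp (-2 * T) + n * exp (-2 * T) := by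
    push_cast; ring
  rw [e0]
  have e1 : exp (((n + 1 : ℕ) : ℝ) * (1 / 2 - T)) * ((exp (-ℓ) ^ a) ^ 1)⁻¹ *
      ((exp (-ℓ) ^ (a + m)) ^ n)⁻¹ =
      exp (1 / 2 - (T - a * ℓ)) * exp (n * (1 / 2 - (T - (a + m) * ℓ))) := by
    rw [← exp_nat_mul, ← exp_nat_mul, ← exp_nat_mul, ← exp_nat_mul, ← exp_neg, ← exp_neg, ← exp_add,
      ← exp_add, ← exp_add]
    congr 1
    push_cast
    ring
  have hX : (0 : ℝ) ≤ exp (((n + 1 : ℕ) : ℝ) * (1 / 2 - T)) := (exp_pos _).le
  have h2 := mul_le_mul_of_nonneg_left h hX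
  refine h2.trans (le_of_eq ?_)
  have e2 : ((a + m : ℕ) : ℝ) = a + m := by push_cast; ring
  rw [e2]
  calc _ = (exp (((n + 1 : ℕ) : ℝ) * (1 / 2 - T)) * ((exp (-ℓ) ^ a) ^ 1)⁻¹ *
      ((exp (-ℓ) ^ (a + m)) ^ n)⁻¹) * (rn (μ m) (Gd 1 (exp (-2 * (T - a * ℓ)))) *
        rn ν (Gd n (n * exp (-2 * (T - (a + m) * ℓ))))) := by ring
    _ = _ := by rw [e1]; ring

lemma factorial_le (n : ℕ) (hn : 1 ≤ n) : (n.factorial : ℝ) ≤ exp 1 * n * (n / exp 1) ^ n := by
  induction n, hn using Nat.le_induction with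
  | base => simp only [Nat.factorial_one, Nat.cast_one, mul_one, one_div, pow_one, ne_eq, exp_ne_zero, not_false_eq_true, mul_inv_cancel₀, Std.le_refl]
  | succ n hn ih =>
    have hn0 : (0 : ℝ) < n := by exact_mod_cast hn
    rw [Nat.factorial_succ]
    push_cast
    have key : (n : ℝ) * (n / exp 1) ^ n ≤ ((n + 1) / exp 1) ^ (n + 1) := by
      have h1 : exp 1 ≤ ((n + 1 : ℝ) / n) ^ (n + 1) := by
        have h2 : 1 - (1 + 1 / (n : ℝ))⁻¹ ≤ log (1 + 1 / (n : ℝ)) :=
          one_sub_inv_le_log_of_pos (by (clear * - hn; positivity))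
        have h3 : 1 - (1 + 1 / (n : ℝ))⁻¹ = 1 / (n + 1) := by field_simp; ring
        have h4 : (n + 1 : ℝ) / n = 1 + 1 / n := by field_simp
        rw [h4, ← exp_log (by (clear * - hn; positivity) : (0 : ℝ) < 1 + 1 / n), ← exp_nat_mul]
        apply exp_le_exp.mpr
        rw [h3] at h2
        push_cast
        calc (1 : ℝ) = (n + 1) * (1 / (n + 1)) := by field_simp
          _ ≤ (n + 1) * log (1 + 1 / n) := by gcongr
      have h5 : ((n + 1 : ℝ) / n) ^ (n + 1) = (n + 1) ^ (n + 1) / n ^ (n + 1) := by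
        rw [div_pow]
      rw [h5, le_div_iff₀ (by positivity)] at h1
      rw [div_pow, div_pow, le_div_iff₀ (by positivity), pow_succ (exp 1)]
      have hen : exp 1 ^ n ≠ 0 := by positivity
      calc (n : ℝ) * (n ^ n / exp 1 ^ n) * (exp 1 ^ n * exp 1) = exp 1 * n ^ (n + 1) := by
            field_simp
            ring
        _ ≤ _ := h1
    calc ((n : ℝ) + 1) * n.factorial ≤ (n + 1) * (exp 1 * n * (n / exp 1) ^ n) := by gcongr
      _ = exp 1 * (n + 1) * (n * (n / exp 1) ^ n) := by ring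
      _ ≤ exp 1 * (n + 1) * ((n + 1) / exp 1) ^ (n + 1) := by gcongr

lemma tau_le (ν : Measure ℝ) [IsProbabilityMeasure ν] {n : ℕ} (hn : 1 ≤ n) (T : ℝ) :
    Tau ν n T ≤ exp 1 * n := by
  have hn0 : (0 : ℝ) < n := by exact_mod_cast hn
  have hn1 : (1 : ℝ) ≤ n := by exact_mod_cast hn
  have hE : 0 < exp (-2 * T) := exp_pos _
  have h1 := rn_le (μ := ν) (mul_pos hn0 hE) n
  unfold Tau
  have h2 : √(n.factorial / (n * exp (-2 * T)) ^ n) ≤ √(exp 1 * n) * (exp (-(n * (1 / 2 - T)))) := by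
    apply Real.sqrt_le_iff.mpr
    refine ⟨by positivity, ?_⟩
    rw [show (√(exp 1 * n) * (exp (-(n * (1 / 2 - T))))) ^ 2 =
      exp 1 * n * (exp (-(n * (1 / 2 - T)))) ^ 2 by rw [mul_pow, Real.sq_sqrt (by positivity)],
      div_le_iff₀ (by positivity)]
    refine (factorial_le n hn).trans (le_of_eq ?_)
    have e1 : (exp (-(n * (1 / 2 - T)))) ^ 2 * (exp (-2 * T)) ^ n = (exp 1 ^ n)⁻¹ := by
      rw [← exp_nat_mul, ← exp_nat_mul, ← exp_nat_mul, ← exp_neg, ← exp_add]
      congr 1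
      push_cast
      ring
    calc exp 1 * n * (n / exp 1) ^ n = exp 1 * n * n ^ n * (exp 1 ^ n)⁻¹ := by
          rw [div_pow]; ring
      _ = exp 1 * n * n ^ n * ((exp (-(n * (1 / 2 - T)))) ^ 2 * (exp (-2 * T)) ^ n) := by rw [e1]
      _ = _ := by rw [mul_pow]; ring
  have h3 : exp (n * (1 / 2 - T)) * exp (-(n * (1 / 2 - T))) = 1 := by
    rw [← exp_add]; simp only [one_div, add_neg_cancel, exp_zero]
  calc exp (n * (1 / 2 - T)) * rn ν (Gd n (n * exp (-2 * T)))
      ≤ exp (n * (1 / 2 - T)) * (√(exp 1 * n) * (exp (-(n * (1 / 2 - T))))) := by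
        gcongr; exact h1.trans h2
    _ = √(exp 1 * n) := by rw [mul_left_comm, h3, mul_one]
    _ ≤ exp 1 * n := by
        apply Real.sqrt_le_iff.mpr
        refine ⟨by positivity, ?_⟩
        have : 1 ≤ exp 1 * n := by
          have := one_le_exp (zero_le_one (α := ℝ))
          nlinarith only [hn1, this]
        nlinarith only [this]

lemma tau_nonneg (ν : Measure ℝ) (n : ℕ) (T : ℝ) : 0 ≤ Tau ν n T := by
  unfold Tau
  have := rn_nonneg ν (Gd n (n * exp (-2 * T)))
  positivity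

lemma Jr_nonneg (μ : ℕ → Measure ℝ) (n : ℕ) (T : ℝ) : 0 ≤ Jr μ n T := by
  unfold Jr
  have := rn_nonneg (μ n) (Gd 1 (exp (-2 * T)))
  positivity

/-- decay of the details from a selection property -/
lemma tau_decay {ℓ : ℝ} (hℓ : 0 < ℓ) (hself : ∀ n, ν = μ n ∗ ν.map (exp (-ℓ) ^ n * ·))
    {β ε Tm : ℝ} (hβ : 1 < β) (hε : 0 < ε) (hε1 : ε < 1) (hTm : 0 < Tm)
    (hsel : ∀ T, Tm ≤ T → ∃ a m : ℕ, 0 < T - (a + m) * ℓ ∧
      Jr μ m (T - a * ℓ) ≤ (1 - ε) * ((T - (a + m) * ℓ) / T) ^ β) :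
    ∀ n : ℕ, 1 ≤ n → ∀ T, 0 < T →
      Tau ν n T ≤ exp 1 * n * max ((Tm / T) ^ β) ((1 - ε) ^ (n - 1)) := by
  intro n hn
  induction n, hn using Nat.le_induction with
  | base =>
    intro T hT
    refine (tau_le ν le_rfl T).trans ?_
    have : (1 : ℝ) ≤ max ((Tm / T) ^ β) ((1 - ε) ^ (1 - 1)) := by simp only [tsub_self, pow_zero, le_sup_right]
    have h2 : 0 ≤ exp 1 * ((1 : ℕ) : ℝ) := by (clear * -; positivity)
    exact le_mul_of_one_le_right h2 this
  | succ n hn ih =>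
    intro T hT
    have hn0 : (0 : ℝ) < n := by exact_mod_cast hn
    rcases lt_or_ge T Tm with hTT | hTT
    · refine (tau_le ν (by omega) T).trans ?_
      have h1 : (1 : ℝ) ≤ (Tm / T) ^ β := by
        apply one_le_rpow _ (by linarith only [hβ])
        rw [le_div_iff₀ hT]; linarith only [hTT]
      have h2 : (1 : ℝ) ≤ max ((Tm / T) ^ β) ((1 - ε) ^ (n + 1 - 1)) := h1.trans (le_max_left _ _)
      have h3 : 0 ≤ exp 1 * ((n + 1 : ℕ) : ℝ) := by (clear * - hn; positivity)
      exact le_mul_of_one_le_right h3 h2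
    · obtain ⟨a, m, hp, hJ⟩ := hsel T hTT
      set T' := T - (a + m) * ℓ with hT'
      have h1 := tau_step hself a m hn T
      have h2 := ih T' hp
      have hq : 0 ≤ (T' / T) ^ β := rpow_nonneg (by (clear * - hp hT; (clear * - hp hT; positivity))) _
      have h1ε : 0 ≤ 1 - ε := by linarith only [hε1]
      have hmax : (1 - ε) * (T' / T) ^ β * max ((Tm / T') ^ β) ((1 - ε) ^ (n - 1)) ≤
          max ((Tm / T) ^ β) ((1 - ε) ^ (n + 1 - 1)) := by
        rw [mul_max_of_nonneg _ _ (by (clear * - hε1 hp hT; positivity))]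
        apply max_le_max
        · have e : (T' / T) ^ β * (Tm / T') ^ β = (Tm / T) ^ β := by
            rw [← mul_rpow (by (clear * - hp hT; positivity)) (by (clear * - hTm hp; positivity))]
            congr 1
            (clear * - hp hTm hT; field_simp)
          have h0 : 0 ≤ (Tm / T) ^ β := rpow_nonneg (by (clear * - hTm hT; positivity)) _
          calc (1 - ε) * (T' / T) ^ β * (Tm / T') ^ β = (1 - ε) * ((T' / T) ^ β * (Tm / T') ^ β) := by
                ring
            _ = (1 - ε) * (Tm / T) ^ β := by rw [e]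
            _ ≤ (Tm / T) ^ β := by linarith only [mul_nonneg_of_nonpos_of_nonpos (le_of_lt (Mathlib.Tactic.Linarith.sub_neg_of_lt hε)) (Mathlib.Tactic.Linarith.sub_nonpos_of_le h0)]
        · have hTT' : T' / T ≤ 1 := by
            rw [div_le_one hT, hT']
            have : 0 ≤ ((a : ℝ) + m) * ℓ := by (clear * - hℓ; (clear * - hℓ; positivity))
            linarith only [this]
          have h3 : (T' / T) ^ β ≤ 1 := rpow_le_one (by (clear * - hp hT; positivity)) hTT' (by linarith only [hβ])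
          have h4 : (1 - ε) ^ (n + 1 - 1) = (1 - ε) * (1 - ε) ^ (n - 1) := by
            rw [← pow_succ']
            congr 1
            omega
          rw [h4]
          have h5 : 0 ≤ (1 - ε) ^ (n - 1) := by (clear * - hε1; positivity)
          calc (1 - ε) * (T' / T) ^ β * (1 - ε) ^ (n - 1) ≤ (1 - ε) * 1 * (1 - ε) ^ (n - 1) := by (clear * - h3 hε1; gcongr)
            _ = _ := by ring
      calc Tau ν (n + 1) T ≤ Jr μ m (T - a * ℓ) * Tau ν n T' := h1
        _ ≤ ((1 - ε) * (T' / T) ^ β) * (exp 1 * n * max ((Tm / T') ^ β) ((1 - ε) ^ (n - 1))) := by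
            apply mul_le_mul hJ h2 (tau_nonneg _ _ _) (by (clear * - hε1 hp hT; positivity))
        _ = exp 1 * n * ((1 - ε) * (T' / T) ^ β * max ((Tm / T') ^ β) ((1 - ε) ^ (n - 1))) := by ring
        _ ≤ exp 1 * n * max ((Tm / T) ^ β) ((1 - ε) ^ (n + 1 - 1)) := by (clear * - hmax hn; gcongr)
        _ ≤ exp 1 * ((n + 1 : ℕ) : ℝ) * max ((Tm / T) ^ β) ((1 - ε) ^ (n + 1 - 1)) := by
            have : 0 ≤ max ((Tm / T) ^ β) ((1 - ε) ^ (n + 1 - 1)) :=
              le_trans (by (clear * - hε1; positivity)) (le_max_right _ _)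
            gcongr
            linarith only []

end

end Vale.Agent.P105
end
end

section

section

open MeasureTheory Real Filter Topology
open scoped ENNReal

namespace Vale.Agent.P105

section
variable {ν : Measure ℝ} [IsProbabilityMeasure ν]

lemma nrm_sub_Gd {y0 y1 : ℝ} (h0 : 0 < y0) (h1 : y0 ≤ y1) (n : ℕ) :
    ∫⁻ x, ‖sm ν (Gd n y1) x - sm ν (Gd n y0) x‖ₑ ≤
      ∫⁻ y in Set.Ioc y0 y1, ENNReal.ofReal (1 / 2) * nrm ν (Gd (n + 2) y) := by
  refine nrm_sub_gen h0 h1 (fun y => continuous_Gd n y) (fun y hy => bdd_Gd hy n)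
    (fun y hy z => hasDerivAt_Gd_var hy n z) (fun z => continuousOn_Gd_var (n + 2) z)
    (measurable_Gd_uncurry (n + 2)) (bdd_Gd_unif' h0 (n + 2))

/-- L1 norm of the i-th variance derivative of the smoothing -/
noncomputable def Ad (ν : Measure ℝ) (i : ℕ) (y : ℝ) : ℝ := (1 / 2) ^ i * rn ν (Gd (2 * i) y)

lemma Ad_nonneg (ν : Measure ℝ) (i : ℕ) (y : ℝ) : 0 ≤ Ad ν i y := by
  unfold Ad
  have := rn_nonneg ν (Gd (2 * i) y)
  positivity

lemma factorial_two_mul_le (i : ℕ) : ((2 * i).factorial : ℝ) ≤ (2 ^ i * i.factorial) ^ 2 := by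
  induction i with
  | zero => simp only [mul_zero, Nat.factorial_zero, Nat.cast_one, pow_zero, mul_one, one_pow, Std.le_refl]
  | succ i ih =>
    have e : (2 * (i + 1)).factorial = (2 * i + 2) * ((2 * i + 1) * (2 * i).factorial) := by
      rw [show 2 * (i + 1) = 2 * i + 1 + 1 by ring, Nat.factorial_succ, Nat.factorial_succ]
    rw [e, Nat.factorial_succ]
    push_cast
    calc ((2 : ℝ) * i + 2) * ((2 * i + 1) * (2 * i).factorial)
        ≤ (2 * i + 2) * ((2 * i + 2) * (2 ^ i * i.factorial) ^ 2) := by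
          gcongr
          linarith only []
      _ = _ := by ring

lemma Ad_le {y : ℝ} (hy : 0 < y) (i : ℕ) : Ad ν i y ≤ i.factorial * (y ^ i)⁻¹ := by
  unfold Ad
  have h := rn_le (μ := ν) hy (2 * i)
  have h2 : √((2 * i).factorial / y ^ (2 * i)) ≤ 2 ^ i * i.factorial * (y ^ i)⁻¹ := by
    apply Real.sqrt_le_iff.mpr
    refine ⟨by (clear * - hy; positivity), ?_⟩
    rw [mul_pow, div_eq_mul_inv, inv_pow, ← pow_mul, mul_comm i 2]
    gcongr
    exact factorial_two_mul_le i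
  calc (1 / 2 : ℝ) ^ i * rn ν (Gd (2 * i) y) ≤ (1 / 2) ^ i * (2 ^ i * i.factorial * (y ^ i)⁻¹) := by
        gcongr; exact h.trans h2
    _ = _ := by
        rw [one_div, inv_pow]
        field_simp

lemma ofReal_Ad {y : ℝ} (hy : 0 < y) (i : ℕ) :
    ENNReal.ofReal (Ad ν i y) = ENNReal.ofReal ((1 / 2) ^ i) * nrm ν (Gd (2 * i) y) := by
  unfold Ad
  rw [ENNReal.ofReal_mul (by positivity), nrm_eq_ofReal_rn hy]

/-- one order reduction -/
lemma Ad_step {y0 y1 a E : ℝ} (h0 : 0 < y0) (h1 : y0 ≤ y1) (ha : 0 ≤ a) (hE : 0 ≤ E) {i : ℕ}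
    (hi : 1 ≤ i) (h : ∀ s, y0 < s → s ≤ y1 → Ad ν (i + 1) s ≤ a * (s ^ (i + 1))⁻¹ + E) :
    Ad ν i y0 ≤ Ad ν i y1 + a / i * (y0 ^ i)⁻¹ + E * y1 := by
  have hy1 : 0 < y1 := h0.trans_le h1
  have hi0 : (0 : ℝ) < i := by exact_mod_cast hi
  have hcont : ContinuousOn (fun s : ℝ => a * (s ^ (i + 1))⁻¹ + E) (Set.Icc y0 y1) := by
    intro s hs
    have : s ^ (i + 1) ≠ 0 := by have := h0.trans_le hs.1; (clear * - this; positivity)
    apply ContinuousAt.continuousWithinAt
    fun_prop (disch := assumption)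
  have hint : IntegrableOn (fun s : ℝ => a * (s ^ (i + 1))⁻¹ + E) (Set.Ioc y0 y1) :=
    (hcont.integrableOn_Icc).mono_set Set.Ioc_subset_Icc_self
  have hval : ∫ s in Set.Ioc y0 y1, (a * (s ^ (i + 1))⁻¹ + E) ≤ a / i * (y0 ^ i)⁻¹ + E * y1 := by
    rw [← intervalIntegral.integral_of_le h1]
    have hd : ∀ s ∈ Set.uIcc y0 y1, HasDerivAt (fun s : ℝ => -(a / i) * (s ^ i)⁻¹ + E * s)
        (a * (s ^ (i + 1))⁻¹ + E) s := by
      intro s hs
      rw [Set.uIcc_of_le h1] at hs
      have hs0 : 0 < s := h0.trans_le hs.1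
      have h2 := ((hasDerivAt_pow i s).inv (by (clear * - hs0; positivity) : s ^ i ≠ 0)).const_mul (-(a / i))
      have h3 := h2.add ((hasDerivAt_id s).const_mul E)
      convert! h3 using 1
      obtain ⟨k, rfl⟩ : ∃ k, i = k + 1 := ⟨i - 1, by omega⟩
      simp only [Nat.add_sub_cancel]
      push_cast
      field_simp
      ring
    rw [intervalIntegral.integral_eq_sub_of_hasDerivAt hd
      ((intervalIntegrable_iff_integrableOn_Ioc_of_le h1).mpr hint)]
    have e1 : 0 ≤ a / i * (y1 ^ i)⁻¹ := by (clear * - ha hi hy1; (clear * - ha hi hy1; positivity))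
    have e2 : 0 ≤ E * y0 := by (clear * - hE h0; positivity)
    linarith only [e1, e2]
  have hbd : ENNReal.ofReal (Ad ν i y0) ≤ ENNReal.ofReal (Ad ν i y1 + (a / i * (y0 ^ i)⁻¹ + E * y1)) := by
    rw [ofReal_Ad h0, ENNReal.ofReal_add (Ad_nonneg _ _ _) (by (clear * - ha hi h0 hE hy1; positivity)), ofReal_Ad hy1]
    have h2 := nrm_le_add_of_sub (μ := ν) (A := Gd (2 * i) y1) (B := Gd (2 * i) y0)
      (continuous_Gd _ _) (bdd_Gd hy1 _)
    calc ENNReal.ofReal ((1 / 2) ^ i) * nrm ν (Gd (2 * i) y0)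
        ≤ ENNReal.ofReal ((1 / 2) ^ i) * (nrm ν (Gd (2 * i) y1) +
          ∫⁻ y in Set.Ioc y0 y1, ENNReal.ofReal (1 / 2) * nrm ν (Gd (2 * i + 2) y)) := by
          gcongr
          exact h2.trans (add_le_add_right (nrm_sub_Gd h0 h1 (2 * i)) _)
      _ = ENNReal.ofReal ((1 / 2) ^ i) * nrm ν (Gd (2 * i) y1) +
          ENNReal.ofReal ((1 / 2) ^ i) * ∫⁻ y in Set.Ioc y0 y1,
            ENNReal.ofReal (1 / 2) * nrm ν (Gd (2 * i + 2) y) := by rw [mul_add]
      _ ≤ ENNReal.ofReal ((1 / 2) ^ i) * nrm ν (Gd (2 * i) y1) +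
          ENNReal.ofReal (a / i * (y0 ^ i)⁻¹ + E * y1) := by
          gcongr
          rw [← lintegral_const_mul' _ _ ENNReal.ofReal_ne_top]
          calc ∫⁻ y in Set.Ioc y0 y1, ENNReal.ofReal ((1 / 2) ^ i) *
              (ENNReal.ofReal (1 / 2) * nrm ν (Gd (2 * i + 2) y))
              ≤ ∫⁻ y in Set.Ioc y0 y1, ENNReal.ofReal (a * (y ^ (i + 1))⁻¹ + E) := by
                refine setLIntegral_mono' measurableSet_Ioc fun s hs => ?_
                have hs0 : 0 < s := h0.trans hs.1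
                rw [← mul_assoc, ← ENNReal.ofReal_mul (by positivity), ← pow_succ]
                have := ofReal_Ad (ν := ν) hs0 (i + 1)
                rw [show 2 * (i + 1) = 2 * i + 2 by ring] at this
                rw [← this]
                exact ENNReal.ofReal_le_ofReal (h s hs.1 hs.2)
            _ = ENNReal.ofReal (∫ s in Set.Ioc y0 y1, (a * (s ^ (i + 1))⁻¹ + E)) := by
                rw [ofReal_integral_eq_lintegral_ofReal hint]
                filter_upwards [ae_restrict_mem measurableSet_Ioc] with s hs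
                have hs0 : 0 < s := h0.trans hs.1
                (clear * - ha hs0 hE; (clear * - ha hs0 hE; positivity))
            _ ≤ _ := ENNReal.ofReal_le_ofReal hval
  rw [ENNReal.ofReal_le_ofReal_iff (by
    have := Ad_nonneg ν i y1
    (clear * - this ha hi h0 hE hy1; (clear * - this ha hi h0 hE hy1; positivity)))] at hbd
  linarith only [hbd]

/-- chain of order reductions -/
lemma Ad_chain {y0 y1 a : ℝ} (h0 : 0 < y0) (ha : 0 ≤ a) {j : ℕ}
    (hj : 1 ≤ j) (h : ∀ s, y0 ≤ s → s ≤ y1 → Ad ν j s ≤ a * (j - 1).factorial * (s ^ j)⁻¹) :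
    ∀ k : ℕ, k + 1 ≤ j → ∀ y, y0 ≤ y → y ≤ y1 →
      Ad ν (j - k) y ≤ a * (j - k - 1).factorial * (y ^ (j - k))⁻¹ +
        k * (j.factorial) * (y1 ^ (j - k))⁻¹ := by
  intro k
  induction k with
  | zero =>
    intro _ y hy0 hy1
    simpa only [tsub_zero, CharP.cast_eq_zero, zero_mul, add_zero] using h y hy0 hy1
  | succ k ih =>
    intro hk y hy0 hy1
    have hy : 0 < y := h0.trans_le hy0
    have hy1' : 0 < y1 := hy.trans_le hy1
    have ih' := ih (by omega)
    obtain ⟨i, hi⟩ : ∃ i, j - (k + 1) = i + 1 := ⟨j - (k + 1) - 1, by omega⟩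
    have hjk : j - k = i + 1 + 1 := by omega
    rw [hjk] at ih'
    rw [hi]
    have hs := Ad_step (ν := ν) (a := a * (i + 1).factorial)
      (E := k * j.factorial * (y1 ^ (i + 1 + 1))⁻¹) hy hy1 (by (clear * - ha; (clear * - ha; positivity))) (by (clear * - hy1'; positivity))
      (i := i + 1) (by omega) (fun s hs0 hs1 => by
        have := ih' s (hy0.trans hs0.le) hs1
        simpa only [ge_iff_le, add_tsub_cancel_right] using this)
    have h3 := Ad_le (ν := ν) hy1' (i + 1)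
    refine hs.trans ?_
    have e1 : a * (i + 1).factorial / ((i + 1 : ℕ) : ℝ) = a * i.factorial := by
      rw [Nat.factorial_succ]
      push_cast
      field_simp
    rw [e1]
    have e2 : (k : ℝ) * j.factorial * (y1 ^ (i + 1 + 1))⁻¹ * y1 = k * j.factorial * (y1 ^ (i + 1))⁻¹ := by
      rw [pow_succ y1 (i + 1)]
      (clear * - hy1'; field_simp)
    rw [e2]
    have h4 : ((i + 1).factorial : ℝ) ≤ j.factorial := by
      exact_mod_cast Nat.factorial_le (by omega)
    have h5 : ((i + 1).factorial : ℝ) * (y1 ^ (i + 1))⁻¹ ≤ j.factorial * (y1 ^ (i + 1))⁻¹ := by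
      (clear * - h4 hy1'; gcongr)
    simp only [Nat.add_sub_cancel]
    push_cast
    have h6 : ((k : ℝ) + 1) * j.factorial * (y1 ^ (i + 1))⁻¹ =
      k * j.factorial * (y1 ^ (i + 1))⁻¹ + j.factorial * (y1 ^ (i + 1))⁻¹ := by ring
    rw [h6]
    linarith only [h3, h5]

/-- j-th derivative norm in terms of Tau -/
lemma Ad_eq_tau {s : ℝ} (hs : 0 < s) {j : ℕ} (hj : 1 ≤ j) :
    Ad ν j s = (j / exp 1) ^ j * (s ^ j)⁻¹ * Tau ν (2 * j) (-(1 / 2) * log (s / (2 * j))) := by
  have hj0 : (0 : ℝ) < j := by exact_mod_cast hj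
  have hq : 0 < s / (2 * j) := by (clear * - hs hj; positivity)
  unfold Ad Tau
  have e1 : exp (-2 * (-(1 / 2) * log (s / (2 * j)))) = s / (2 * j) := by
    rw [show -2 * (-(1 / 2) * log (s / (2 * j))) = log (s / (2 * j)) by ring, exp_log hq]
  rw [e1]
  have e2 : ((2 * j : ℕ) : ℝ) * (s / (2 * j)) = s := by push_cast; field_simp
  rw [e2]
  have e3 : exp (((2 * j : ℕ) : ℝ) * (1 / 2 - (-(1 / 2) * log (s / (2 * j))))) =
      exp 1 ^ j * (s / (2 * j)) ^ j := by
    rw [← exp_log hq, ← exp_nat_mul, ← exp_nat_mul, ← exp_add, log_exp]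
    congr 1
    push_cast
    ring
  rw [e3]
  have hE : exp 1 ≠ 0 := (exp_pos 1).ne'
  have e4 : (1 / 2 : ℝ) ^ j = (j / exp 1) ^ j * (s ^ j)⁻¹ * (exp 1 ^ j * (s / (2 * j)) ^ j) := by
    rw [← inv_pow, ← mul_pow, ← mul_pow, ← mul_pow]
    congr 1
    (clear * - hj hE hs; field_simp)
  rw [e4]
  ring

lemma pow_div_exp_le (j : ℕ) (hj : 1 ≤ j) : ((j : ℝ) / exp 1) ^ j ≤ j * (j - 1).factorial := by
  have h := Real.pow_div_factorial_le_exp (j : ℝ) (Nat.cast_nonneg j) j
  rw [div_le_iff₀ (by positivity)] at h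
  have e : (j : ℝ) * (j - 1).factorial = j.factorial := by
    have := Nat.mul_factorial_pred (show j ≠ 0 by omega)
    exact_mod_cast this
  rw [e, div_pow, div_le_iff₀ (by positivity), ← exp_nat_mul, mul_one]
  linarith only [h]

/-- final bound for the first variance derivative -/
lemma Ad_one_le {ℓ : ℝ} (hℓ : 0 < ℓ) {μ : ℕ → Measure ℝ} [∀ n, IsProbabilityMeasure (μ n)]
    (hself : ∀ n, ν = μ n ∗ ν.map (exp (-ℓ) ^ n * ·))
    {β ε Tm : ℝ} (hβ : 1 < β) (hε : 0 < ε) (hε1 : ε < 1) (hTm : 0 < Tm)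
    (hsel : ∀ T, Tm ≤ T → ∃ a m : ℕ, 0 < T - (a + m) * ℓ ∧
      Jr μ m (T - a * ℓ) ≤ (1 - ε) * ((T - (a + m) * ℓ) / T) ^ β)
    {t0 t1 : ℝ} (ht1 : 0 < t1) (ht : t1 ≤ t0) {j : ℕ} (hj : 1 ≤ j) :
    exp (-2 * t0) * Ad ν 1 (exp (-2 * t0)) ≤
      2 * exp 1 * j ^ 2 * ((Tm / t1) ^ β + (1 - ε) ^ (2 * j - 1)) +
        j * j.factorial * exp (-2 * (t0 - t1)) := by
  have hj0 : (0 : ℝ) < j := by exact_mod_cast hj
  have hj1 : (1 : ℝ) ≤ j := by exact_mod_cast hj
  set y0 := exp (-2 * t0) with hy0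
  set y1 := exp (-2 * t1) with hy1
  have hy0p : 0 < y0 := exp_pos _
  have hy1p : 0 < y1 := exp_pos _
  have hy01 : y0 ≤ y1 := exp_le_exp.mpr (by linarith only [ht])
  set X := (Tm / t1) ^ β + (1 - ε) ^ (2 * j - 1) with hX
  have hX1 : 0 ≤ (Tm / t1) ^ β := rpow_nonneg (by (clear * - hTm ht1; positivity)) _
  have h1ε : 0 ≤ 1 - ε := by linarith only [hε1]
  have hX2 : 0 ≤ (1 - ε) ^ (2 * j - 1) := by (clear * - hε1; positivity)
  have hX0 : 0 ≤ X := by (clear * - hTm ht1 hε1; positivity)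
  have hdec := tau_decay hℓ hself hβ hε hε1 hTm hsel (2 * j) (by omega)
  have hA : ∀ s, y0 ≤ s → s ≤ y1 →
      Ad ν j s ≤ (2 * exp 1 * j ^ 2 * X) * (j - 1).factorial * (s ^ j)⁻¹ := by
    intro s hs0 hs1
    have hs : 0 < s := hy0p.trans_le hs0
    rw [Ad_eq_tau hs hj]
    set T := -(1 / 2) * log (s / (2 * j)) with hT
    have hTt : t1 ≤ T := by
      have h1 : log (s / (2 * j)) ≤ -2 * t1 := by
        rw [← log_exp (-2 * t1)]
        apply log_le_log (by (clear * - hs hj; (clear * - hs hj; positivity)))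
        rw [div_le_iff₀ (by positivity)]
        calc s ≤ y1 := hs1
          _ = y1 * 1 := (mul_one _).symm
          _ ≤ y1 * (2 * j) := by gcongr; linarith only [hj1]
      rw [hT]; linarith only [h1]
    have hT0 : 0 < T := ht1.trans_le hTt
    have h2 := hdec T hT0
    have h3 : max ((Tm / T) ^ β) ((1 - ε) ^ (2 * j - 1)) ≤ X := by
      apply max_le
      · have : (Tm / T) ^ β ≤ (Tm / t1) ^ β := by
          apply rpow_le_rpow (by (clear * - hTm hT0; (clear * - hTm hT0; positivity))) _ (by linarith only [hβ])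
          (clear * - hTm ht1 hTt; gcongr)
        rw [hX]; linarith only [hX2, this]
      · rw [hX]; linarith only [hX1]
    calc (j / exp 1) ^ j * (s ^ j)⁻¹ * Tau ν (2 * j) T
        ≤ (j * (j - 1).factorial) * (s ^ j)⁻¹ * (exp 1 * ((2 * j : ℕ) : ℝ) * X) := by
          gcongr
          · exact tau_nonneg _ _ _
          · exact pow_div_exp_le j hj
          · exact h2.trans (by (clear * - h3 hj; gcongr))
      _ = _ := by push_cast; ring
  have hch := Ad_chain (ν := ν) hy0p (by (clear * - hj hTm ht1 hε1; positivity)) hj hA (j - 1) (by omega) y0 le_rfl hy01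
  have e1 : j - (j - 1) = 1 := by omega
  rw [e1] at hch
  simp only [Nat.sub_self, Nat.factorial_zero, Nat.cast_one, mul_one, pow_one] at hch
  have h5 := mul_le_mul_of_nonneg_left hch hy0p.le
  refine h5.trans ?_
  rw [mul_add]
  have e2 : y0 * (2 * exp 1 * j ^ 2 * X * y0⁻¹) = 2 * exp 1 * j ^ 2 * X := by (clear * - hy0p hj; field_simp)
  have e3 : y0 * (((j - 1 : ℕ) : ℝ) * j.factorial * y1⁻¹) =
      ((j - 1 : ℕ) : ℝ) * j.factorial * exp (-2 * (t0 - t1)) := by
    rw [hy0, hy1, ← exp_neg]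
    have : exp (-2 * t0) * exp (-(-2 * t1)) = exp (-2 * (t0 - t1)) := by
      rw [← exp_add]; congr 1; ring
    rw [← this]; ring
  rw [e2, e3]
  have h6 : ((j - 1 : ℕ) : ℝ) ≤ j := by exact_mod_cast Nat.sub_le j 1
  (clear * - h6; gcongr)

end

end Vale.Agent.P105
end
end

section

section

open MeasureTheory Real Filter Topology
open scoped ENNReal

namespace Vale.Agent.P105

section
variable {ν : Measure ℝ} [IsProbabilityMeasure ν]

/-- mass of a set under the smoothed measure, as an integral over the noise -/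
lemma lintegral_sm_indicator {U : Set ℝ} (hU : MeasurableSet U) {y : ℝ} (hy : 0 < y) :
    ∫⁻ x in U, ENNReal.ofReal (sm ν (G y) x) =
      ∫⁻ t, (∫⁻ z, U.indicator 1 (√y * z + t) * ENNReal.ofReal (G 1 z)) ∂ν := by
  have h1 : ∀ x, ENNReal.ofReal (sm ν (G y) x) = ∫⁻ t, ENNReal.ofReal (G y (x - t)) ∂ν := by
    intro x
    unfold sm
    rw [ofReal_integral_eq_lintegral_ofReal (integrable_kernel (continuous_G y) (bdd_G' hy) x)
      (ae_of_all _ fun t => G_nonneg y _)]
  rw [← lintegral_indicator hU]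
  have h2 : ∀ x, U.indicator (fun x => ENNReal.ofReal (sm ν (G y) x)) x =
      ∫⁻ t, U.indicator 1 x * ENNReal.ofReal (G y (x - t)) ∂ν := by
    intro x
    by_cases hx : x ∈ U
    · simp only [Set.indicator_of_mem hx, h1, Pi.one_apply, one_mul]
    · simp only [Set.indicator_of_notMem hx, zero_mul, lintegral_const, measure_univ, mul_one]
  simp_rw [h2]
  have hG := continuous_G y
  have hm1 : Measurable (U.indicator (1 : ℝ → ℝ≥0∞)) := measurable_one.indicator hU
  rw [lintegral_lintegral_swap (f := fun x t => U.indicator 1 x * ENNReal.ofReal (G y (x - t)))]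
  · refine lintegral_congr fun t => ?_
    have hs : 0 < √y := Real.sqrt_pos.mpr hy
    have e1 : ∫⁻ x, U.indicator 1 x * ENNReal.ofReal (G y (x - t)) =
        ∫⁻ x, U.indicator 1 (x + t) * ENNReal.ofReal (G y x) := by
      rw [← lintegral_add_right_eq_self (fun x => U.indicator 1 x * ENNReal.ofReal (G y (x - t))) t]
      simp only [add_sub_cancel_right]
    have hmm : Measurable (fun x => U.indicator 1 (x + t) * ENNReal.ofReal (G y x)) := by
      apply Measurable.mul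
      · exact hm1.comp (by fun_prop)
      · exact hG.measurable.ennreal_ofReal
    rw [e1, lintegral_comp_mul _ hmm hs, ← lintegral_const_mul]
    · refine lintegral_congr fun z => ?_
      rw [G_scale hy hs, Real.sq_sqrt hy.le, div_self hy.ne', mul_left_comm,
        ← ENNReal.ofReal_mul hs.le, mul_inv_cancel_left₀ hs.ne']
    · exact hmm.comp (by fun_prop)
  · apply Measurable.aemeasurable
    apply Measurable.mul
    · exact hm1.comp measurable_fst
    · exact (by fun_prop : Continuous fun p : ℝ × ℝ => G y (p.1 - p.2)).measurable.ennreal_ofReal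

lemma lintegral_G {v : ℝ} (hv : 0 < v) : ∫⁻ z, ENNReal.ofReal (G v z) = 1 := by
  rw [← ofReal_integral_eq_lintegral_ofReal (integrable_G hv) (ae_of_all _ fun z => G_nonneg v z),
    integral_G hv, ENNReal.ofReal_one]

/-- lower semicontinuity on open sets -/
lemma open_le_liminf {U : Set ℝ} (hU : IsOpen U) {y : ℕ → ℝ} (hy : ∀ m, 0 < y m)
    (hlim : Tendsto y atTop (𝓝 0)) :
    ν U ≤ liminf (fun m => ∫⁻ x in U, ENNReal.ofReal (sm ν (G (y m)) x)) atTop := by
  have hm1 : Measurable (U.indicator (1 : ℝ → ℝ≥0∞)) := measurable_one.indicator hU.measurableSet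
  have hG1 := continuous_G 1
  have hsq : Tendsto (fun m => √(y m)) atTop (𝓝 0) := by
    have := (Real.continuous_sqrt.tendsto 0).comp hlim
    rw [Real.sqrt_zero] at this
    exact this
  have hpt : ∀ t z : ℝ, U.indicator (1 : ℝ → ℝ≥0∞) t * ENNReal.ofReal (G 1 z) ≤
      liminf (fun m => U.indicator 1 (√(y m) * z + t) * ENNReal.ofReal (G 1 z)) atTop := by
    intro t z
    by_cases ht : t ∈ U
    · have h1 : Tendsto (fun m => √(y m) * z + t) atTop (𝓝 t) := by
        have := (hsq.mul_const z).add_const t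
        simpa only [zero_mul, zero_add] using this
      have h2 : ∀ᶠ m in atTop, √(y m) * z + t ∈ U := h1.eventually (hU.mem_nhds ht)
      apply le_liminf_of_le (by isBoundedDefault)
      filter_upwards [h2] with m hm
      rw [Set.indicator_of_mem ht, Set.indicator_of_mem hm]
      rfl
    · rw [Set.indicator_of_notMem ht, zero_mul]
      exact zero_le
  have e1 : ν U = ∫⁻ t, (∫⁻ z, U.indicator 1 t * ENNReal.ofReal (G 1 z)) ∂ν := by
    have : ∀ t, ∫⁻ z, U.indicator (1 : ℝ → ℝ≥0∞) t * ENNReal.ofReal (G 1 z) =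
        U.indicator (1 : ℝ → ℝ≥0∞) t := by
      intro t
      rw [lintegral_const_mul _ hG1.measurable.ennreal_ofReal,
        lintegral_G one_pos, mul_one]
    simp_rw [this]
    rw [lintegral_indicator_one hU.measurableSet]
  have hmm : ∀ m, Measurable (fun p : ℝ × ℝ => U.indicator (1 : ℝ → ℝ≥0∞) (√(y m) * p.2 + p.1) *
      ENNReal.ofReal (G 1 p.2)) := by
    intro m
    apply Measurable.mul
    · exact hm1.comp (by fun_prop)
    · exact (by fun_prop : Continuous fun p : ℝ × ℝ => G 1 p.2).measurable.ennreal_ofReal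
  rw [e1]
  calc ∫⁻ t, (∫⁻ z, U.indicator 1 t * ENNReal.ofReal (G 1 z)) ∂ν
      ≤ ∫⁻ t, (∫⁻ z, liminf (fun m => U.indicator 1 (√(y m) * z + t) *
          ENNReal.ofReal (G 1 z)) atTop) ∂ν :=
        lintegral_mono fun t => lintegral_mono fun z => hpt t z
    _ ≤ ∫⁻ t, liminf (fun m => ∫⁻ z, U.indicator 1 (√(y m) * z + t) *
          ENNReal.ofReal (G 1 z)) atTop ∂ν := by
        refine lintegral_mono fun t => ?_
        apply lintegral_liminf_le
        intro m
        exact (hmm m).comp (by fun_prop : Measurable fun z : ℝ => (t, z))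
    _ ≤ liminf (fun m => ∫⁻ t, (∫⁻ z, U.indicator 1 (√(y m) * z + t) *
          ENNReal.ofReal (G 1 z)) ∂ν) atTop := by
        apply lintegral_liminf_le
        intro m
        exact (hmm m).lintegral_prod_right'
    _ = _ := by
        congr 1
        ext m
        rw [lintegral_sm_indicator hU.measurableSet (hy m)]

/-- absolute continuity from summability of the L1 distances of the smoothings -/
lemma ac_of_summable {y : ℕ → ℝ} (hy : ∀ m, 0 < y m) (hlim : Tendsto y atTop (𝓝 0))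
    {b : ℕ → ℝ} (hb : ∀ m, 0 ≤ b m) (hsum : Summable b) {m0 : ℕ}
    (hdist : ∀ m, m0 ≤ m → ∫⁻ x, ‖sm ν (G (y m)) x - sm ν (G (y (m + 1))) x‖ₑ ≤
      ENNReal.ofReal (b m)) : ν ≪ volume := by
  -- iterated bound
  have hiter : ∀ (U : Set ℝ), MeasurableSet U → ∀ M, m0 ≤ M → ∀ k,
      ∫⁻ x in U, ENNReal.ofReal (sm ν (G (y (M + k))) x) ≤
        (∫⁻ x in U, ENNReal.ofReal (sm ν (G (y M)) x)) +
          ENNReal.ofReal (∑ i ∈ Finset.range k, b (M + i)) := by
    intro U hU M hM k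
    induction k with
    | zero => simp only [add_zero, Finset.range_zero, Finset.sum_empty, ENNReal.ofReal_zero, Std.le_refl]
    | succ k ih =>
      have h1 : ∀ x, ENNReal.ofReal (sm ν (G (y (M + (k + 1)))) x) ≤
          ENNReal.ofReal (sm ν (G (y (M + k))) x) +
            ‖sm ν (G (y (M + k))) x - sm ν (G (y (M + k + 1))) x‖ₑ := by
        intro x
        rw [Real.enorm_eq_ofReal_abs, ← add_assoc M k 1]
        refine (ENNReal.ofReal_le_ofReal ?_).trans ENNReal.ofReal_add_le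
        have := neg_abs_le (sm ν (G (y (M + k))) x - sm ν (G (y (M + k + 1))) x)
        linarith only [this]
      have hc : Continuous (sm ν (G (y (M + k)))) := continuous_sm (continuous_G _) (bdd_G' (hy _))
      calc ∫⁻ x in U, ENNReal.ofReal (sm ν (G (y (M + (k + 1)))) x)
          ≤ ∫⁻ x in U, (ENNReal.ofReal (sm ν (G (y (M + k))) x) +
            ‖sm ν (G (y (M + k))) x - sm ν (G (y (M + k + 1))) x‖ₑ) :=
            lintegral_mono fun x => h1 x
        _ = (∫⁻ x in U, ENNReal.ofReal (sm ν (G (y (M + k))) x)) +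
            ∫⁻ x in U, ‖sm ν (G (y (M + k))) x - sm ν (G (y (M + k + 1))) x‖ₑ := by
            rw [lintegral_add_left]
            exact hc.measurable.ennreal_ofReal
        _ ≤ ((∫⁻ x in U, ENNReal.ofReal (sm ν (G (y M)) x)) +
              ENNReal.ofReal (∑ i ∈ Finset.range k, b (M + i))) + ENNReal.ofReal (b (M + k)) := by
            refine add_le_add ih ?_
            exact (setLIntegral_le_lintegral _ _).trans (hdist (M + k) (by omega))
        _ = _ := by
            rw [add_assoc, ← ENNReal.ofReal_add (Finset.sum_nonneg fun i _ => hb _) (hb _),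
              ← Finset.sum_range_succ]
  refine Measure.AbsolutelyContinuous.mk fun A hA hA0 => ?_
  -- show ν A ≤ 2 η for every η
  have key : ∀ η : ℝ, 0 < η → ν A ≤ ENNReal.ofReal (2 * η) := by
    intro η hη
    -- tail
    have htail : Tendsto (fun M => ∑' k, b (k + M)) atTop (𝓝 0) := tendsto_sum_nat_add b
    obtain ⟨M, hMη, hM⟩ := ((htail.eventually (gt_mem_nhds hη)).and (eventually_ge_atTop m0)).exists
    set Cm := (√(2 * π * y M))⁻¹ with hCm
    have hCpos : 0 < Cm := by have := hy M; (clear * - this; (clear * - this; positivity))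
    have hvolA : volume A < ENNReal.ofReal (η / Cm) := by
      rw [hA0]; exact ENNReal.ofReal_pos.mpr (by (clear * - hη hCpos; positivity))
    obtain ⟨U, hAU, hUo, hUvol⟩ := Set.exists_isOpen_lt_of_lt A _ hvolA
    have h1 : ν U ≤ liminf (fun m => ∫⁻ x in U, ENNReal.ofReal (sm ν (G (y m)) x)) atTop :=
      open_le_liminf hUo hy hlim
    have h2 : ∀ᶠ m in atTop, ∫⁻ x in U, ENNReal.ofReal (sm ν (G (y m)) x) ≤
        ENNReal.ofReal (2 * η) := by
      filter_upwards [eventually_ge_atTop M] with m hm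
      obtain ⟨k, rfl⟩ := Nat.exists_eq_add_of_le hm
      refine (hiter U hUo.measurableSet M hM k).trans ?_
      have h3 : ∫⁻ x in U, ENNReal.ofReal (sm ν (G (y M)) x) ≤ ENNReal.ofReal η := by
        calc ∫⁻ x in U, ENNReal.ofReal (sm ν (G (y M)) x) ≤ ∫⁻ _x in U, ENNReal.ofReal Cm :=
              lintegral_mono fun x => ENNReal.ofReal_le_ofReal (sm_G_le (hy M) x)
          _ = ENNReal.ofReal Cm * volume U := by rw [setLIntegral_const]
          _ ≤ ENNReal.ofReal Cm * ENNReal.ofReal (η / Cm) := by (clear * - hUvol; (clear * - hUvol; gcongr))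
          _ = ENNReal.ofReal η := by
              rw [← ENNReal.ofReal_mul hCpos.le, mul_div_cancel₀ _ hCpos.ne']
      have h4 : ∑ i ∈ Finset.range k, b (M + i) ≤ η := by
        have h5 : Summable (fun k => b (k + M)) := (summable_nat_add_iff M).mpr hsum
        have h6 := h5.sum_le_tsum (Finset.range k) (fun i _ => hb _)
        have h7 : ∑ i ∈ Finset.range k, b (M + i) = ∑ i ∈ Finset.range k, b (i + M) :=
          Finset.sum_congr rfl fun i _ => by rw [add_comm]
        rw [h7]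
        linarith only [hMη, h6]
      calc _ ≤ ENNReal.ofReal η + ENNReal.ofReal η := add_le_add h3 (ENNReal.ofReal_le_ofReal h4)
        _ = _ := by rw [← ENNReal.ofReal_add hη.le hη.le]; congr 1; ring
    calc ν A ≤ ν U := measure_mono hAU
      _ ≤ _ := h1
      _ ≤ ENNReal.ofReal (2 * η) := by
          apply liminf_le_of_le (by isBoundedDefault)
          intro c hc
          obtain ⟨m, hm1, hm2⟩ := (hc.and h2).exists
          exact hm1.trans hm2
  have h0 : ν A ≤ 0 := by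
    have ht : Tendsto (fun η : ℝ => ENNReal.ofReal (2 * η)) (𝓝[>] 0) (𝓝 0) := by
      have : Tendsto (fun η : ℝ => ENNReal.ofReal (2 * η)) (𝓝 0) (𝓝 (ENNReal.ofReal (2 * 0))) :=
        (ENNReal.continuous_ofReal.comp (continuous_const.mul continuous_id)).tendsto 0
      rw [mul_zero, ENNReal.ofReal_zero] at this
      exact this.mono_left nhdsWithin_le_nhds
    apply ge_of_tendsto ht
    filter_upwards [self_mem_nhdsWithin] with η hη
    exact key η hη
  exact le_antisymm h0 zero_le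

end

end Vale.Agent.P105
end
end

section

section

open Real Filter Topology Finset

namespace Vale.Agent.P105

/-- convexity: p z^(p-1) (z-w) ≥ z^p - w^p -/
lemma rpow_sub_le {z w p : ℝ} (hz : 0 < z) (hw : 0 ≤ w) (hp : 1 ≤ p) :
    z ^ p - w ^ p ≤ p * z ^ (p - 1) * (z - w) := by
  have h := one_add_mul_self_le_rpow_one_add (s := w / z - 1) (by
    have : 0 ≤ w / z := by positivity
    linarith) hp
  rw [add_sub_cancel, div_rpow hw hz.le] at h
  have hzp : 0 < z ^ p := rpow_pos_of_pos hz p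
  have h2 := mul_le_mul_of_nonneg_right h hzp.le
  rw [div_mul_cancel₀ _ hzp.ne'] at h2
  have e : z ^ p = z ^ (p - 1) * z := by
    rw [← rpow_add_one hz.ne', sub_add_cancel]
  have e2 : (1 + p * (w / z - 1)) * z ^ p = z ^ p + p * z ^ (p - 1) * (w - z) := by
    rw [add_mul, one_mul]
    congr 1
    rw [e]
    (clear * - hz hp; field_simp)
  rw [e2] at h2
  linarith only [h2]

lemma tendsto_L {ℓ θ δ K C x c1 β ε : ℝ} (hβ : 1 < β) :
    Tendsto (fun T : ℝ => (1 - ε) ^ 2 * (1 / ℓ) * ((x - c1 / T) ^ (2 * β + 1) -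
      (ℓ / T) ^ (2 * β + 1)) / (2 * β + 1) - K * (C / T + δ * ((T + ℓ) / θ + 1) / T)) atTop
      (𝓝 ((1 - ε) ^ 2 * (1 / ℓ) * (x ^ (2 * β + 1) - 0) / (2 * β + 1) - K * (0 + δ * (1 / θ)))) := by
  have hinv : Tendsto (fun T : ℝ => T⁻¹) atTop (𝓝 0) := tendsto_inv_atTop_zero
  have hc1 : Tendsto (fun T : ℝ => x - c1 / T) atTop (𝓝 x) := by
    have := (hinv.const_mul c1).const_sub x
    simpa only [div_eq_mul_inv, mul_zero, sub_zero] using this
  have hl : Tendsto (fun T : ℝ => ℓ / T) atTop (𝓝 0) := by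
    have := (hinv.const_mul ℓ)
    simpa only [div_eq_mul_inv, mul_zero] using this
  have hC : Tendsto (fun T : ℝ => C / T) atTop (𝓝 0) := by
    have := (hinv.const_mul C)
    simpa only [div_eq_mul_inv, mul_zero] using this
  have h1 : Tendsto (fun T : ℝ => (x - c1 / T) ^ (2 * β + 1)) atTop (𝓝 (x ^ (2 * β + 1))) :=
    hc1.rpow_const (Or.inr (by linarith))
  have h2 : Tendsto (fun T : ℝ => (ℓ / T) ^ (2 * β + 1)) atTop (𝓝 0) := by
    have := hl.rpow_const (p := 2 * β + 1) (Or.inr (by linarith))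
    rwa [zero_rpow (by linarith)] at this
  have h3 : Tendsto (fun T : ℝ => δ * ((T + ℓ) / θ + 1) / T) atTop (𝓝 (δ * (1 / θ))) := by
    have : Tendsto (fun T : ℝ => δ * (1 / θ) + (δ * (ℓ / θ + 1)) * T⁻¹) atTop
        (𝓝 (δ * (1 / θ) + (δ * (ℓ / θ + 1)) * 0)) := (hinv.const_mul _).const_add _
    rw [mul_zero, add_zero] at this
    refine this.congr' ?_
    filter_upwards [eventually_gt_atTop 0] with T hT
    field_simp
    ring
  exact (((h1.sub h2).const_mul _).div_const _).sub ((hC.add h3).const_mul K)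

theorem select {ℓ θ δ K C : ℝ} (hℓ : 0 < ℓ) (hθ : ℓ < θ) (hδ : 0 ≤ δ) (hK : 0 < K)
    (hcond : 3 * K * ℓ * δ * θ ^ 2 < (θ - ℓ) ^ 3) {J : ℕ → ℝ → ℝ}
    {m0 : ℕ} (hJ : ∀ m : ℕ, m0 ≤ m → ∀ (T : ℝ) (A : ℕ), T + ℓ ≤ θ * m → 1 ≤ A →
      0 ≤ T - (A - 1) * ℓ → ∑ a ∈ range A, J m (T - a * ℓ) ^ 2 ≤ K * (C + δ * m)) :
    ∃ β ε Tm : ℝ, 1 < β ∧ 0 < ε ∧ ε < 1 ∧ 0 < Tm ∧ ∀ T, Tm ≤ T → ∃ a m : ℕ,
      0 < T - (a + m) * ℓ ∧ J m (T - a * ℓ) ≤ (1 - ε) * ((T - (a + m) * ℓ) / T) ^ β := by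
  have hθ0 : 0 < θ := hℓ.trans hθ
  set x := 1 - ℓ / θ with hx
  have hx0 : 0 < x := by
    rw [hx, sub_pos, div_lt_one hθ0]; exact hθ
  have hlim : Tendsto (fun ε : ℝ => (1 - ε) ^ 2 * (1 / ℓ) * (x ^ (2 * (1 + ε) + 1) - 0) /
      (2 * (1 + ε) + 1) - K * (0 + δ * (1 / θ))) (𝓝 0)
      (𝓝 ((1 - 0) ^ 2 * (1 / ℓ) * (x ^ (2 * (1 + 0) + 1 : ℝ) - 0) /
      (2 * (1 + 0) + 1) - K * (0 + δ * (1 / θ)))) := by
    have hx0' : x ≠ 0 := hx0.ne'
    have hc : ContinuousAt (fun ε : ℝ => (1 - ε) ^ 2 * (1 / ℓ) * (x ^ (2 * (1 + ε) + 1) - 0) /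
      (2 * (1 + ε) + 1) - K * (0 + δ * (1 / θ))) 0 := by
      (clear * - hx0'; fun_prop (disch := first | assumption | norm_num))
    exact hc.tendsto
  have hpos : 0 < (1 - 0) ^ 2 * (1 / ℓ) * (x ^ (2 * (1 + 0) + 1 : ℝ) - 0) /
      (2 * (1 + 0) + 1) - K * (0 + δ * (1 / θ)) := by
    have e : x ^ (2 * (1 + 0) + 1 : ℝ) = x ^ 3 := by
      norm_num
    rw [e]
    have hx3 : x ^ 3 = (θ - ℓ) ^ 3 / θ ^ 3 := by
      rw [hx, ← div_pow]; congr 1; (clear * - hθ0; field_simp)
    rw [hx3]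
    have : (1 - 0) ^ 2 * (1 / ℓ) * ((θ - ℓ) ^ 3 / θ ^ 3 - 0) / (2 * (1 + 0) + 1) -
        K * (0 + δ * (1 / θ)) = ((θ - ℓ) ^ 3 - 3 * K * ℓ * δ * θ ^ 2) / (3 * ℓ * θ ^ 3) := by
      field_simp
      ring
    rw [this]
    apply div_pos
    · linarith only [hcond]
    · positivity
  have hev := (hlim.eventually (lt_mem_nhds hpos)).filter_mono (nhdsWithin_le_nhds (s := Set.Ioi 0))
  have hev1 : ∀ᶠ ε : ℝ in 𝓝[>] 0, ε ∈ Set.Ioo (0 : ℝ) 1 := Ioo_mem_nhdsGT one_pos
  obtain ⟨ε, hε, hε0, hε1⟩ := (hev.and hev1).exists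
  set β := 1 + ε with hβ
  have hβ1 : 1 < β := by linarith only [hε0]
  set c1 := ℓ * (ℓ / θ + 1) with hc1
  have hc1pos : 0 < c1 := by positivity
  have hevT := (tendsto_L (ℓ := ℓ) (θ := θ) (δ := δ) (K := K) (C := C) (c1 := c1) (ε := ε) (x := x)
    hβ1).eventually (lt_mem_nhds hε)
  obtain ⟨T1, hT1⟩ := eventually_atTop.mp hevT
  obtain ⟨T2, hT2⟩ : ∃ T2 : ℝ, ∀ T, T2 ≤ T → c1 / T + ℓ / T < x := by
    have : Tendsto (fun T : ℝ => c1 / T + ℓ / T) atTop (𝓝 0) := by
      have := (tendsto_inv_atTop_zero (𝕜 := ℝ)).const_mul (c1 + ℓ)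
      rw [mul_zero] at this
      refine this.congr fun T => ?_
      rw [div_eq_mul_inv, div_eq_mul_inv]; ring
    exact eventually_atTop.mp (this.eventually (gt_mem_nhds hx0))
  refine ⟨β, ε, max (max T1 T2) (max 1 (θ * m0)), hβ1, hε0, hε1, ?_, ?_⟩
  · exact lt_of_lt_of_le one_pos ((le_max_left _ _).trans (le_max_right _ _))
  intro T hT
  have hTT1 : T1 ≤ T := ((le_max_left _ _).trans (le_max_left _ _)).trans hT
  have hTT2 : T2 ≤ T := ((le_max_right _ _).trans (le_max_left _ _)).trans hT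
  have hTone : 1 ≤ T := ((le_max_left _ _).trans (le_max_right _ _)).trans hT
  have hTm0 : θ * m0 ≤ T := ((le_max_right _ _).trans (le_max_right _ _)).trans hT
  have hT0 : 0 < T := by linarith only [hTone]
  have hL := hT1 T hTT1
  have hx2 := hT2 T hTT2
  -- block length
  set m := ⌈(T + ℓ) / θ⌉₊ with hm
  have hm1 : (T + ℓ) / θ ≤ m := Nat.le_ceil _
  have hm2 : (m : ℝ) < (T + ℓ) / θ + 1 := Nat.ceil_lt_add_one (by (clear * - hTone hℓ hθ0; positivity))
  have hmθ : T + ℓ ≤ θ * m := by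
    rw [div_le_iff₀ hθ0] at hm1; linarith only [hm1]
  have hm0m : m0 ≤ m := by
    have h1 : (m0 : ℝ) ≤ (T + ℓ) / θ := by
      rw [le_div_iff₀ hθ0]; linarith only [hℓ, hTm0]
    exact_mod_cast h1.trans hm1
  -- z 0
  have hz0 : x - c1 / T < 1 - m * ℓ / T := by
    have h1 : m * ℓ < ((T + ℓ) / θ + 1) * ℓ := by (clear * - hm2 hℓ; gcongr)
    have h2 : m * ℓ / T < ((T + ℓ) / θ + 1) * ℓ / T := by (clear * - h1 hTone; gcongr)
    have h3 : ((T + ℓ) / θ + 1) * ℓ / T = ℓ / θ + c1 / T := by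
      rw [hc1]; field_simp; ring
    rw [hx]
    linarith only [h2, h3]
  set B := ⌊T / ℓ⌋₊ with hB
  have hB1 : (B : ℝ) ≤ T / ℓ := Nat.floor_le (by positivity)
  have hB2 : T / ℓ < B + 1 := Nat.lt_floor_add_one _
  have hBl1 : B * ℓ ≤ T := by rwa [le_div_iff₀ hℓ] at hB1
  have hBl2 : T < (B + 1) * ℓ := by rwa [div_lt_iff₀ hℓ] at hB2
  have hmB : m < B := by
    have h1 : ℓ / T < 1 - m * ℓ / T := by linarith only [hx2, hz0]
    have h2 : ℓ + m * ℓ < T := by
      have : (ℓ / T) * T < (1 - m * ℓ / T) * T := by (clear * - h1 hTone; gcongr)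
      rw [div_mul_cancel₀ _ hT0.ne', sub_mul, div_mul_cancel₀ _ hT0.ne'] at this
      linarith only [this]
    have h3 : ((m : ℝ) + 1) * ℓ < (B + 1) * ℓ := by linarith only [hBl2, h2]
    have h4 : (m : ℝ) + 1 < B + 1 := lt_of_mul_lt_mul_right h3 hℓ.le
    have h5 : (m : ℝ) < B := by linarith only [h4]
    exact_mod_cast h5
  set A := B - m with hA
  have hA1 : 1 ≤ A := by omega
  have hAB : (A : ℝ) + m = B := by
    have : A + m = B := by omega
    exact_mod_cast this
  by_contra hcon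
  push Not at hcon
  set z : ℕ → ℝ := fun a => (T - (a + m) * ℓ) / T with hz
  have hzA : z A = (T - B * ℓ) / T := by
    simp only [hz]; rw [hAB]
  have hzA0 : 0 ≤ z A := by
    rw [hzA]; apply div_nonneg _ hT0.le; linarith only [hBl1]
  have hzA1 : z A ≤ ℓ / T := by
    rw [hzA]; gcongr; linarith only [hBl2]
  have hzpos : ∀ a, a < A → 0 < T - (a + m) * ℓ := by
    intro a ha
    have h1 : (a : ℝ) + 1 ≤ A := by exact_mod_cast ha
    have h2 : ((a : ℝ) + m) * ℓ ≤ (B - 1) * ℓ := by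
      gcongr; linarith only [hAB, h1]
    linarith only [hℓ, hBl1, h2]
  have hstep : ∀ a ∈ range A, (1 - ε) ^ 2 * (1 / ℓ) * T * ((z a) ^ (2 * β + 1) -
      (z (a + 1)) ^ (2 * β + 1)) / (2 * β + 1) ≤ J m (T - a * ℓ) ^ 2 := by
    intro a ha
    rw [mem_range] at ha
    have hp := hzpos a ha
    have hza : 0 < z a := div_pos hp hT0
    have hza1 : 0 ≤ z (a + 1) := by
      rcases Nat.lt_or_ge (a + 1) A with h | h
      · exact (div_pos (hzpos (a + 1) h) hT0).le
      · have : a + 1 = A := by omega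
        rw [this]; exact hzA0
    have h1 := hcon a m hp
    have h2 : ((1 - ε) * (z a) ^ β) ^ 2 ≤ J m (T - a * ℓ) ^ 2 := by
      have h3 : 0 ≤ (1 - ε) * (z a) ^ β := by
        have := rpow_nonneg hza.le β
        have h4 : 0 ≤ 1 - ε := by linarith only [hε1]
        (clear * - hε1 hp hTone; (clear * - hε1 hp hTone; positivity))
      exact pow_le_pow_left₀ h3 h1.le 2
    refine le_trans ?_ h2
    have h4 := rpow_sub_le hza hza1 (p := 2 * β + 1) (by linarith only [hε0])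
    have h5 : z a - z (a + 1) = ℓ / T := by
      simp only [hz]
      push_cast
      field_simp
      ring
    have h6 : (2 * β + 1 - 1 : ℝ) = β * 2 := by ring
    rw [h5, h6, rpow_mul hza.le, rpow_two] at h4
    have hβp : 0 < 2 * β + 1 := by linarith only [hε0]
    rw [div_le_iff₀ hβp]
    have h7 : 0 ≤ (1 - ε) ^ 2 * (1 / ℓ) * T := by (clear * - hε1 hℓ hTone; positivity)
    calc (1 - ε) ^ 2 * (1 / ℓ) * T * ((z a) ^ (2 * β + 1) - (z (a + 1)) ^ (2 * β + 1))
        ≤ (1 - ε) ^ 2 * (1 / ℓ) * T * ((2 * β + 1) * (z a ^ β) ^ 2 * (ℓ / T)) := by (clear * - h4 hε1 hℓ hTone; gcongr)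
      _ = ((1 - ε) * z a ^ β) ^ 2 * (2 * β + 1) := by
        (clear * - hℓ hTone hza hβ1 hε1; field_simp)
  have hsum := sum_le_sum hstep
  have htel : ∑ a ∈ range A, (1 - ε) ^ 2 * (1 / ℓ) * T * ((z a) ^ (2 * β + 1) -
      (z (a + 1)) ^ (2 * β + 1)) / (2 * β + 1) =
      (1 - ε) ^ 2 * (1 / ℓ) * T * ((z 0) ^ (2 * β + 1) - (z A) ^ (2 * β + 1)) / (2 * β + 1) := by
    rw [← sum_div, ← mul_sum, sum_range_sub']
  rw [htel] at hsum
  have hup := hJ m hm0m T A hmθ hA1 (by
    have h1 : ((A : ℝ) - 1) * ℓ ≤ B * ℓ := by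
      gcongr
      have : (0 : ℝ) ≤ m := Nat.cast_nonneg m
      linarith only [hAB]
    linarith only [hBl1, h1])
  have hz0v : z 0 = 1 - m * ℓ / T := by
    simp only [hz]
    push_cast
    field_simp
    ring
  have hβp : 0 < 2 * β + 1 := by linarith only [hε0]
  have hzlow : x - c1 / T ≤ z 0 := by rw [hz0v]; exact hz0.le
  have hxl : 0 ≤ x - c1 / T := by
    have : 0 < ℓ / T := by positivity
    linarith only [hx2, this]
  have h8 : (x - c1 / T) ^ (2 * β + 1) ≤ (z 0) ^ (2 * β + 1) := rpow_le_rpow hxl hzlow hβp.le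
  have h9 : (z A) ^ (2 * β + 1) ≤ (ℓ / T) ^ (2 * β + 1) := rpow_le_rpow hzA0 hzA1 hβp.le
  have h10 : (1 - ε) ^ 2 * (1 / ℓ) * T * ((x - c1 / T) ^ (2 * β + 1) - (ℓ / T) ^ (2 * β + 1)) /
      (2 * β + 1) ≤ K * (C + δ * ((T + ℓ) / θ + 1)) := by
    calc _ ≤ (1 - ε) ^ 2 * (1 / ℓ) * T * ((z 0) ^ (2 * β + 1) - (z A) ^ (2 * β + 1)) /
        (2 * β + 1) := by
          have h7 : 0 ≤ (1 - ε) ^ 2 * (1 / ℓ) * T := by (clear * - hε1 hℓ hTone; positivity)
          have h71 : (x - c1 / T) ^ (2 * β + 1) - (ℓ / T) ^ (2 * β + 1) ≤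
            (z 0) ^ (2 * β + 1) - (z A) ^ (2 * β + 1) := by linarith only [h8, h9]
          exact div_le_div_of_nonneg_right (mul_le_mul_of_nonneg_left h71 h7) hβp.le
      _ ≤ K * (C + δ * m) := hsum.trans hup
      _ ≤ _ := by (clear * - hm2 hδ hK; gcongr)
  have h11 : 0 < T * ((1 - ε) ^ 2 * (1 / ℓ) * ((x - c1 / T) ^ (2 * β + 1) -
      (ℓ / T) ^ (2 * β + 1)) / (2 * β + 1) - K * (C / T + δ * ((T + ℓ) / θ + 1) / T)) := by
    (clear * - hTone hL; positivity)
  have h12 : T * ((1 - ε) ^ 2 * (1 / ℓ) * ((x - c1 / T) ^ (2 * β + 1) -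
      (ℓ / T) ^ (2 * β + 1)) / (2 * β + 1) - K * (C / T + δ * ((T + ℓ) / θ + 1) / T)) =
      (1 - ε) ^ 2 * (1 / ℓ) * T * ((x - c1 / T) ^ (2 * β + 1) - (ℓ / T) ^ (2 * β + 1)) /
      (2 * β + 1) - K * (C + δ * ((T + ℓ) / θ + 1)) := by
    (clear * - hTone hθ0 hβ1 hℓ; field_simp)
  rw [h12] at h11
  linarith only [h10, h11]

end Vale.Agent.P105
end
end

section

section

open MeasureTheory Real Filter Topology
open scoped ENNReal

namespace Vale.Agent.P105

section
variable {μ : Measure ℝ} [IsProbabilityMeasure μ] {R : ℝ}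

/-- Gibbs' inequality against the standard Gaussian -/
lemma ent_le (hR : ∀ᵐ t ∂μ, |t| ≤ R) {v : ℝ} (hv : 0 < v) (hv1 : v ≤ 1) :
    ent μ v ≤ log (√(2 * π)) + 1 + R ^ 2 := by
  have hlogG : ∀ x, log (G 1 x) = -(log (√(2 * π)) + x ^ 2 / 2) := by
    intro x
    unfold G
    rw [mul_one, mul_one, log_mul (by positivity) (exp_pos _).ne', log_exp, log_inv]
    ring
  have i1 := integrable_mul_log hR hv
  have i2 := (integrable_sm_G (μ := μ) hv).const_mul (log (√(2 * π)))
  have i3 := (integrable_sq_mul_sm hR hv).const_mul (1 / 2)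
  have i4 := integrable_sm_G (μ := μ) hv
  have i5 := integrable_G one_pos
  rw [ent_eq, ← integral_neg]
  have hle : ∫ x, -(sm μ (G v) x * log (sm μ (G v) x)) ≤
      ∫ x, ((((fun x : ℝ => log (√(2 * π)) * sm μ (G v) x) +
        fun x : ℝ => 1 / 2 * (x ^ 2 * sm μ (G v) x)) - sm μ (G v)) + G 1 : ℝ → ℝ) x := by
    apply integral_mono i1.neg (((i2.add i3).sub i4).add i5)
    intro x
    have h := kl_nonneg (sm_G_pos hR hv x) (G_pos one_pos x)
    rw [hlogG] at h
    simp only [Pi.add_apply, Pi.sub_apply, Pi.neg_apply]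
    linarith only [h]
  refine hle.trans ?_
  rw [integral_add' ((i2.add i3).sub i4) i5, integral_sub' (i2.add i3) i4, integral_add' i2 i3,
    integral_const_mul, integral_const_mul, integral_sm_G hv, integral_G one_pos]
  have := integral_sq_mul_sm_le hR hv
  linarith only [hv1, this]

lemma ent_mono (hR : ∀ᵐ t ∂μ, |t| ≤ R) {v v' : ℝ} (hv : 0 < v) (h : v ≤ v') :
    ent μ v ≤ ent μ v' := by
  rcases h.eq_or_lt with h | h
  · rw [h]
  · have := (ent_step hR hv (sub_pos.mpr h)).1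
    rwa [add_sub_cancel] at this

end

lemma Jr_sq_le {μ : ℕ → Measure ℝ} [∀ n, IsProbabilityMeasure (μ n)] {R : ℝ}
    (hR : ∀ n, ∀ᵐ t ∂(μ n), |t| ≤ R) {ℓ : ℝ} (hℓ : 0 < ℓ) (m : ℕ) (T : ℝ) :
    Jr μ m T ^ 2 ≤ 2 * exp 1 / (1 - exp (-2 * ℓ)) *
      (ent (μ m) (exp (-2 * T)) - ent (μ m) (exp (-2 * (T + ℓ)))) := by
  have hE : exp (-2 * ℓ) < 1 := by
    exact exp_lt_one_iff.mpr (by linarith)
  have hw : 0 < exp (-2 * T) * (1 - exp (-2 * ℓ)) := mul_pos (exp_pos _) (by linarith)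
  have hsum : exp (-2 * (T + ℓ)) + exp (-2 * T) * (1 - exp (-2 * ℓ)) = exp (-2 * T) := by
    have : exp (-2 * (T + ℓ)) = exp (-2 * T) * exp (-2 * ℓ) := by
      rw [← exp_add]; congr 1; ring
    rw [this]; ring
  have h := (ent_step (hR m) (exp_pos (-2 * (T + ℓ))) hw).2
  rw [hsum] at h
  unfold Jr rn
  rw [Gd_one, mul_pow]
  have e1 : exp (1 / 2 - T) ^ 2 = exp 1 * exp (-2 * T) := by
    rw [← exp_nat_mul, ← exp_add]; congr 1; push_cast; ring
  rw [e1]
  calc exp 1 * exp (-2 * T) * (nrm (μ m) (G1 (exp (-2 * T)))).toReal ^ 2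
      ≤ exp 1 * exp (-2 * T) * (2 / (exp (-2 * T) * (1 - exp (-2 * ℓ))) *
        (ent (μ m) (exp (-2 * T)) - ent (μ m) (exp (-2 * (T + ℓ))))) := by gcongr
    _ = _ := by
      have h1 : exp (-2 * T) ≠ 0 := (exp_pos _).ne'
      have h2 : 1 - exp (-2 * ℓ) ≠ 0 := by linarith only [hE]
      (clear * -; field_simp)

lemma Jr_sum_le {μ : ℕ → Measure ℝ} [∀ n, IsProbabilityMeasure (μ n)] {R : ℝ}
    (hR : ∀ n, ∀ᵐ t ∂(μ n), |t| ≤ R) {ℓ θ δ : ℝ} (hℓ : 0 < ℓ) {m : ℕ}
    (hm : -(δ * m) ≤ ent (μ m) (exp (-2 * θ * m))) {T : ℝ} {A : ℕ} (hT : T + ℓ ≤ θ * m)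
    (hA2 : 0 ≤ T - (A - 1) * ℓ) :
    ∑ a ∈ Finset.range A, Jr μ m (T - a * ℓ) ^ 2 ≤
      2 * exp 1 / (1 - exp (-2 * ℓ)) * ((log (√(2 * π)) + 1 + R ^ 2) + δ * m) := by
  have hE : exp (-2 * ℓ) < 1 := by
    exact exp_lt_one_iff.mpr (by linarith only [hℓ])
  set K := 2 * exp 1 / (1 - exp (-2 * ℓ)) with hK
  have hK0 : 0 < K := by
    have : 0 < 1 - exp (-2 * ℓ) := by linarith only [hE]
    (clear * - hE; positivity)
  set F : ℕ → ℝ := fun a => ent (μ m) (exp (-2 * (T - (a - 1) * ℓ))) with hF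
  have hstep : ∀ a ∈ Finset.range A, Jr μ m (T - a * ℓ) ^ 2 ≤ K * (F (a + 1) - F a) := by
    intro a _
    have h := Jr_sq_le hR hℓ m (T - a * ℓ)
    refine h.trans (le_of_eq ?_)
    simp only [hF]
    push_cast
    congr 4
    · congr 1; ring
    · congr 1; ring
  refine (Finset.sum_le_sum hstep).trans ?_
  rw [← Finset.mul_sum, Finset.sum_range_sub]
  apply mul_le_mul_of_nonneg_left _ hK0.le
  have h1 : F A ≤ log (√(2 * π)) + 1 + R ^ 2 := by
    apply ent_le (hR m) (exp_pos _)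
    apply exp_le_one_iff.mpr
    linarith only [hA2]
  have h2 : -(δ * m) ≤ F 0 := by
    refine hm.trans ?_
    apply ent_mono (hR m) (exp_pos _)
    apply exp_le_exp.mpr
    push_cast
    linarith only [hT]
  linarith only [h1, h2]

lemma log_le_sub_one' {x : ℝ} (hx : 0 < x) : log x ≤ x - 1 := log_le_sub_one_of_pos hx

lemma mul_factorial_le (j : ℕ) (hj : 1 ≤ j) : (j : ℝ) * j.factorial ≤ exp (j ^ 2) := by
  have hj0 : (0 : ℝ) < j := by exact_mod_cast hj
  have h1 : (j.factorial : ℝ) ≤ j ^ j := by exact_mod_cast Nat.factorial_le_pow j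
  calc (j : ℝ) * j.factorial ≤ j * j ^ j := by gcongr
    _ = exp (((j : ℝ) + 1) * log j) := by
        rw [← pow_succ', ← exp_log hj0, ← exp_nat_mul, log_exp]
        congr 1
        push_cast
        rw [exp_log hj0]
    _ ≤ exp (((j : ℝ) + 1) * (j - 1)) := by
        apply exp_le_exp.mpr
        have := log_le_sub_one' hj0
        gcongr
    _ ≤ exp (j ^ 2) := by
        apply exp_le_exp.mpr
        linarith only []

/-- asymptotic estimate for the error term -/
lemma error_bound {β ε Tm : ℝ} (hβ : 1 < β) (hε : 0 < ε) (hε1 : ε < 1) (hTm : 0 < Tm) :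
    ∃ (j : ℕ → ℕ) (b : ℕ → ℝ) (m0 : ℕ), 1 ≤ m0 ∧ (∀ m, 1 ≤ m → 1 ≤ j m) ∧ (∀ m, 0 ≤ b m) ∧
      Summable b ∧ ∀ m, m0 ≤ m → 2 * exp 1 * (j m) ^ 2 * ((Tm / (m / 2)) ^ β +
        (1 - ε) ^ (2 * (j m) - 1)) + (j m) * (j m).factorial * exp (-2 * (m - m / 2 : ℝ)) ≤ b m := by
  set γ := min (1 / 4) ((β - 1) / 4) with hγ
  have hγ0 : 0 < γ := lt_min (by norm_num1) (by linarith only [hβ])
  have hγ1 : γ ≤ 1 / 4 := min_le_left _ _
  have hγ2 : γ ≤ (β - 1) / 4 := min_le_right _ _
  set c := -log (1 - ε) with hc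
  have h1ε : 0 < 1 - ε := by linarith only [hε1]
  have hc0 : 0 < c := by
    rw [hc]; have := log_neg h1ε (by linarith only [hε] : 1 - ε < 1); linarith only [this]
  -- the exponential term
  have hlim : Tendsto (fun m : ℕ => ((m : ℝ) ^ γ) ^ ((2 * γ + 2) / γ) * exp (-c * (m : ℝ) ^ γ)) atTop
      (𝓝 0) := by
    have h1 := tendsto_rpow_mul_exp_neg_mul_atTop_nhds_zero ((2 * γ + 2) / γ) c hc0
    have h2 : Tendsto (fun m : ℕ => (m : ℝ) ^ γ) atTop atTop :=
      (tendsto_rpow_atTop hγ0).comp tendsto_natCast_atTop_atTop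
    exact h1.comp h2
  have hev := hlim.eventually (gt_mem_nhds one_pos)
  obtain ⟨m1, hm1⟩ := eventually_atTop.mp hev
  refine ⟨fun m => ⌈(m : ℝ) ^ γ⌉₊, fun m => 8 * exp 1 * (2 * Tm) ^ β * (m : ℝ) ^ (2 * γ - β) +
    8 * exp 1 * (m : ℝ) ^ (-2 : ℝ) + exp 8 * exp (-(m / 2 : ℝ)), max 1 m1, le_max_left _ _, ?_, ?_, ?_, ?_⟩
  · intro m hm
    have : (0 : ℝ) < (m : ℝ) ^ γ := rpow_pos_of_pos (by exact_mod_cast hm) _
    exact Nat.one_le_iff_ne_zero.mpr (Nat.ceil_pos.mpr this).ne'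
  · intro m
    have h1 : 0 ≤ (m : ℝ) ^ (2 * γ - β) := rpow_nonneg (Nat.cast_nonneg m) _
    have h2 : 0 ≤ (m : ℝ) ^ (-2 : ℝ) := rpow_nonneg (Nat.cast_nonneg m) _
    have h3 : 0 ≤ (2 * Tm) ^ β := rpow_nonneg (by positivity) _
    (clear * - hTm; (clear * - hTm; positivity))
  · apply Summable.add
    · apply Summable.add
      · apply Summable.mul_left
        apply summable_nat_rpow.mpr
        linarith only [hγ0, hγ2]
      · apply Summable.mul_left
        apply summable_nat_rpow.mpr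
        norm_num
    · apply Summable.mul_left
      have h1 : (fun m : ℕ => exp (-(m / 2 : ℝ))) = fun m : ℕ => (exp (-(1 / 2))) ^ m := by
        ext m
        rw [← exp_nat_mul]
        congr 1
        ring
      rw [h1]
      apply summable_geometric_of_lt_one (exp_pos _).le
      exact exp_lt_one_iff.mpr (by norm_num)
  · intro m hm
    have hm1' : 1 ≤ m := (le_max_left _ _).trans hm
    have hm2 : m1 ≤ m := (le_max_right _ _).trans hm
    have hmR : (1 : ℝ) ≤ m := by exact_mod_cast hm1'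
    have hm0 : (0 : ℝ) < m := by linarith only [hmR]
    set J := ⌈(m : ℝ) ^ γ⌉₊ with hJ
    have hmγ : 1 ≤ (m : ℝ) ^ γ := one_le_rpow hmR hγ0.le
    have hJ1 : (m : ℝ) ^ γ ≤ J := Nat.le_ceil _
    have hJ2 : (J : ℝ) ≤ 2 * (m : ℝ) ^ γ := by
      have := Nat.ceil_lt_add_one (a := (m : ℝ) ^ γ) (by linarith only [hmγ])
      rw [← hJ] at this
      linarith only [hmγ, this]
    have hJpos : 1 ≤ J := by
      have : (1 : ℝ) ≤ J := hmγ.trans hJ1
      exact_mod_cast this
    have hJsq : (J : ℝ) ^ 2 ≤ 4 * (m : ℝ) ^ (2 * γ) := by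
      have e : (m : ℝ) ^ (2 * γ) = ((m : ℝ) ^ γ) ^ 2 := by
        rw [mul_comm, rpow_mul hm0.le, rpow_two]
      rw [e]
      calc (J : ℝ) ^ 2 ≤ (2 * (m : ℝ) ^ γ) ^ 2 := by (clear * - hm1' hJ2; gcongr)
        _ = _ := by ring
    have hTmβ : 0 ≤ (2 * Tm) ^ β := rpow_nonneg (by positivity) _
    -- term 1
    have t1 : (J : ℝ) ^ 2 * (Tm / (m / 2)) ^ β ≤ 4 * ((2 * Tm) ^ β * (m : ℝ) ^ (2 * γ - β)) := by
      have e1 : (Tm / (m / 2) : ℝ) = (2 * Tm) / m := by (clear * - hm1' hTm; field_simp)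
      rw [e1, div_rpow (by positivity) hm0.le, rpow_sub hm0]
      calc (J : ℝ) ^ 2 * ((2 * Tm) ^ β / (m : ℝ) ^ β)
          ≤ (4 * (m : ℝ) ^ (2 * γ)) * ((2 * Tm) ^ β / (m : ℝ) ^ β) := by (clear * - hJsq hTm hm1'; gcongr)
        _ = _ := by ring
    -- term 2
    have t2 : (J : ℝ) ^ 2 * (1 - ε) ^ (2 * J - 1) ≤ 4 * (m : ℝ) ^ (-2 : ℝ) := by
      have h1 : (1 - ε) ^ (2 * J - 1) ≤ (1 - ε) ^ J :=
        pow_le_pow_of_le_one h1ε.le (by linarith only [hε]) (by omega)
      have h2 : (1 - ε) ^ J ≤ exp (-c * (m : ℝ) ^ γ) := by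
        rw [← exp_log h1ε, ← exp_nat_mul]
        apply exp_le_exp.mpr
        have : log (1 - ε) = -c := by rw [hc]; ring
        rw [this]
        nlinarith only [hc0, hJ1]
      have h3 := hm1 m hm2
      have h4 : ((m : ℝ) ^ γ) ^ ((2 * γ + 2) / γ) = (m : ℝ) ^ (2 * γ) * (m : ℝ) ^ (2 : ℝ) := by
        rw [← rpow_mul hm0.le, ← rpow_add hm0]
        congr 1
        (clear * - hγ0; field_simp)
      rw [h4] at h3
      have h5 : (m : ℝ) ^ (2 * γ) * exp (-c * (m : ℝ) ^ γ) ≤ (m : ℝ) ^ (-2 : ℝ) := by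
        rw [rpow_neg hm0.le, ← one_div, le_div_iff₀ (rpow_pos_of_pos hm0 _)]
        linarith only [h3]
      calc (J : ℝ) ^ 2 * (1 - ε) ^ (2 * J - 1) ≤ (4 * (m : ℝ) ^ (2 * γ)) * exp (-c * (m : ℝ) ^ γ) := by
            gcongr
            exact h1.trans h2
        _ = 4 * ((m : ℝ) ^ (2 * γ) * exp (-c * (m : ℝ) ^ γ)) := by ring
        _ ≤ _ := by (clear * - h5; gcongr)
    -- term 3
    have t3 : (J : ℝ) * J.factorial * exp (-2 * (m - m / 2 : ℝ)) ≤ exp 8 * exp (-(m / 2 : ℝ)) := by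
      have h1 := mul_factorial_le J hJpos
      have h2 : (J : ℝ) ^ 2 ≤ 8 + m / 2 := by
        have h3 : (m : ℝ) ^ (2 * γ) ≤ √m := by
          rw [sqrt_eq_rpow]
          apply rpow_le_rpow_of_exponent_le hmR
          linarith only [hγ1]
        have h4 : √(m : ℝ) ^ 2 = m := Real.sq_sqrt hm0.le
        have h5 := sq_nonneg (√(m : ℝ) - 4)
        linarith
      calc (J : ℝ) * J.factorial * exp (-2 * (m - m / 2 : ℝ))
          ≤ exp (8 + m / 2) * exp (-2 * (m - m / 2 : ℝ)) := by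
            gcongr
            exact h1.trans (exp_le_exp.mpr h2)
        _ = _ := by
            rw [← exp_add, ← exp_add]
            congr 1
            ring
    have he : 0 < exp 1 := exp_pos 1
    calc 2 * exp 1 * (J : ℝ) ^ 2 * ((Tm / (m / 2)) ^ β + (1 - ε) ^ (2 * J - 1)) +
        J * J.factorial * exp (-2 * (m - m / 2 : ℝ))
        = 2 * exp 1 * ((J : ℝ) ^ 2 * (Tm / (m / 2)) ^ β) +
          2 * exp 1 * ((J : ℝ) ^ 2 * (1 - ε) ^ (2 * J - 1)) +
            J * J.factorial * exp (-2 * (m - m / 2 : ℝ)) := by ring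
      _ ≤ 2 * exp 1 * (4 * ((2 * Tm) ^ β * (m : ℝ) ^ (2 * γ - β))) +
          2 * exp 1 * (4 * (m : ℝ) ^ (-2 : ℝ)) + exp 8 * exp (-(m / 2 : ℝ)) := by (clear * - t1 t2 t3; gcongr)
      _ = _ := by ring

/-- **Core theorem.** -/
theorem core {lam : ℝ} (h0 : 0 < lam) (h1 : lam < 1) {ν : Measure ℝ} [IsProbabilityMeasure ν]
    {μ : ℕ → Measure ℝ} [∀ n, IsProbabilityMeasure (μ n)] {R : ℝ}
    (hR : ∀ n, ∀ᵐ t ∂(μ n), |t| ≤ R) (hself : ∀ n, ν = μ n ∗ ν.map (lam ^ n * ·))
    {θ δ : ℝ} (hθ : -log lam < θ) (hδ : 0 ≤ δ)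
    (hcond : 6 * exp 1 * (-log lam) * δ * θ ^ 2 < (1 - lam ^ 2) * (θ + log lam) ^ 3)
    (hH : ∀ᶠ n : ℕ in atTop, -(δ * n) ≤ ent (μ n) (exp (-2 * θ * n))) : ν ≪ volume := by
  set ℓ := -log lam with hℓdef
  have hℓ : 0 < ℓ := by
    have := log_neg h0 h1
    linarith only [this]
  have hlam : lam = exp (-ℓ) := by rw [hℓdef, neg_neg, exp_log h0]
  have hlam2 : lam ^ 2 = exp (-2 * ℓ) := by
    rw [hlam, ← exp_nat_mul]; congr 1; push_cast; ring
  have hE : exp (-2 * ℓ) < 1 := by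
    exact exp_lt_one_iff.mpr (by linarith only [hℓ])
  have hself' : ∀ n, ν = μ n ∗ ν.map (exp (-ℓ) ^ n * ·) := by
    intro n; rw [← hlam]; exact hself n
  obtain ⟨m0, hm0⟩ := eventually_atTop.mp hH
  set K := 2 * exp 1 / (1 - exp (-2 * ℓ)) with hK
  have hd : 0 < 1 - exp (-2 * ℓ) := by linarith only [hE]
  have hK0 : 0 < K := by (clear * - hE; positivity)
  have hcond' : 3 * K * ℓ * δ * θ ^ 2 < (θ - ℓ) ^ 3 := by
    rw [hlam2] at hcond
    have e : θ + log lam = θ - ℓ := by rw [hℓdef]; ring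
    rw [e] at hcond
    rw [hK]
    have : 3 * (2 * exp 1 / (1 - exp (-2 * ℓ))) * ℓ * δ * θ ^ 2 =
        (6 * exp 1 * ℓ * δ * θ ^ 2) / (1 - exp (-2 * ℓ)) := by ring
    rw [this, div_lt_iff₀ hd]
    linarith only [hcond]
  obtain ⟨β, ε, Tm, hβ, hε, hε1, hTm, hsel⟩ := select (K := K) (C := log (√(2 * π)) + 1 + R ^ 2)
    hℓ hθ hδ hK0 hcond' (J := Jr μ) (m0 := m0)
    (fun m hm T A hT _ hA2 => Jr_sum_le hR hℓ (hm0 m hm) hT hA2)
  obtain ⟨j, b, m1, hm1, hj, hb, hsum, hbound⟩ := error_bound hβ hε hε1 hTm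
  set y : ℕ → ℝ := fun m => exp (-2 * m) with hy
  have hypos : ∀ m, 0 < y m := fun m => exp_pos _
  have hylim : Tendsto y atTop (𝓝 0) := by
    have h2 : Tendsto (fun m : ℕ => (-2 : ℝ) * m) atTop atBot :=
      tendsto_natCast_atTop_atTop.const_mul_atTop_of_neg (by norm_num)
    exact tendsto_exp_atBot.comp h2
  refine ac_of_summable hypos hylim (b := fun m => exp 2 * b m)
    (fun m => mul_nonneg (exp_pos _).le (hb m)) (hsum.mul_left _) (m0 := m1) ?_
  intro m hm
  have hmpos : 1 ≤ m := hm1.trans hm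
  have hmR : (1 : ℝ) ≤ m := by exact_mod_cast hmpos
  have hyy : y (m + 1) ≤ y m := by
    simp only [hy]
    apply exp_le_exp.mpr
    push_cast
    linarith only []
  refine (nrm_sub_G (hypos (m + 1)) hyy).trans ?_
  have hle : ∀ s, y (m + 1) < s → s ≤ y m → ENNReal.ofReal (1 / 2) * nrm ν (G2 s) ≤
      ENNReal.ofReal (b m * (y (m + 1))⁻¹) := by
    intro s hs1 hs2
    have hs : 0 < s := (hypos _).trans hs1
    have e1 := ofReal_Ad (ν := ν) hs 1
    rw [pow_one, mul_one, Gd_two] at e1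
    rw [← e1]
    apply ENNReal.ofReal_le_ofReal
    set t0 := -(1 / 2) * log s with ht0
    have hst : s = exp (-2 * t0) := by
      rw [ht0, show -2 * (-(1 / 2) * log s) = log s by ring, exp_log hs]
    have ht0m : (m : ℝ) ≤ t0 := by
      have : log s ≤ -2 * m := by
        rw [← log_exp (-2 * (m : ℝ))]
        exact log_le_log hs hs2
      rw [ht0]; linarith only [this]
    have hA := Ad_one_le (ν := ν) hℓ hself' hβ hε hε1 hTm hsel (t0 := t0) (t1 := m / 2)
      (by (clear * - hmpos; positivity)) (by linarith only [ht0m]) (hj m hmpos)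
    rw [← hst] at hA
    have hB := hbound m hm
    have h5 : exp (-2 * (t0 - m / 2)) ≤ exp (-2 * (m - m / 2 : ℝ)) := by
      apply exp_le_exp.mpr; linarith only [ht0m]
    have h6 : s * Ad ν 1 s ≤ b m := by
      refine hA.trans (le_trans ?_ hB)
      (clear * - h5; gcongr)
    have h7 : Ad ν 1 s ≤ b m * s⁻¹ := by
      rw [← div_eq_mul_inv, le_div_iff₀ hs]; linarith only [h6]
    refine h7.trans ?_
    have := hb m
    have hyp := hypos (m + 1)
    (clear * - hs1 this; gcongr)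
  calc ∫⁻ s in Set.Ioc (y (m + 1)) (y m), ENNReal.ofReal (1 / 2) * nrm ν (G2 s)
      ≤ ∫⁻ _s in Set.Ioc (y (m + 1)) (y m), ENNReal.ofReal (b m * (y (m + 1))⁻¹) :=
        setLIntegral_mono' measurableSet_Ioc fun s hs => hle s hs.1 hs.2
    _ = ENNReal.ofReal (b m * (y (m + 1))⁻¹) * ENNReal.ofReal (y m - y (m + 1)) := by
        rw [setLIntegral_const, Real.volume_Ioc]
    _ ≤ ENNReal.ofReal (b m * (y (m + 1))⁻¹) * ENNReal.ofReal (y m) := by
        gcongr
        have := hypos (m + 1)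
        linarith only [this]
    _ = ENNReal.ofReal (exp 2 * b m) := by
        rw [← ENNReal.ofReal_mul (by have := hb m; have := hypos (m + 1); (clear lam h0 h1 R hR hself θ δ hδ hH ℓ hθ hcond hℓdef hℓ hlam hlam2 hE hself' m0 hm0 K hK hd hK0 hcond' β ε Tm hβ hε hε1 hTm hsel j m1 hm1 hj hsum hbound hy hypos hylim hm hmpos hmR hyy hle this; positivity))]
        congr 1
        simp only [hy]
        rw [← exp_neg, mul_assoc, ← exp_add, mul_comm]
        congr 2
        push_cast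
        ring

end Vale.Agent.P105
end
end

section

section

open MeasureTheory Real Filter Topology
open scoped ENNReal

namespace Vale.Agent.P105

section
variable {ν : Measure ℝ} [IsProbabilityMeasure ν]

/-- final bound for the first variance derivative, from a bound on the details -/
lemma Ad_one_le' {t0 t1 : ℝ} (ht : t1 ≤ t0) {j : ℕ} (hj : 1 ≤ j) {X : ℝ}
    (hX0 : 0 ≤ X)
    (hτ : ∀ T, t1 ≤ T → T ≤ t0 + j → Tau ν (2 * j) T ≤ exp 1 * ((2 * j : ℕ) : ℝ) * X) :
    exp (-2 * t0) * Ad ν 1 (exp (-2 * t0)) ≤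
      2 * exp 1 * j ^ 2 * X + j * j.factorial * exp (-2 * (t0 - t1)) := by
  have hj0 : (0 : ℝ) < j := by exact_mod_cast hj
  have hj1 : (1 : ℝ) ≤ j := by exact_mod_cast hj
  set y0 := exp (-2 * t0) with hy0
  set y1 := exp (-2 * t1) with hy1
  have hy0p : 0 < y0 := exp_pos _
  have hy1p : 0 < y1 := exp_pos _
  have hy01 : y0 ≤ y1 := exp_le_exp.mpr (by linarith only [ht])
  have hA : ∀ s, y0 ≤ s → s ≤ y1 →
      Ad ν j s ≤ (2 * exp 1 * j ^ 2 * X) * (j - 1).factorial * (s ^ j)⁻¹ := by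
    intro s hs0 hs1
    have hs : 0 < s := hy0p.trans_le hs0
    rw [Ad_eq_tau hs hj]
    set T := -(1 / 2) * log (s / (2 * j)) with hT
    have hTt : t1 ≤ T := by
      have h1 : log (s / (2 * j)) ≤ -2 * t1 := by
        rw [← log_exp (-2 * t1)]
        apply log_le_log (by (clear * - hs hj; positivity))
        rw [div_le_iff₀ (by positivity)]
        calc s ≤ y1 := hs1
          _ = y1 * 1 := (mul_one _).symm
          _ ≤ y1 * (2 * j) := by gcongr; linarith only [hj1]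
      rw [hT]; linarith only [h1]
    have hTt2 : T ≤ t0 + j := by
      have h1 : -2 * t0 - log (2 * j) ≤ log (s / (2 * j)) := by
        rw [log_div hs.ne' (by positivity)]
        have : -2 * t0 ≤ log s := by
          rw [← log_exp (-2 * t0)]
          exact log_le_log hy0p hs0
        linarith only [this]
      have h2 : log (2 * j) ≤ 2 * j - 1 := log_le_sub_one_of_pos (by positivity)
      rw [hT]; linarith only [h1, h2]
    have h2 := hτ T hTt hTt2
    calc (j / exp 1) ^ j * (s ^ j)⁻¹ * Tau ν (2 * j) T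
        ≤ (j * (j - 1).factorial) * (s ^ j)⁻¹ * (exp 1 * ((2 * j : ℕ) : ℝ) * X) := by
          gcongr
          · exact tau_nonneg _ _ _
          · exact pow_div_exp_le j hj
      _ = _ := by push_cast; ring
  have hch := Ad_chain (ν := ν) hy0p (by (clear * - hj hX0; (clear * - hj hX0; positivity))) hj hA (j - 1) (by omega) y0 le_rfl hy01
  have e1 : j - (j - 1) = 1 := by omega
  rw [e1] at hch
  simp only [Nat.sub_self, Nat.factorial_zero, Nat.cast_one, mul_one, pow_one] at hch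
  have h5 := mul_le_mul_of_nonneg_left hch hy0p.le
  refine h5.trans ?_
  rw [mul_add]
  have e2 : y0 * (2 * exp 1 * j ^ 2 * X * y0⁻¹) = 2 * exp 1 * j ^ 2 * X := by (clear * - hy0p hj; field_simp)
  have e3 : y0 * (((j - 1 : ℕ) : ℝ) * j.factorial * y1⁻¹) =
      ((j - 1 : ℕ) : ℝ) * j.factorial * exp (-2 * (t0 - t1)) := by
    rw [hy0, hy1, ← exp_neg]
    have : exp (-2 * t0) * exp (-(-2 * t1)) = exp (-2 * (t0 - t1)) := by
      rw [← exp_add]; congr 1; ring
    rw [← this]; ring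
  rw [e2, e3]
  have h6 : ((j - 1 : ℕ) : ℝ) ≤ j := by exact_mod_cast Nat.sub_le j 1
  (clear * - h6; gcongr)

end

/-- asymptotic estimate for the error term -/
lemma error_bound2 {β C : ℝ} (hβ : 1 < β) (hC : 0 ≤ C) :
    ∃ (γ : ℝ) (b : ℕ → ℝ), 0 < γ ∧ γ ≤ 1 / 4 ∧ (∀ m, 0 ≤ b m) ∧
      Summable b ∧ ∀ m : ℕ, 1 ≤ m → 2 * exp 1 * (⌈(m : ℝ) ^ γ⌉₊ : ℝ) ^ 2 * (C * (m / 2 : ℝ) ^ (-β)) +
        (⌈(m : ℝ) ^ γ⌉₊ : ℝ) * (⌈(m : ℝ) ^ γ⌉₊).factorial * exp (-2 * (m - m / 2 : ℝ)) ≤ b m := by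
  set γ := min (1 / 4) ((β - 1) / 4) with hγ
  have hγ0 : 0 < γ := lt_min (by norm_num) (by linarith only [hβ])
  have hγ1 : γ ≤ 1 / 4 := min_le_left _ _
  have hγ2 : γ ≤ (β - 1) / 4 := min_le_right _ _
  refine ⟨γ, fun m => 8 * exp 1 * (C * 2 ^ β) * (m : ℝ) ^ (2 * γ - β) +
    exp 8 * exp (-(m / 2 : ℝ)), hγ0, hγ1, ?_, ?_, ?_⟩
  · intro m
    have h1 : 0 ≤ (m : ℝ) ^ (2 * γ - β) := rpow_nonneg (Nat.cast_nonneg m) _
    have h3 : 0 ≤ (2 : ℝ) ^ β := rpow_nonneg (by positivity) _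
    (clear * - hC; (clear * - hC; positivity))
  · apply Summable.add
    · apply Summable.mul_left
      apply summable_nat_rpow.mpr
      linarith only [hγ0, hγ2]
    · apply Summable.mul_left
      have h1 : (fun m : ℕ => exp (-(m / 2 : ℝ))) = fun m : ℕ => (exp (-(1 / 2))) ^ m := by
        ext m
        rw [← exp_nat_mul]
        congr 1
        ring
      rw [h1]
      apply summable_geometric_of_lt_one (exp_pos _).le
      exact exp_lt_one_iff.mpr (by norm_num1)
  · intro m hm1'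
    have hmR : (1 : ℝ) ≤ m := by exact_mod_cast hm1'
    have hm0 : (0 : ℝ) < m := by linarith only [hmR]
    set J := ⌈(m : ℝ) ^ γ⌉₊ with hJ
    have hmγ : 1 ≤ (m : ℝ) ^ γ := one_le_rpow hmR hγ0.le
    have hJ1 : (m : ℝ) ^ γ ≤ J := Nat.le_ceil _
    have hJ2 : (J : ℝ) ≤ 2 * (m : ℝ) ^ γ := by
      have := Nat.ceil_lt_add_one (a := (m : ℝ) ^ γ) (by linarith only [hmγ])
      rw [← hJ] at this
      linarith only [hmγ, this]
    have hJpos : 1 ≤ J := by
      have : (1 : ℝ) ≤ J := hmγ.trans hJ1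
      exact_mod_cast this
    have hJsq : (J : ℝ) ^ 2 ≤ 4 * (m : ℝ) ^ (2 * γ) := by
      have e : (m : ℝ) ^ (2 * γ) = ((m : ℝ) ^ γ) ^ 2 := by
        rw [mul_comm, rpow_mul hm0.le, rpow_two]
      rw [e]
      calc (J : ℝ) ^ 2 ≤ (2 * (m : ℝ) ^ γ) ^ 2 := by (clear * - hm1' hJ2; gcongr)
        _ = _ := by ring
    -- term 1
    have t1 : (J : ℝ) ^ 2 * (C * (m / 2 : ℝ) ^ (-β)) ≤ 4 * (C * 2 ^ β * (m : ℝ) ^ (2 * γ - β)) := by
      have e1 : (m / 2 : ℝ) ^ (-β) = 2 ^ β / (m : ℝ) ^ β := by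
        rw [rpow_neg (by (clear * - hm1'; positivity)), div_rpow hm0.le (by norm_num), inv_div]
      have h2 : (0 : ℝ) < 2 ^ β := by positivity
      rw [e1, rpow_sub hm0]
      calc (J : ℝ) ^ 2 * (C * (2 ^ β / (m : ℝ) ^ β))
          ≤ (4 * (m : ℝ) ^ (2 * γ)) * (C * (2 ^ β / (m : ℝ) ^ β)) := by (clear * - hJsq hC hm1'; gcongr)
        _ = _ := by ring
    -- term 3
    have t3 : (J : ℝ) * J.factorial * exp (-2 * (m - m / 2 : ℝ)) ≤ exp 8 * exp (-(m / 2 : ℝ)) := by
      have h1 := mul_factorial_le J hJpos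
      have h2 : (J : ℝ) ^ 2 ≤ 8 + m / 2 := by
        have h3 : (m : ℝ) ^ (2 * γ) ≤ √m := by
          rw [sqrt_eq_rpow]
          apply rpow_le_rpow_of_exponent_le hmR
          linarith only [hγ1]
        have h4 : √(m : ℝ) ^ 2 = m := Real.sq_sqrt hm0.le
        have h5 := sq_nonneg (√(m : ℝ) - 4)
        linarith
      calc (J : ℝ) * J.factorial * exp (-2 * (m - m / 2 : ℝ))
          ≤ exp (8 + m / 2) * exp (-2 * (m - m / 2 : ℝ)) := by
            gcongr
            exact h1.trans (exp_le_exp.mpr h2)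
        _ = _ := by
            rw [← exp_add, ← exp_add]
            congr 1
            ring
    have he : 0 < exp 1 := exp_pos 1
    calc 2 * exp 1 * (J : ℝ) ^ 2 * (C * (m / 2 : ℝ) ^ (-β)) +
        J * J.factorial * exp (-2 * (m - m / 2 : ℝ))
        = 2 * exp 1 * ((J : ℝ) ^ 2 * (C * (m / 2 : ℝ) ^ (-β))) +
            J * J.factorial * exp (-2 * (m - m / 2 : ℝ)) := by ring
      _ ≤ 2 * exp 1 * (4 * (C * 2 ^ β * (m : ℝ) ^ (2 * γ - β))) + exp 8 * exp (-(m / 2 : ℝ)) := by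
          (clear * - t1 t3; gcongr)
      _ = _ := by ring

/-- **Absolute continuity from decay of the details.** -/
theorem ac_of_tau {ν : Measure ℝ} [IsProbabilityMeasure ν] {β C T0 c1 c2 : ℝ} (hβ : 1 < β)
    (hC : 0 ≤ C) (hτ : ∀ T, T0 ≤ T → ∀ n : ℕ, c1 * log T + c2 ≤ n →
      Tau ν n T ≤ exp 1 * n * (C * T ^ (-β))) : ν ≪ volume := by
  obtain ⟨γ, b, hγ0, hγ1, hb, hsum, hbound⟩ := error_bound2 hβ hC
  -- growth
  have hgrow : ∀ᶠ m : ℕ in atTop, |c1| * log (4 * m) + c2 ≤ 2 * (m : ℝ) ^ γ := by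
    have h1 : (fun x : ℝ => log x) =o[atTop] fun x => x ^ γ := isLittleO_log_rpow_atTop hγ0
    have hc : 0 < 1 / (|c1| + 1) := by (clear * - ; (clear * -; positivity))
    have h2 := (h1.comp_tendsto (tendsto_natCast_atTop_atTop (R := ℝ))).bound hc
    have h3 : Tendsto (fun m : ℕ => (m : ℝ) ^ γ) atTop atTop :=
      (tendsto_rpow_atTop hγ0).comp tendsto_natCast_atTop_atTop
    filter_upwards [h2, h3.eventually_ge_atTop (|c1| * log 4 + c2), eventually_ge_atTop 1]
      with m hm1 hm2 hm3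
    simp only [Function.comp_apply, norm_eq_abs] at hm1
    have hm0 : (0 : ℝ) < m := by exact_mod_cast hm3
    rw [log_mul (by norm_num) hm0.ne']
    have h4 : |(m : ℝ) ^ γ| = (m : ℝ) ^ γ := abs_of_nonneg (rpow_nonneg hm0.le _)
    rw [h4] at hm1
    have h5 : log m ≤ 1 / (|c1| + 1) * (m : ℝ) ^ γ := (le_abs_self _).trans hm1
    have h6 : |c1| * log m ≤ (m : ℝ) ^ γ := by
      calc |c1| * log m ≤ |c1| * (1 / (|c1| + 1) * (m : ℝ) ^ γ) := by (clear * - h5; gcongr)
        _ = (|c1| / (|c1| + 1)) * (m : ℝ) ^ γ := by ring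
        _ ≤ 1 * (m : ℝ) ^ γ := by
            gcongr
            rw [div_le_one (by (clear * - ; (clear * -; positivity)))]
            linarith only []
        _ = _ := one_mul _
    linarith only [hm2, h6]
  obtain ⟨m1, hm1⟩ := eventually_atTop.mp (hgrow.and ((eventually_ge_atTop 2).and
    (tendsto_natCast_atTop_atTop.eventually_ge_atTop (2 * T0))))
  set y : ℕ → ℝ := fun m => exp (-2 * m) with hy
  have hypos : ∀ m, 0 < y m := fun m => exp_pos _
  have hylim : Tendsto y atTop (𝓝 0) := by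
    have h2 : Tendsto (fun m : ℕ => (-2 : ℝ) * m) atTop atBot :=
      tendsto_natCast_atTop_atTop.const_mul_atTop_of_neg (by norm_num)
    exact tendsto_exp_atBot.comp h2
  refine ac_of_summable hypos hylim (b := fun m => exp 2 * b m)
    (fun m => mul_nonneg (exp_pos _).le (hb m)) (hsum.mul_left _) (m0 := m1) ?_
  intro m hm
  obtain ⟨hg, hm2, hmT⟩ := hm1 m hm
  have hm2R : (2 : ℝ) ≤ m := by exact_mod_cast hm2
  have hmpos : 1 ≤ m := by omega
  have hmR : (1 : ℝ) ≤ m := by exact_mod_cast hmpos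
  have hyy : y (m + 1) ≤ y m := by
    simp only [hy]
    apply exp_le_exp.mpr
    push_cast
    linarith only []
  refine (nrm_sub_G (hypos (m + 1)) hyy).trans ?_
  set J := ⌈(m : ℝ) ^ γ⌉₊ with hJ
  have hmγ : 1 ≤ (m : ℝ) ^ γ := one_le_rpow hmR hγ0.le
  have hJ1 : (m : ℝ) ^ γ ≤ J := Nat.le_ceil _
  have hJpos : 1 ≤ J := by
    have : (1 : ℝ) ≤ J := hmγ.trans hJ1
    exact_mod_cast this
  have hJm : (J : ℝ) ≤ 2 * m := by
    have h1 := Nat.ceil_lt_add_one (a := (m : ℝ) ^ γ) (by linarith only [hmγ])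
    rw [← hJ] at h1
    have h2 : (m : ℝ) ^ γ ≤ m := by
      calc (m : ℝ) ^ γ ≤ (m : ℝ) ^ (1 : ℝ) := rpow_le_rpow_of_exponent_le hmR (by linarith only [hγ1])
        _ = m := rpow_one _
    linarith only [hm2R, h1, h2]
  have hle : ∀ s, y (m + 1) < s → s ≤ y m → ENNReal.ofReal (1 / 2) * nrm ν (G2 s) ≤
      ENNReal.ofReal (b m * (y (m + 1))⁻¹) := by
    intro s hs1 hs2
    have hs : 0 < s := (hypos _).trans hs1
    have e1 := ofReal_Ad (ν := ν) hs 1
    rw [pow_one, mul_one, Gd_two] at e1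
    rw [← e1]
    apply ENNReal.ofReal_le_ofReal
    set t0 := -(1 / 2) * log s with ht0
    have hst : s = exp (-2 * t0) := by
      rw [ht0, show -2 * (-(1 / 2) * log s) = log s by ring, exp_log hs]
    have ht0m : (m : ℝ) ≤ t0 := by
      have : log s ≤ -2 * m := by
        rw [← log_exp (-2 * (m : ℝ))]
        exact log_le_log hs hs2
      rw [ht0]; linarith only [this]
    have ht0m2 : t0 ≤ m + 1 := by
      have : -2 * ((m : ℝ) + 1) ≤ log s := by
        rw [← log_exp (-2 * ((m : ℝ) + 1))]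
        have h2 := hs1.le
        simp only [hy] at h2
        push_cast at h2
        exact log_le_log (exp_pos _) h2
      rw [ht0]; linarith only [this]
    have hX0 : 0 ≤ C * (m / 2 : ℝ) ^ (-β) := mul_nonneg hC (rpow_nonneg (by (clear * - hm2; positivity)) _)
    have hA := Ad_one_le' (ν := ν) (t0 := t0) (t1 := m / 2) (by linarith only [ht0m]) hJpos
      hX0 (by
        intro T hT1 hT2
        have hTpos : 0 < T := lt_of_lt_of_le (by positivity) hT1
        have hT3 : T ≤ 4 * m := by linarith only [hm2R, hJm, ht0m2, hT2]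
        have h1 : c1 * log T + c2 ≤ ((2 * J : ℕ) : ℝ) := by
          push_cast
          have hlog : 0 ≤ log T := log_nonneg (by linarith only [hm2R, hT1])
          calc c1 * log T + c2 ≤ |c1| * log T + c2 := by
                gcongr
                exact le_abs_self _
            _ ≤ |c1| * log (4 * m) + c2 := by
                (clear * - hTpos hT3; gcongr)
            _ ≤ 2 * (m : ℝ) ^ γ := hg
            _ ≤ _ := by (clear * - hJ1; gcongr)
        refine (hτ T (by linarith only [hmT, hT1]) (2 * J) h1).trans ?_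
        gcongr ?_ * (C * ?_)
        exact rpow_le_rpow_of_nonpos (by (clear * - hm2; positivity)) hT1 (by linarith only [hβ]))
    rw [← hst] at hA
    have hB := hbound m hmpos
    have h5 : exp (-2 * (t0 - m / 2)) ≤ exp (-2 * (m - m / 2 : ℝ)) := by
      apply exp_le_exp.mpr; linarith only [ht0m]
    have h6 : s * Ad ν 1 s ≤ b m := by
      refine hA.trans (le_trans ?_ hB)
      (clear * - h5 hm2; gcongr)
    have h7 : Ad ν 1 s ≤ b m * s⁻¹ := by
      rw [← div_eq_mul_inv, le_div_iff₀ hs]; linarith only [h6]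
    refine h7.trans ?_
    have := hb m
    have hyp := hypos (m + 1)
    (clear * - hs1 this; gcongr)
  calc ∫⁻ s in Set.Ioc (y (m + 1)) (y m), ENNReal.ofReal (1 / 2) * nrm ν (G2 s)
      ≤ ∫⁻ _s in Set.Ioc (y (m + 1)) (y m), ENNReal.ofReal (b m * (y (m + 1))⁻¹) :=
        setLIntegral_mono' measurableSet_Ioc fun s hs => hle s hs.1 hs.2
    _ = ENNReal.ofReal (b m * (y (m + 1))⁻¹) * ENNReal.ofReal (y m - y (m + 1)) := by
        rw [setLIntegral_const, Real.volume_Ioc]
    _ ≤ ENNReal.ofReal (b m * (y (m + 1))⁻¹) * ENNReal.ofReal (y m) := by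
        gcongr
        have := hypos (m + 1)
        linarith only [this]
    _ = ENNReal.ofReal (exp 2 * b m) := by
        rw [← ENNReal.ofReal_mul (by have := hb m; have := hypos (m + 1); (clear β C T0 c1 c2 hβ hC hτ γ hγ0 hγ1 hsum hbound hgrow m1 hm1 hy hypos hylim hm hg hm2 hmT hm2R hmpos hmR hyy J hJ hmγ hJ1 hJpos hJm hle this; positivity))]
        congr 1
        simp only [hy]
        rw [← exp_neg, mul_assoc, ← exp_add, mul_comm]
        congr 2
        push_cast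
        ring

end Vale.Agent.P105
end
end

section

section

open MeasureTheory Real Filter Topology
open scoped ENNReal

namespace Vale.Agent.P105

/-- **Core theorem, sharp form.** -/
theorem core2 {lam : ℝ} (h0 : 0 < lam) (h1 : lam < 1) {ν : Measure ℝ} [IsProbabilityMeasure ν]
    {μ : ℕ → Measure ℝ} [∀ n, IsProbabilityMeasure (μ n)] {R : ℝ}
    (hR : ∀ n, ∀ᵐ t ∂(μ n), |t| ≤ R) (hself : ∀ n, ν = μ n ∗ ν.map (lam ^ n * ·))
    {θ δ : ℝ} (hθ : -log lam < θ) (hδ : 0 ≤ δ)
    (hcond : 2 * exp 1 * (-log lam) * δ / ((1 - lam ^ 2) * θ) <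
      1 - (-log lam / θ) ^ 2 + 2 * (-log lam / θ) * log (-log lam / θ))
    (hH : ∀ᶠ n : ℕ in atTop, -(δ * n) ≤ ent (μ n) (exp (-2 * θ * n))) : ν ≪ volume := by
  set ℓ := -log lam with hℓdef
  have hℓ : 0 < ℓ := by
    have := log_neg h0 h1
    linarith only [this]
  have hlam : lam = exp (-ℓ) := by rw [hℓdef, neg_neg, exp_log h0]
  have hlam2 : lam ^ 2 = exp (-2 * ℓ) := by
    rw [hlam, ← exp_nat_mul]; congr 1; push_cast; ring
  have hE : exp (-2 * ℓ) < 1 := by
    exact exp_lt_one_iff.mpr (by linarith only [hℓ])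
  have hself' : ∀ n, ν = μ n ∗ ν.map (exp (-ℓ) ^ n * ·) := by
    intro n; rw [← hlam]; exact hself n
  obtain ⟨m0, hm0⟩ := eventually_atTop.mp hH
  set K := 2 * exp 1 / (1 - exp (-2 * ℓ)) with hK
  have hd : 0 < 1 - exp (-2 * ℓ) := by linarith only [hE]
  have hK0 : 0 < K := by (clear * - hE; positivity)
  have hθ0 : 0 < θ := hℓ.trans hθ
  have hcond' : K * ℓ * δ / θ < 1 - (ℓ / θ) ^ 2 + 2 * (ℓ / θ) * log (ℓ / θ) := by
    refine lt_of_eq_of_lt ?_ hcond
    rw [hlam2, hK]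
    (clear * - hθ0 hℓ; field_simp)
  obtain ⟨β, C', T0, c1, c2, hβ, hC', hτ⟩ := windows (K := K) (C := log (√(2 * π)) + 1 + R ^ 2)
    hℓ hθ hδ hK0 hcond' (J := Jr μ) (τ := Tau ν) (m0 := m0) (Jr_nonneg μ) (tau_nonneg ν)
    (fun n T hn => tau_le ν hn T) (fun a m n T hn => tau_step hself' a m hn T)
    (fun m hm T A hT hA2 => Jr_sum_le hR hℓ (hm0 m hm) hT hA2)
  exact ac_of_tau hβ hC' hτ

end Vale.Agent.P105
end
end

section

section

open MeasureTheory Real Filter Topology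
open scoped ENNReal

namespace Vale.Agent.P105

lemma log_le_tangent {a b : ℝ} (ha : 0 < a) (hb : 0 < b) : log a ≤ a / b - 1 + log b := by
  have h := log_le_sub_one_of_pos (div_pos ha hb)
  rw [log_div ha.ne' hb.ne'] at h
  linarith

section
variable {μ : Measure ℝ} [IsProbabilityMeasure μ] {R : ℝ}

end

/-- product of two shifted kernels -/
lemma integral_G_mul_G {v : ℝ} (hv : 0 < v) (s t : ℝ) :
    ∫ x, G v (x - s) * G v (x - t) = G (2 * v) (s - t) := by
  have h := convE_G hv hv (s - t)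
  rw [two_mul, ← h, ← integral_sub_left_eq_self (fun y => G v y * G v (s - t - y)) volume s]
  congr 1
  ext x
  have e1 : G v (x - s) = G v (s - x) := by rw [← G_neg, neg_sub]
  have e2 : s - t - (s - x) = x - t := by ring
  rw [e1, e2]

lemma integrable_G_mul_G {v : ℝ} (hv : 0 < v) (s t : ℝ) :
    Integrable (fun x => G v (x - s) * G v (x - t)) := by
  refine (((integrable_G hv).comp_sub_right t).norm.const_mul (√(2 * π * v))⁻¹).mono' ?_ ?_
  · have := continuous_G v
    exact (by (clear * - this; fun_prop) : Continuous fun x => G v (x - s) * G v (x - t)).aestronglyMeasurable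
  · refine ae_of_all _ fun x => ?_
    rw [norm_mul]
    exact mul_le_mul_of_nonneg_right (bdd_G hv _) (norm_nonneg _)

section
variable {μ : Measure ℝ} [IsProbabilityMeasure μ] {R : ℝ} {ι : Type*} [Fintype ι] [Nonempty ι]

/-- value of the kernel at a separated pair -/
lemma G_sep_le {v Δ x : ℝ} (hv : 0 < v) (hΔ : 0 ≤ Δ) (hx : Δ ≤ |x|) :
    G (2 * v) x ≤ (√(2 * π * (2 * v)))⁻¹ * exp (-(Δ ^ 2 / (4 * v))) := by
  unfold G
  have h : Δ ^ 2 ≤ x ^ 2 := by rw [← sq_abs x]; exact pow_le_pow_left₀ hΔ hx 2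
  gcongr
  rw [neg_div, neg_le_neg_iff, show 2 * (2 * v) = 4 * v by ring]
  gcongr

lemma G_zero_le {v : ℝ} (x : ℝ) (hv : 0 < v) : G (2 * v) x ≤ (√(2 * π * (2 * v)))⁻¹ :=
  (le_abs_self _).trans (bdd_G (by positivity) x)

/-- number of coinciding pairs -/
noncomputable def coinc (X : ι → ℝ) : ℕ :=
  ∑ s, (Finset.univ.filter fun s' => X s' = X s).card

/-- Shannon entropy of the law of X under the uniform distribution -/
noncomputable def shannon (X : ι → ℝ) : ℝ :=
  -((Fintype.card ι : ℝ)⁻¹ * ∑ s, log ((Finset.univ.filter fun s' => X s' = X s).card /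
    (Fintype.card ι : ℝ)))

/-- entropy of the smoothing of a uniform family versus Shannon entropy -/
lemma ent_ge_shannon (hR : ∀ᵐ t ∂μ, |t| ≤ R) {v Δ : ℝ} (hv : 0 < v) (hΔ : 0 ≤ Δ) (X : ι → ℝ)
    (hsm : ∀ x, sm μ (G v) x = (Fintype.card ι : ℝ)⁻¹ * ∑ s, G v (x - X s))
    (hsep : ∀ s s', X s ≠ X s' → Δ ≤ |X s - X s'|) :
    shannon X + log (√(2 * π * v)) + 1 -
      (1 + (Fintype.card ι : ℝ) * exp (-(Δ ^ 2 / (4 * v)))) ≤ ent μ v := by
  set N : ℝ := (Fintype.card ι : ℝ) with hN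
  have hN0 : 0 < N := by rw [hN]; exact_mod_cast Fintype.card_pos
  set E := exp (-(Δ ^ 2 / (4 * v))) with hE
  set c : ι → ℝ := fun s => ((Finset.univ.filter fun s' => X s' = X s).card : ℝ) with hc
  have hc1 : ∀ s, 1 ≤ c s := by
    intro s
    have : 0 < (Finset.univ.filter fun s' => X s' = X s).card :=
      Finset.card_pos.mpr ⟨s, by simp⟩
    exact Nat.one_le_cast.mpr this
  set b : ι → ℝ := fun s => c s / N * (√(2 * π * v))⁻¹ with hb
  have hs0 : 0 < √(2 * π * v) := by positivity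
  have hb0 : ∀ s, 0 < b s := fun s => by
    have := hc1 s
    have h2 : 0 < c s := by linarith only [this]
    positivity
  have hGint : ∀ s, Integrable (fun x => G v (x - X s)) := fun s =>
    (integrable_G hv).comp_sub_right (X s)
  have hGf : ∀ s, Integrable (fun x => G v (x - X s) * sm μ (G v) x) := by
    intro s
    refine ((hGint s).norm.mul_const (√(2 * π * v))⁻¹).mono' ?_ ?_
    · have h1 := continuous_G v
      have h2 := continuous_sm (μ := μ) (continuous_G v) (bdd_G' hv)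
      exact (by (clear * - h1 h2; fun_prop) : Continuous fun x => G v (x - X s) * sm μ (G v) x).aestronglyMeasurable
    · refine ae_of_all _ fun x => ?_
      rw [norm_mul, Real.norm_of_nonneg (sm_G_pos hR hv x).le]
      exact mul_le_mul_of_nonneg_left (sm_G_le hv x) (norm_nonneg _)
  have hval : ∀ s, ∫ x, G v (x - X s) * sm μ (G v) x ≤ (√(2 * π * v))⁻¹ * (c s / N + E) := by
    intro s
    have e1 : ∀ x, G v (x - X s) * sm μ (G v) x = N⁻¹ * ∑ s', G v (x - X s) * G v (x - X s') := by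
      intro x
      rw [hsm x, Finset.mul_sum, Finset.mul_sum, Finset.mul_sum]
      exact Finset.sum_congr rfl fun s' _ => by ring
    simp_rw [e1]
    rw [integral_const_mul, integral_finsetSum _ (fun s' _ => integrable_G_mul_G hv _ _)]
    have e2 : ∑ s', ∫ x, G v (x - X s) * G v (x - X s') ≤ (√(2 * π * v))⁻¹ * (c s + N * E) := by
      calc ∑ s', ∫ x, G v (x - X s) * G v (x - X s')
          = ∑ s', G (2 * v) (X s - X s') :=
            Finset.sum_congr rfl fun s' _ => integral_G_mul_G hv _ _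
        _ ≤ ∑ s', (√(2 * π * v))⁻¹ * ((if X s' = X s then 1 else 0) + E) := by
            apply Finset.sum_le_sum
            intro s' _
            have hle : (√(2 * π * (2 * v)))⁻¹ ≤ (√(2 * π * v))⁻¹ :=
              sqrt_inv_anti hv (by linarith only [hv])
            have hE0 : 0 < E := exp_pos _
            by_cases h : X s' = X s
            · rw [if_pos h]
              have := G_zero_le (X s - X s') hv
              have h3 : 0 < (√(2 * π * v))⁻¹ := by positivity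
              linarith only [this, hle, mul_pos_of_neg_of_neg (Mathlib.Tactic.Linarith.sub_neg_of_lt hE0) (Mathlib.Tactic.Linarith.sub_neg_of_lt h3)]
            · rw [if_neg h, zero_add]
              have := G_sep_le hv hΔ (hsep s s' (fun h' => h h'.symm))
              refine this.trans ?_
              rw [← hE]
              (clear * - hle; gcongr)
        _ = _ := by
            rw [← Finset.mul_sum, Finset.sum_add_distrib, Finset.sum_boole, Finset.sum_const,
              Finset.card_univ, nsmul_eq_mul]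
    calc N⁻¹ * ∑ s', ∫ x, G v (x - X s) * G v (x - X s') ≤ N⁻¹ * ((√(2 * π * v))⁻¹ * (c s + N * E)) := by
          gcongr
      _ = _ := by (clear * - hN0 hv; field_simp)
  -- tangent bound
  have hpt : ∀ x, sm μ (G v) x * log (sm μ (G v) x) ≤
      N⁻¹ * ∑ s, ((1 / b s) * (G v (x - X s) * sm μ (G v) x) + (log (b s) - 1) * G v (x - X s)) := by
    intro x
    have h0 := sm_G_pos hR hv x
    have e1 : sm μ (G v) x * log (sm μ (G v) x) =
        N⁻¹ * ∑ s, G v (x - X s) * log (sm μ (G v) x) := by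
      rw [← Finset.sum_mul]
      conv_lhs => rw [hsm x]
      rw [hsm x]
      ring
    rw [e1]
    gcongr with s _
    have := mul_le_mul_of_nonneg_left (log_le_tangent h0 (hb0 s)) (G_nonneg v (x - X s))
    refine this.trans (le_of_eq ?_)
    have := (hb0 s).ne'
    field_simp
    ring
  have i1 := integrable_mul_log hR hv
  have i2 : ∀ s, Integrable (fun x => (1 / b s) * (G v (x - X s) * sm μ (G v) x) +
      (log (b s) - 1) * G v (x - X s)) := fun s =>
    ((hGf s).const_mul _).add ((hGint s).const_mul _)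
  have i3 : Integrable (fun x => N⁻¹ * ∑ s, ((1 / b s) * (G v (x - X s) * sm μ (G v) x) +
      (log (b s) - 1) * G v (x - X s))) :=
    (integrable_finsetSum _ (fun s _ => i2 s)).const_mul _
  have hle := integral_mono i1 i3 hpt
  rw [integral_const_mul, integral_finsetSum _ (fun s _ => i2 s)] at hle
  have e3 : ∀ s, ∫ x, ((1 / b s) * (G v (x - X s) * sm μ (G v) x) +
      (log (b s) - 1) * G v (x - X s)) ≤ (1 + N * E) + (log (b s) - 1) := by
    intro s
    rw [integral_add ((hGf s).const_mul _) ((hGint s).const_mul _), integral_const_mul,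
      integral_const_mul, integral_sub_right_eq_self (fun x => G v x), integral_G hv, mul_one]
    have h1 : 1 / b s * ∫ x, G v (x - X s) * sm μ (G v) x ≤ 1 + N * E := by
      calc 1 / b s * ∫ x, G v (x - X s) * sm μ (G v) x
          ≤ 1 / b s * ((√(2 * π * v))⁻¹ * (c s / N + E)) := by
            have := hb0 s
            gcongr
            exact hval s
        _ = 1 + N / c s * E := by
            have h2 : 0 < c s := by have := hc1 s; linarith only [this]
            rw [hb]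
            (clear * - hN0 hv h2; field_simp)
        _ ≤ 1 + N * E := by
            have h2 : 0 < c s := by have := hc1 s; linarith only [this]
            have h3 : N / c s ≤ N := div_le_self hN0.le (hc1 s)
            have h4 : 0 < E := exp_pos _
            nlinarith only [h3, h4]
    linarith only [h1]
  have hle2 : ∫ x, sm μ (G v) x * log (sm μ (G v) x) ≤
      N⁻¹ * ∑ s, ((1 + N * E) + (log (b s) - 1)) := by
    refine hle.trans ?_
    gcongr with s _
    exact e3 s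
  have e4 : N⁻¹ * ∑ s : ι, ((1 + N * E) + (log (b s) - 1)) =
      (1 + N * E) - 1 - log (√(2 * π * v)) - shannon X := by
    have e5 : ∀ s, log (b s) = log (c s / N) - log (√(2 * π * v)) := by
      intro s
      have h2 : 0 < c s := by have := hc1 s; linarith only [this]
      rw [hb, log_mul (by positivity) (by positivity), log_inv]
      ring
    have e6 : ∀ s, (1 + N * E) + (log (b s) - 1) = log (c s / N) +
        ((1 + N * E) - 1 - log (√(2 * π * v))) := by
      intro s; rw [e5]; ring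
    simp_rw [e6]
    rw [Finset.sum_add_distrib, Finset.sum_const, Finset.card_univ, nsmul_eq_mul, ← hN]
    unfold shannon
    rw [← hN]
    field_simp
    ring
  rw [e4] at hle2
  rw [ent_eq]
  linarith only [hle2]

end

end Vale.Agent.P105
end
end

section

section

open Real Filter Topology

namespace Vale.Agent.P105

lemma hasSum_exp' (y : ℝ) : HasSum (fun n : ℕ => y ^ n / n.factorial) (exp y) := by
  have h := NormedSpace.expSeries_div_hasSum_exp (𝔸 := ℝ) y
  rwa [← Real.exp_eq_exp_ℝ] at h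

/-- the tail coefficients are nonnegative -/
lemma tail_nonneg {a g : ℝ} (ha : 0 ≤ a) (hg : 1 / 38 ≤ g)
    (h8 : a / 6402373705728000 ≤ (1 + a) * g ^ 9 / 362880) (n : ℕ) (hn : 9 ≤ n) :
    a / ((2 * n).factorial : ℝ) ≤ (1 + a) * g ^ n / n.factorial := by
  induction n, hn using Nat.le_induction with
  | base =>
    norm_num1
    linarith only [h8]
  | succ n hn ih =>
    have hn0 : (9 : ℝ) ≤ n := by exact_mod_cast hn
    have e1 : ((2 * (n + 1)).factorial : ℝ) = (2 * n + 2) * (2 * n + 1) * (2 * n).factorial := by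
      rw [show 2 * (n + 1) = 2 * n + 1 + 1 by ring, Nat.factorial_succ, Nat.factorial_succ]
      push_cast
      ring
    have e2 : ((n + 1).factorial : ℝ) = (n + 1) * n.factorial := by
      rw [Nat.factorial_succ]; push_cast; ring
    rw [e1, e2]
    have hf1 : (0 : ℝ) < (2 * n).factorial := by positivity
    have hf2 : (0 : ℝ) < n.factorial := by positivity
    rw [div_le_div_iff₀ (by positivity) (by positivity)] at ih ⊢
    have hg0 : 0 < g := by linarith only [hg]
    have h1 : 1 ≤ g * (2 * (2 * n + 1)) := by nlinarith only [hg, hn0]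
    calc a * ((n + 1) * n.factorial) = (a * n.factorial) * (n + 1) := by ring
      _ ≤ ((1 + a) * g ^ n * (2 * n).factorial) * (n + 1) := by gcongr
      _ = ((1 + a) * g ^ n * (2 * n).factorial) * (n + 1) * 1 := by ring
      _ ≤ ((1 + a) * g ^ n * (2 * n).factorial) * (n + 1) * (g * (2 * (2 * n + 1))) := by
          (clear * - h1 ha hg hn; gcongr)
      _ = (1 + a) * g ^ (n + 1) * ((2 * n + 2) * (2 * n + 1) * (2 * n).factorial) := by ring

lemma gauss8 {a g c0 c1 c2 c3 c4 c5 c6 c7 : ℝ} (ha : 0 ≤ a) (hg : 1 / 38 ≤ g)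
    (h0 : c0 ≤ (1 + a) * g - a / 2)
    (h1 : c1 ≤ (1 + a) * g ^ 2 / 2 - a / 24)
    (h2 : c2 ≤ (1 + a) * g ^ 3 / 6 - a / 720)
    (h3 : c3 ≤ (1 + a) * g ^ 4 / 24 - a / 40320)
    (h4 : c4 ≤ (1 + a) * g ^ 5 / 120 - a / 3628800)
    (h5 : c5 ≤ (1 + a) * g ^ 6 / 720 - a / 479001600)
    (h6 : c6 ≤ (1 + a) * g ^ 7 / 5040 - a / 87178291200)
    (h7 : c7 ≤ (1 + a) * g ^ 8 / 40320 - a / 20922789888000)
    (h8 : a / 6402373705728000 ≤ (1 + a) * g ^ 9 / 362880)
    (hp : ∀ x : ℝ, 0 ≤ x → 0 ≤ c0 + c1 * x + c2 * x ^ 2 + c3 * x ^ 3 + c4 * x ^ 4 + c5 * x ^ 5 +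
      c6 * x ^ 6 + c7 * x ^ 7) (t : ℝ) :
    1 + a * cosh t ≤ (1 + a) * exp (g * t ^ 2) := by
  have s1 := (hasSum_exp' (g * t ^ 2)).mul_left (1 + a)
  have s2 := (hasSum_cosh t).mul_left a
  have s3 := s1.sub s2
  set x := t ^ 2 with hx
  have hx0 : 0 ≤ x := sq_nonneg t
  have hterm : ∀ n : ℕ, (1 + a) * ((g * x) ^ n / n.factorial) - a * (t ^ (2 * n) / (2 * n).factorial) =
      ((1 + a) * g ^ n / n.factorial - a / ((2 * n).factorial : ℝ)) * x ^ n := by
    intro n
    rw [pow_mul, ← hx, mul_pow]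
    ring
  simp_rw [hterm] at s3
  have h9 := sum_le_hasSum (Finset.range 9) (fun n hn => by
    rw [Finset.mem_range, not_lt] at hn
    have := tail_nonneg ha hg h8 n hn
    apply mul_nonneg _ (pow_nonneg hx0 n)
    linarith only [this]) s3
  simp only [Finset.sum_range_succ, Finset.sum_range_zero] at h9
  norm_num [Nat.factorial] at h9
  have h10 := mul_nonneg hx0 (hp x hx0)
  have k0 := mul_le_mul_of_nonneg_right h0 hx0
  have k1 := mul_le_mul_of_nonneg_right h1 (pow_nonneg hx0 2)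
  have k2 := mul_le_mul_of_nonneg_right h2 (pow_nonneg hx0 3)
  have k3 := mul_le_mul_of_nonneg_right h3 (pow_nonneg hx0 4)
  have k4 := mul_le_mul_of_nonneg_right h4 (pow_nonneg hx0 5)
  have k5 := mul_le_mul_of_nonneg_right h5 (pow_nonneg hx0 6)
  have k6 := mul_le_mul_of_nonneg_right h6 (pow_nonneg hx0 7)
  have k7 := mul_le_mul_of_nonneg_right h7 (pow_nonneg hx0 8)
  linarith only [h9, h10, k0, k1, k2, k3, k4, k5, k6, k7]

/-- term-by-term version -/
lemma gauss_simple {a g : ℝ} (ha : 0 ≤ a) (hg : 1 / 6 ≤ g) (h1 : a / 2 ≤ (1 + a) * g) (t : ℝ) :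
    1 + a * cosh t ≤ (1 + a) * exp (g * t ^ 2) := by
  have hg0 : 0 < g := by linarith only [hg]
  have s1 := (hasSum_exp' (g * t ^ 2)).mul_left (1 + a)
  have s2 := (hasSum_cosh t).mul_left a
  have s3 := s1.sub s2
  set x := t ^ 2 with hx
  have hx0 : 0 ≤ x := sq_nonneg t
  have hterm : ∀ n : ℕ, (1 + a) * ((g * x) ^ n / n.factorial) - a * (t ^ (2 * n) / (2 * n).factorial) =
      ((1 + a) * g ^ n / n.factorial - a / ((2 * n).factorial : ℝ)) * x ^ n := by
    intro n
    rw [pow_mul, ← hx, mul_pow]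
    ring
  simp_rw [hterm] at s3
  have hall : ∀ n : ℕ, 1 ≤ n → a / ((2 * n).factorial : ℝ) ≤ (1 + a) * g ^ n / n.factorial := by
    intro n hn
    induction n, hn using Nat.le_induction with
    | base => norm_num [Nat.factorial]; linarith only [h1]
    | succ n hn ih =>
      have hn0 : (1 : ℝ) ≤ n := by exact_mod_cast hn
      have e1 : ((2 * (n + 1)).factorial : ℝ) = (2 * n + 2) * (2 * n + 1) * (2 * n).factorial := by
        rw [show 2 * (n + 1) = 2 * n + 1 + 1 by ring, Nat.factorial_succ, Nat.factorial_succ]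
        push_cast
        ring
      have e2 : ((n + 1).factorial : ℝ) = (n + 1) * n.factorial := by
        rw [Nat.factorial_succ]; push_cast; ring
      rw [e1, e2]
      have hf1 : (0 : ℝ) < (2 * n).factorial := by positivity
      have hf2 : (0 : ℝ) < n.factorial := by positivity
      rw [div_le_div_iff₀ (by positivity) (by positivity)] at ih ⊢
      have h2 : 1 ≤ g * (2 * (2 * n + 1)) := by nlinarith only [hg, hn0]
      calc a * ((n + 1) * n.factorial) = (a * n.factorial) * (n + 1) := by ring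
        _ ≤ ((1 + a) * g ^ n * (2 * n).factorial) * (n + 1) := by (clear * - ih hn; gcongr)
        _ = ((1 + a) * g ^ n * (2 * n).factorial) * (n + 1) * 1 := by ring
        _ ≤ ((1 + a) * g ^ n * (2 * n).factorial) * (n + 1) * (g * (2 * (2 * n + 1))) := by
            (clear * - h2 ha hg hn; gcongr)
        _ = (1 + a) * g ^ (n + 1) * ((2 * n + 2) * (2 * n + 1) * (2 * n).factorial) := by ring
  have h9 := sum_le_hasSum (Finset.range 1) (fun n hn => by
    rw [Finset.mem_range, not_lt] at hn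
    have := hall n hn
    apply mul_nonneg _ (pow_nonneg hx0 n)
    linarith only [this]) s3
  simp only [Finset.sum_range_succ, Finset.sum_range_zero] at h9
  norm_num [Nat.factorial] at h9
  linarith only [h9]

end Vale.Agent.P105
end
end

section

section

open Real

namespace Vale.Agent.P105

lemma gauss_case0 (t : ℝ) : 1 + (593 / 1000) * cosh t ≤ (1 + (593 / 1000)) * exp ((233 / 1250) * t ^ 2) := by
  refine gauss8 (a := (593 / 1000)) (g := (233 / 1250)) (c0 := (34 / 78125)) (c1 := (148301 / 50000000)) (c2 := (895889 / 1000000000)) (c3 := (654213 / 10000000000)) (c4 := (141189 / 50000000000)) (c5 := (915643 / 10000000000000)) (c6 := (246439 / 100000000000000)) (c7 := (35969 / 625000000000000))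
    (by norm_num) (by norm_num1) (by norm_num) (by norm_num) (by norm_num) (by norm_num) (by norm_num)
    (by norm_num) (by norm_num) (by norm_num) (by norm_num) ?_ t
  intro x hx
  rcases le_or_gt 1 x with h | h
  · have hu : 0 ≤ x - 1 := by linarith
    linarith [pow_nonneg hu 1, pow_nonneg hu 2, pow_nonneg hu 3, pow_nonneg hu 4, pow_nonneg hu 5, pow_nonneg hu 6, pow_nonneg hu 7]
  have hy : 0 ≤ x - 0 := by linarith
  have hz : 0 ≤ 1 - x := by linarith
  linarith only [hy, mul_nonneg (pow_nonneg hy 2) (pow_nonneg hz 5), mul_nonneg (pow_nonneg hy 3) (pow_nonneg hz 4), mul_nonneg (pow_nonneg hy 4) (pow_nonneg hz 3), mul_nonneg (pow_nonneg hy 5) (pow_nonneg hz 2), mul_nonneg (pow_nonneg hy 6) (pow_nonneg hz 1), mul_nonneg (pow_nonneg hy 7) (pow_nonneg hz 0)]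

lemma gauss_case1 (t : ℝ) : 1 + (561 / 1000) * cosh t ≤ (1 + (561 / 1000)) * exp ((2251 / 12500) * t ^ 2) := by
  refine gauss8 (a := (561 / 1000)) (g := (2251 / 12500)) (c0 := (7561 / 12500000)) (c1 := (6049 / 3125000)) (c2 := (740149 / 1000000000)) (c3 := (544859 / 10000000000)) (c4 := (28861 / 12500000000)) (c5 := (36383 / 500000000000)) (c6 := (37913 / 20000000000000)) (c7 := (106973 / 2500000000000000))
    (by norm_num) (by norm_num1) (by norm_num) (by norm_num) (by norm_num) (by norm_num) (by norm_num)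
    (by norm_num) (by norm_num) (by norm_num) (by norm_num) ?_ t
  intro x hx
  rcases le_or_gt 1 x with h | h
  · have hu : 0 ≤ x - 1 := by linarith
    linarith [pow_nonneg hu 1, pow_nonneg hu 2, pow_nonneg hu 3, pow_nonneg hu 4, pow_nonneg hu 5, pow_nonneg hu 6, pow_nonneg hu 7]
  have hy : 0 ≤ x - 0 := by linarith
  have hz : 0 ≤ 1 - x := by linarith
  linarith only [hy, mul_nonneg (pow_nonneg hy 2) (pow_nonneg hz 5), mul_nonneg (pow_nonneg hy 3) (pow_nonneg hz 4), mul_nonneg (pow_nonneg hy 4) (pow_nonneg hz 3), mul_nonneg (pow_nonneg hy 5) (pow_nonneg hz 2), mul_nonneg (pow_nonneg hy 6) (pow_nonneg hz 1), mul_nonneg (pow_nonneg hy 7) (pow_nonneg hz 0)]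

lemma gauss_case2 (t : ℝ) : 1 + (263 / 500) * cosh t ≤ (1 + (263 / 500)) * exp ((17273 / 100000) * t ^ 2) := by
  refine gauss8 (a := (263 / 500)) (g := (17273 / 100000)) (c0 := (29299 / 50000000)) (c1 := (13249 / 15625000)) (c2 := (290077 / 500000000)) (c3 := (21777 / 500000000)) (c4 := (90517 / 50000000000)) (c5 := (110383 / 2000000000000)) (c6 := (27659 / 20000000000000)) (c7 := (2341 / 78125000000000))
    (by norm_num) (by norm_num1) (by norm_num) (by norm_num) (by norm_num) (by norm_num) (by norm_num)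
    (by norm_num) (by norm_num) (by norm_num) (by norm_num) ?_ t
  intro x hx
  rcases le_or_gt 1 x with h | h
  · have hu : 0 ≤ x - 1 := by linarith
    linarith only [hu, pow_nonneg hu 2, pow_nonneg hu 3, pow_nonneg hu 4, pow_nonneg hu 5, pow_nonneg hu 6, pow_nonneg hu 7]
  have hy : 0 ≤ x - 0 := by linarith
  have hz : 0 ≤ 1 - x := by linarith
  linarith [mul_nonneg (pow_nonneg hy 0) (pow_nonneg hz 7), mul_nonneg (pow_nonneg hy 1) (pow_nonneg hz 6), mul_nonneg (pow_nonneg hy 2) (pow_nonneg hz 5), mul_nonneg (pow_nonneg hy 3) (pow_nonneg hz 4), mul_nonneg (pow_nonneg hy 4) (pow_nonneg hz 3), mul_nonneg (pow_nonneg hy 5) (pow_nonneg hz 2), mul_nonneg (pow_nonneg hy 6) (pow_nonneg hz 1), mul_nonneg (pow_nonneg hy 7) (pow_nonneg hz 0)]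

lemma gauss_case3 (t : ℝ) : 1 + (243 / 500) * cosh t ≤ (1 + (243 / 500)) * exp ((8187 / 50000) * t ^ 2) := by
  refine gauss8 (a := (243 / 500)) (g := (8187 / 50000)) (c0 := (7941 / 25000000)) (c1 := (-65917 / 200000000)) (c2 := (12883 / 31250000)) (c3 := (81133 / 2500000000)) (c4 := (66179 / 50000000000)) (c5 := (48451 / 1250000000000)) (c6 := (924829 / 1000000000000000)) (c7 := (95099 / 5000000000000000))
    (by norm_num) (by norm_num1) (by norm_num) (by norm_num) (by norm_num) (by norm_num) (by norm_num)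
    (by norm_num) (by norm_num) (by norm_num) (by norm_num) ?_ t
  intro x hx
  rcases le_or_gt 1 x with h | h
  · have hu : 0 ≤ x - 1 := by linarith
    linarith [pow_nonneg hu 1, pow_nonneg hu 2, pow_nonneg hu 3, pow_nonneg hu 4, pow_nonneg hu 5, pow_nonneg hu 6, pow_nonneg hu 7]
  have hy : 0 ≤ x - 0 := by linarith
  have hz : 0 ≤ 1 - x := by linarith
  linarith [mul_nonneg (pow_nonneg hy 0) (pow_nonneg hz 7), mul_nonneg (pow_nonneg hy 1) (pow_nonneg hz 6), mul_nonneg (pow_nonneg hy 2) (pow_nonneg hz 5), mul_nonneg (pow_nonneg hy 3) (pow_nonneg hz 4), mul_nonneg (pow_nonneg hy 4) (pow_nonneg hz 3), mul_nonneg (pow_nonneg hy 5) (pow_nonneg hz 2), mul_nonneg (pow_nonneg hy 6) (pow_nonneg hz 1), mul_nonneg (pow_nonneg hy 7) (pow_nonneg hz 0)]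

lemma gauss_case4 (t : ℝ) : 1 + (11 / 25) * cosh t ≤ (1 + (11 / 25)) * exp ((15391 / 100000) * t ^ 2) := by
  refine gauss8 (a := (11 / 25)) (g := (15391 / 100000)) (c0 := (1019 / 625000)) (c1 := (-127777 / 100000000)) (c2 := (32987 / 125000000)) (c3 := (113777 / 5000000000)) (c4 := (915119 / 1000000000000)) (c5 := (12833 / 500000000000)) (c6 := (579473 / 1000000000000000)) (c7 := (28061 / 2500000000000000))
    (by norm_num) (by norm_num1) (by norm_num) (by norm_num) (by norm_num) (by norm_num) (by norm_num)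
    (by norm_num) (by norm_num) (by norm_num) (by norm_num) ?_ t
  intro x hx
  rcases le_or_gt 2 x with h | h
  · have hu : 0 ≤ x - 2 := by linarith
    linarith [pow_nonneg hu 1, pow_nonneg hu 2, pow_nonneg hu 3, pow_nonneg hu 4, pow_nonneg hu 5, pow_nonneg hu 6, pow_nonneg hu 7]
  have hy : 0 ≤ x - 0 := by linarith
  have hz : 0 ≤ 2 - x := by linarith
  linarith [mul_nonneg (pow_nonneg hy 0) (pow_nonneg hz 7), mul_nonneg (pow_nonneg hy 1) (pow_nonneg hz 6), mul_nonneg (pow_nonneg hy 2) (pow_nonneg hz 5), mul_nonneg (pow_nonneg hy 3) (pow_nonneg hz 4), mul_nonneg (pow_nonneg hy 4) (pow_nonneg hz 3), mul_nonneg (pow_nonneg hy 5) (pow_nonneg hz 2), mul_nonneg (pow_nonneg hy 6) (pow_nonneg hz 1), mul_nonneg (pow_nonneg hy 7) (pow_nonneg hz 0)]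

lemma gauss_case5 (t : ℝ) : 1 + (39 / 100) * cosh t ≤ (1 + (39 / 100)) * exp ((14363 / 100000) * t ^ 2) := by
  refine gauss8 (a := (39 / 100)) (g := (14363 / 100000)) (c0 := (46457 / 10000000)) (c1 := (-38249 / 20000000)) (c2 := (144767 / 1000000000)) (c3 := (29951 / 2000000000)) (c4 := (600569 / 1000000000000)) (c5 := (161351 / 10000000000000)) (c6 := (343303 / 1000000000000000)) (c7 := (24901 / 4000000000000000))
    (by norm_num) (by norm_num1) (by norm_num) (by norm_num) (by norm_num) (by norm_num) (by norm_num)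
    (by norm_num) (by norm_num) (by norm_num) (by norm_num) ?_ t
  intro x hx
  rcases le_or_gt 4 x with h | h
  · have hu : 0 ≤ x - 4 := by linarith
    linarith [pow_nonneg hu 1, pow_nonneg hu 2, pow_nonneg hu 3, pow_nonneg hu 4, pow_nonneg hu 5, pow_nonneg hu 6, pow_nonneg hu 7]
  have hy : 0 ≤ x - 0 := by linarith
  have hz : 0 ≤ 4 - x := by linarith
  linarith [mul_nonneg (pow_nonneg hy 0) (pow_nonneg hz 7), mul_nonneg (pow_nonneg hy 1) (pow_nonneg hz 6), mul_nonneg (pow_nonneg hy 2) (pow_nonneg hz 5), mul_nonneg (pow_nonneg hy 3) (pow_nonneg hz 4), mul_nonneg (pow_nonneg hy 4) (pow_nonneg hz 3), mul_nonneg (pow_nonneg hy 5) (pow_nonneg hz 2), mul_nonneg (pow_nonneg hy 6) (pow_nonneg hz 1), mul_nonneg (pow_nonneg hy 7) (pow_nonneg hz 0)]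

lemma gauss_case6 (t : ℝ) : 1 + (169 / 500) * cosh t ≤ (1 + (169 / 500)) * exp ((3329 / 25000) * t ^ 2) := by
  refine gauss8 (a := (169 / 500)) (g := (3329 / 25000)) (c0 := (114601 / 12500000)) (c1 := (-222091 / 100000000)) (c2 := (570893 / 10000000000)) (c3 := (914537 / 100000000000)) (c4 := (37367 / 100000000000)) (c5 := (241363 / 25000000000000)) (c6 := (96601 / 500000000000000)) (c7 := (326423 / 100000000000000000))
    (by norm_num) (by norm_num1) (by norm_num) (by norm_num) (by norm_num) (by norm_num) (by norm_num)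
    (by norm_num) (by norm_num) (by norm_num) (by norm_num) ?_ t
  intro x hx
  rcases le_or_gt 7 x with h | h
  · have hu : 0 ≤ x - 7 := by linarith
    linarith [pow_nonneg hu 1, pow_nonneg hu 2, pow_nonneg hu 3, pow_nonneg hu 4, pow_nonneg hu 5, pow_nonneg hu 6, pow_nonneg hu 7]
  have hy : 0 ≤ x - 0 := by linarith
  have hz : 0 ≤ 7 - x := by linarith
  linarith [mul_nonneg (pow_nonneg hy 0) (pow_nonneg hz 7), mul_nonneg (pow_nonneg hy 1) (pow_nonneg hz 6), mul_nonneg (pow_nonneg hy 2) (pow_nonneg hz 5), mul_nonneg (pow_nonneg hy 3) (pow_nonneg hz 4), mul_nonneg (pow_nonneg hy 4) (pow_nonneg hz 3), mul_nonneg (pow_nonneg hy 5) (pow_nonneg hz 2), mul_nonneg (pow_nonneg hy 6) (pow_nonneg hz 1), mul_nonneg (pow_nonneg hy 7) (pow_nonneg hz 0)]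

lemma gauss_case7 (t : ℝ) : 1 + (287 / 1000) * cosh t ≤ (1 + (287 / 1000)) * exp ((12301 / 100000) * t ^ 2) := by
  refine gauss8 (a := (287 / 1000)) (g := (12301 / 100000)) (c0 := (74069 / 5000000)) (c1 := (-55531 / 25000000)) (c2 := (642223 / 1000000000000)) (c3 := (257999 / 50000000000)) (c4 := (111487 / 500000000000)) (c5 := (111873 / 20000000000000)) (c6 := (105533 / 1000000000000000)) (c7 := (165961 / 100000000000000000))
    (by norm_num) (by norm_num1) (by norm_num) (by norm_num) (by norm_num) (by norm_num) (by norm_num)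
    (by norm_num) (by norm_num) (by norm_num) (by norm_num) ?_ t
  intro x hx
  rcases le_or_gt 10 x with h | h
  · have hu : 0 ≤ x - 10 := by linarith
    linarith [pow_nonneg hu 1, pow_nonneg hu 2, pow_nonneg hu 3, pow_nonneg hu 4, pow_nonneg hu 5, pow_nonneg hu 6, pow_nonneg hu 7]
  rcases le_or_gt x 5 with h0 | h0
  · have hy : 0 ≤ x - 0 := by linarith
    have hz : 0 ≤ 5 - x := by linarith
    linarith [mul_nonneg (pow_nonneg hy 0) (pow_nonneg hz 7), mul_nonneg (pow_nonneg hy 1) (pow_nonneg hz 6), mul_nonneg (pow_nonneg hy 2) (pow_nonneg hz 5), mul_nonneg (pow_nonneg hy 3) (pow_nonneg hz 4), mul_nonneg (pow_nonneg hy 4) (pow_nonneg hz 3), mul_nonneg (pow_nonneg hy 5) (pow_nonneg hz 2), mul_nonneg (pow_nonneg hy 6) (pow_nonneg hz 1), mul_nonneg (pow_nonneg hy 7) (pow_nonneg hz 0)]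
  have hy : 0 ≤ x - 5 := by linarith
  have hz : 0 ≤ 10 - x := by linarith
  linarith [mul_nonneg (pow_nonneg hy 0) (pow_nonneg hz 7), mul_nonneg (pow_nonneg hy 1) (pow_nonneg hz 6), mul_nonneg (pow_nonneg hy 2) (pow_nonneg hz 5), mul_nonneg (pow_nonneg hy 3) (pow_nonneg hz 4), mul_nonneg (pow_nonneg hy 4) (pow_nonneg hz 3), mul_nonneg (pow_nonneg hy 5) (pow_nonneg hz 2), mul_nonneg (pow_nonneg hy 6) (pow_nonneg hz 1), mul_nonneg (pow_nonneg hy 7) (pow_nonneg hz 0)]

lemma gauss_case8 (t : ℝ) : 1 + (6 / 25) * cosh t ≤ (1 + (6 / 25)) * exp ((2271 / 20000) * t ^ 2) := by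
  refine gauss8 (a := (6 / 25)) (g := (2271 / 20000)) (c0 := (10401 / 500000)) (c1 := (-200597 / 100000000)) (c2 := (-38449 / 1250000000)) (c3 := (131847 / 50000000000)) (c4 := (5157 / 40000000000)) (c5 := (319053 / 100000000000000)) (c6 := (17853 / 312500000000000)) (c7 := (104811 / 125000000000000000))
    (by norm_num) (by norm_num1) (by norm_num) (by norm_num) (by norm_num) (by norm_num) (by norm_num)
    (by norm_num) (by norm_num) (by norm_num) (by norm_num) ?_ t
  intro x hx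
  rcases le_or_gt 13 x with h | h
  · have hu : 0 ≤ x - 13 := by linarith
    linarith [pow_nonneg hu 1, pow_nonneg hu 2, pow_nonneg hu 3, pow_nonneg hu 4, pow_nonneg hu 5, pow_nonneg hu 6, pow_nonneg hu 7]
  have hy : 0 ≤ x - 0 := by linarith
  have hz : 0 ≤ 13 - x := by linarith
  linarith [mul_nonneg (pow_nonneg hy 0) (pow_nonneg hz 7), mul_nonneg (pow_nonneg hy 1) (pow_nonneg hz 6), mul_nonneg (pow_nonneg hy 2) (pow_nonneg hz 5), mul_nonneg (pow_nonneg hy 3) (pow_nonneg hz 4), mul_nonneg (pow_nonneg hy 4) (pow_nonneg hz 3), mul_nonneg (pow_nonneg hy 5) (pow_nonneg hz 2), mul_nonneg (pow_nonneg hy 6) (pow_nonneg hz 1), mul_nonneg (pow_nonneg hy 7) (pow_nonneg hz 0)]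

lemma gauss_case9 (t : ℝ) : 1 + (1 / 5) * cosh t ≤ (1 + (1 / 5)) * exp ((1053 / 10000) * t ^ 2) := by
  refine gauss8 (a := (1 / 5)) (g := (1053 / 10000)) (c0 := (659 / 25000)) (c1 := (-10503 / 6250000)) (c2 := (-442627 / 10000000000)) (c3 := (14837 / 12500000000)) (c4 := (46467 / 625000000000)) (c5 := (46363 / 25000000000000)) (c6 := (7971 / 250000000000000)) (c7 := (440311 / 1000000000000000000))
    (by norm_num) (by norm_num1) (by norm_num) (by norm_num) (by norm_num) (by norm_num) (by norm_num)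
    (by norm_num) (by norm_num) (by norm_num) (by norm_num) ?_ t
  intro x hx
  rcases le_or_gt 17 x with h | h
  · have hu : 0 ≤ x - 17 := by linarith
    linarith [pow_nonneg hu 1, pow_nonneg hu 2, pow_nonneg hu 3, pow_nonneg hu 4, pow_nonneg hu 5, pow_nonneg hu 6, pow_nonneg hu 7]
  rcases le_or_gt x (17 / 2) with h0 | h0
  · have hy : 0 ≤ x - 0 := by linarith
    have hz : 0 ≤ (17 / 2) - x := by linarith
    linarith [mul_nonneg (pow_nonneg hy 0) (pow_nonneg hz 7), mul_nonneg (pow_nonneg hy 1) (pow_nonneg hz 6), mul_nonneg (pow_nonneg hy 2) (pow_nonneg hz 5), mul_nonneg (pow_nonneg hy 3) (pow_nonneg hz 4), mul_nonneg (pow_nonneg hy 4) (pow_nonneg hz 3), mul_nonneg (pow_nonneg hy 5) (pow_nonneg hz 2), mul_nonneg (pow_nonneg hy 6) (pow_nonneg hz 1), mul_nonneg (pow_nonneg hy 7) (pow_nonneg hz 0)]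
  have hy : 0 ≤ x - (17 / 2) := by linarith
  have hz : 0 ≤ 17 - x := by linarith only [h]
  linarith [mul_nonneg (pow_nonneg hy 0) (pow_nonneg hz 7), mul_nonneg (pow_nonneg hy 1) (pow_nonneg hz 6), mul_nonneg (pow_nonneg hy 2) (pow_nonneg hz 5), mul_nonneg (pow_nonneg hy 3) (pow_nonneg hz 4), mul_nonneg (pow_nonneg hy 4) (pow_nonneg hz 3), mul_nonneg (pow_nonneg hy 5) (pow_nonneg hz 2), mul_nonneg (pow_nonneg hy 6) (pow_nonneg hz 1), mul_nonneg (pow_nonneg hy 7) (pow_nonneg hz 0)]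

lemma gauss_case10 (t : ℝ) : 1 + (169 / 1000) * cosh t ≤ (1 + (169 / 1000)) * exp ((617 / 6250) * t ^ 2) := by
  refine gauss8 (a := (169 / 1000)) (g := (617 / 6250)) (c0 := (77259 / 2500000)) (c1 := (-26907 / 20000000)) (c2 := (-29547 / 625000000)) (c3 := (17389 / 40000000000)) (c4 := (447677 / 10000000000000)) (c5 := (57501 / 50000000000000)) (c6 := (192557 / 10000000000000000)) (c7 := (12673 / 50000000000000000))
    (by norm_num) (by norm_num1) (by norm_num) (by norm_num) (by norm_num) (by norm_num) (by norm_num)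
    (by norm_num) (by norm_num) (by norm_num) (by norm_num) ?_ t
  intro x hx
  rcases le_or_gt 20 x with h | h
  · have hu : 0 ≤ x - 20 := by linarith
    linarith [pow_nonneg hu 1, pow_nonneg hu 2, pow_nonneg hu 3, pow_nonneg hu 4, pow_nonneg hu 5, pow_nonneg hu 6, pow_nonneg hu 7]
  have hy : 0 ≤ x - 0 := by linarith
  have hz : 0 ≤ 20 - x := by linarith
  linarith [mul_nonneg (pow_nonneg hy 0) (pow_nonneg hz 7), mul_nonneg (pow_nonneg hy 1) (pow_nonneg hz 6), mul_nonneg (pow_nonneg hy 2) (pow_nonneg hz 5), mul_nonneg (pow_nonneg hy 3) (pow_nonneg hz 4), mul_nonneg (pow_nonneg hy 4) (pow_nonneg hz 3), mul_nonneg (pow_nonneg hy 5) (pow_nonneg hz 2), mul_nonneg (pow_nonneg hy 6) (pow_nonneg hz 1), mul_nonneg (pow_nonneg hy 7) (pow_nonneg hz 0)]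

lemma gauss_case11 (t : ℝ) : 1 + (73 / 500) * cosh t ≤ (1 + (73 / 500)) * exp ((9351 / 100000) * t ^ 2) := by
  refine gauss8 (a := (73 / 500)) (g := (9351 / 100000)) (c0 := (42703 / 1250000)) (c1 := (-3353 / 3125000)) (c2 := (-466043 / 10000000000)) (c3 := (149579 / 5000000000000)) (c4 := (280463 / 10000000000000)) (c5 := (759343 / 1000000000000000)) (c6 := (125407 / 10000000000000000)) (c7 := (79591 / 500000000000000000))
    (by norm_num) (by norm_num1) (by norm_num) (by norm_num) (by norm_num) (by norm_num) (by norm_num)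
    (by norm_num) (by norm_num) (by norm_num) (by norm_num) ?_ t
  intro x hx
  rcases le_or_gt 24 x with h | h
  · have hu : 0 ≤ x - 24 := by linarith
    linarith [pow_nonneg hu 1, pow_nonneg hu 2, pow_nonneg hu 3, pow_nonneg hu 4, pow_nonneg hu 5, pow_nonneg hu 6, pow_nonneg hu 7]
  rcases le_or_gt x 12 with h0 | h0
  · have hy : 0 ≤ x - 0 := by linarith
    have hz : 0 ≤ 12 - x := by linarith
    linarith [mul_nonneg (pow_nonneg hy 0) (pow_nonneg hz 7), mul_nonneg (pow_nonneg hy 1) (pow_nonneg hz 6), mul_nonneg (pow_nonneg hy 2) (pow_nonneg hz 5), mul_nonneg (pow_nonneg hy 3) (pow_nonneg hz 4), mul_nonneg (pow_nonneg hy 4) (pow_nonneg hz 3), mul_nonneg (pow_nonneg hy 5) (pow_nonneg hz 2), mul_nonneg (pow_nonneg hy 6) (pow_nonneg hz 1), mul_nonneg (pow_nonneg hy 7) (pow_nonneg hz 0)]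
  rcases le_or_gt x 18 with h1 | h1
  · have hy : 0 ≤ x - 12 := by linarith
    have hz : 0 ≤ 18 - x := by linarith
    linarith [mul_nonneg (pow_nonneg hy 0) (pow_nonneg hz 7), mul_nonneg (pow_nonneg hy 1) (pow_nonneg hz 6), mul_nonneg (pow_nonneg hy 2) (pow_nonneg hz 5), mul_nonneg (pow_nonneg hy 3) (pow_nonneg hz 4), mul_nonneg (pow_nonneg hy 4) (pow_nonneg hz 3), mul_nonneg (pow_nonneg hy 5) (pow_nonneg hz 2), mul_nonneg (pow_nonneg hy 6) (pow_nonneg hz 1), mul_nonneg (pow_nonneg hy 7) (pow_nonneg hz 0)]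
  have hy : 0 ≤ x - 18 := by linarith
  have hz : 0 ≤ 24 - x := by linarith
  linarith [mul_nonneg (pow_nonneg hy 0) (pow_nonneg hz 7), mul_nonneg (pow_nonneg hy 1) (pow_nonneg hz 6), mul_nonneg (pow_nonneg hy 2) (pow_nonneg hz 5), mul_nonneg (pow_nonneg hy 3) (pow_nonneg hz 4), mul_nonneg (pow_nonneg hy 4) (pow_nonneg hz 3), mul_nonneg (pow_nonneg hy 5) (pow_nonneg hz 2), mul_nonneg (pow_nonneg hy 6) (pow_nonneg hz 1), mul_nonneg (pow_nonneg hy 7) (pow_nonneg hz 0)]

lemma gauss_case12 (t : ℝ) : 1 + (131 / 1000) * cosh t ≤ (1 + (131 / 1000)) * exp ((9011 / 100000) * t ^ 2) := by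
  refine gauss8 (a := (131 / 1000)) (g := (9011 / 100000)) (c0 := (22759 / 625000)) (c1 := (-43329 / 50000000)) (c2 := (-88047 / 2000000000)) (c3 := (-70997 / 500000000000)) (c4 := (39789 / 2000000000000)) (c5 := (28373 / 50000000000000)) (c6 := (93227 / 10000000000000000)) (c7 := (115673 / 1000000000000000000))
    (by norm_num) (by norm_num1) (by norm_num) (by norm_num) (by norm_num) (by norm_num) (by norm_num)
    (by norm_num) (by norm_num) (by norm_num) (by norm_num) ?_ t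
  intro x hx
  rcases le_or_gt 26 x with h | h
  · have hu : 0 ≤ x - 26 := by linarith
    linarith [pow_nonneg hu 1, pow_nonneg hu 2, pow_nonneg hu 3, pow_nonneg hu 4, pow_nonneg hu 5, pow_nonneg hu 6, pow_nonneg hu 7]
  have hy : 0 ≤ x - 0 := by linarith
  have hz : 0 ≤ 26 - x := by linarith
  linarith [mul_nonneg (pow_nonneg hy 0) (pow_nonneg hz 7), mul_nonneg (pow_nonneg hy 1) (pow_nonneg hz 6), mul_nonneg (pow_nonneg hy 2) (pow_nonneg hz 5), mul_nonneg (pow_nonneg hy 3) (pow_nonneg hz 4), mul_nonneg (pow_nonneg hy 4) (pow_nonneg hz 3), mul_nonneg (pow_nonneg hy 5) (pow_nonneg hz 2), mul_nonneg (pow_nonneg hy 6) (pow_nonneg hz 1), mul_nonneg (pow_nonneg hy 7) (pow_nonneg hz 0)]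

lemma gauss_case13 (t : ℝ) : 1 + (121 / 1000) * cosh t ≤ (1 + (121 / 1000)) * exp ((8771 / 100000) * t ^ 2) := by
  refine gauss8 (a := (121 / 1000)) (g := (8771 / 100000)) (c0 := (378229 / 10000000)) (c1 := (-182429 / 250000000)) (c2 := (-83977 / 2000000000)) (c3 := (-236657 / 1000000000000)) (c4 := (37869 / 2500000000000)) (c5 := (456263 / 1000000000000000)) (c6 := (37471 / 5000000000000000)) (c7 := (457993 / 5000000000000000000))
    (by norm_num) (by norm_num1) (by norm_num) (by norm_num) (by norm_num) (by (clear * -; norm_num)) (by norm_num)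
    (by norm_num) (by norm_num) (by norm_num) (by norm_num) ?_ t
  intro x hx
  rcases le_or_gt 28 x with h | h
  · have hu : 0 ≤ x - 28 := by linarith
    linarith [pow_nonneg hu 1, pow_nonneg hu 2, pow_nonneg hu 3, pow_nonneg hu 4, pow_nonneg hu 5, pow_nonneg hu 6, pow_nonneg hu 7]
  have hy : 0 ≤ x - 0 := by linarith
  have hz : 0 ≤ 28 - x := by linarith
  linarith [mul_nonneg (pow_nonneg hy 0) (pow_nonneg hz 7), mul_nonneg (pow_nonneg hy 1) (pow_nonneg hz 6), mul_nonneg (pow_nonneg hy 2) (pow_nonneg hz 5), mul_nonneg (pow_nonneg hy 3) (pow_nonneg hz 4), mul_nonneg (pow_nonneg hy 4) (pow_nonneg hz 3), mul_nonneg (pow_nonneg hy 5) (pow_nonneg hz 2), mul_nonneg (pow_nonneg hy 6) (pow_nonneg hz 1), mul_nonneg (pow_nonneg hy 7) (pow_nonneg hz 0)]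

lemma gauss_case14 (t : ℝ) : 1 + (57 / 500) * cosh t ≤ (1 + (57 / 500)) * exp ((8593 / 100000) * t ^ 2) := by
  refine gauss8 (a := (57 / 500)) (g := (8593 / 100000)) (c0 := (19363 / 500000)) (c1 := (-159283 / 250000000)) (c2 := (-405271 / 10000000000)) (c3 := (-9269 / 31250000000)) (c4 := (24157 / 2000000000000)) (c5 := (384909 / 1000000000000000)) (c6 := (633893 / 100000000000000000)) (c7 := (383427 / 5000000000000000000))
    (by norm_num) (by norm_num1) (by norm_num) (by norm_num) (by norm_num) (by norm_num) (by norm_num)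
    (by norm_num) (by norm_num) (by norm_num) (by norm_num) ?_ t
  intro x hx
  rcases le_or_gt 30 x with h | h
  · have hu : 0 ≤ x - 30 := by linarith
    linarith [pow_nonneg hu 1, pow_nonneg hu 2, pow_nonneg hu 3, pow_nonneg hu 4, pow_nonneg hu 5, pow_nonneg hu 6, pow_nonneg hu 7]
  rcases le_or_gt x 15 with h0 | h0
  · have hy : 0 ≤ x - 0 := by linarith
    have hz : 0 ≤ 15 - x := by linarith
    linarith [mul_nonneg (pow_nonneg hy 0) (pow_nonneg hz 7), mul_nonneg (pow_nonneg hy 1) (pow_nonneg hz 6), mul_nonneg (pow_nonneg hy 2) (pow_nonneg hz 5), mul_nonneg (pow_nonneg hy 3) (pow_nonneg hz 4), mul_nonneg (pow_nonneg hy 4) (pow_nonneg hz 3), mul_nonneg (pow_nonneg hy 5) (pow_nonneg hz 2), mul_nonneg (pow_nonneg hy 6) (pow_nonneg hz 1), mul_nonneg (pow_nonneg hy 7) (pow_nonneg hz 0)]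
  rcases le_or_gt x (45 / 2) with h1 | h1
  · have hy : 0 ≤ x - 15 := by linarith
    have hz : 0 ≤ (45 / 2) - x := by linarith
    linarith [mul_nonneg (pow_nonneg hy 0) (pow_nonneg hz 7), mul_nonneg (pow_nonneg hy 1) (pow_nonneg hz 6), mul_nonneg (pow_nonneg hy 2) (pow_nonneg hz 5), mul_nonneg (pow_nonneg hy 3) (pow_nonneg hz 4), mul_nonneg (pow_nonneg hy 4) (pow_nonneg hz 3), mul_nonneg (pow_nonneg hy 5) (pow_nonneg hz 2), mul_nonneg (pow_nonneg hy 6) (pow_nonneg hz 1), mul_nonneg (pow_nonneg hy 7) (pow_nonneg hz 0)]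
  have hy : 0 ≤ x - (45 / 2) := by linarith
  have hz : 0 ≤ 30 - x := by linarith only [h]
  linarith only [mul_nonneg (pow_nonneg hy 0) (pow_nonneg hz 7), mul_nonneg (pow_nonneg hy 1) (pow_nonneg hz 6), mul_nonneg (pow_nonneg hy 2) (pow_nonneg hz 5), mul_nonneg (pow_nonneg hy 3) (pow_nonneg hz 4), mul_nonneg (pow_nonneg hy 4) (pow_nonneg hz 3), mul_nonneg (pow_nonneg hy 5) (pow_nonneg hz 2), mul_nonneg (pow_nonneg hy 7) (pow_nonneg hz 0)]

end Vale.Agent.P105
end
end

section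

section

open Real Finset

namespace Vale.Agent.P105

/-- Gaussian test function inequality with parameter `c` for Mahler measure `M` -/
def GaussOK (M c : ℝ) : Prop :=
  ∀ t : ℝ, 1 + exp (-c) * cosh t ≤ (1 + exp (-c)) * exp ((1 - (M ^ 2)⁻¹) / (4 * c) * t ^ 2)

lemma interval_case {M Mi Mj a g cb : ℝ} (hM1 : Mi ≤ M) (hM2 : M ≤ Mj) (hMi : 1 < Mi)
    (ha0 : 0 < a) (ha1 : a < 1) (hI : ∀ t, 1 + a * cosh t ≤ (1 + a) * exp (g * t ^ 2))
    (hcb0 : 0 ≤ cb) (hg0 : 0 ≤ g)
    (hcb : a⁻¹ ≤ ∑ k ∈ range 16, cb ^ k / k.factorial) (hg : 4 * g * cb ≤ 1 - (Mi ^ 2)⁻¹)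
    (hpow : Mj ^ 27 ≤ (2 / (1 + a)) ^ 32) :
    ∃ c, 0 < c ∧ GaussOK M c ∧ 27 / 32 * log M ≤ log (2 / (1 + exp (-c))) := by
  have hM0 : 0 < M := by linarith only [hM1, hMi]
  refine ⟨log a⁻¹, ?_, ?_, ?_⟩
  · exact log_pos ((one_lt_inv₀ ha0).mpr ha1)
  · have hea : exp (-log a⁻¹) = a := by rw [log_inv, neg_neg, exp_log ha0]
    intro t
    rw [hea]
    have hc0 : 0 < log a⁻¹ := log_pos ((one_lt_inv₀ ha0).mpr ha1)
    have hc1 : log a⁻¹ ≤ cb := by
      rw [log_le_iff_le_exp (inv_pos.mpr ha0)]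
      exact hcb.trans (sum_le_exp_of_nonneg hcb0 16)
    have h3 : (M ^ 2)⁻¹ ≤ (Mi ^ 2)⁻¹ := by
      apply inv_anti₀ (by positivity)
      (clear * - hMi hM1; gcongr)
    have h4 : g ≤ (1 - (M ^ 2)⁻¹) / (4 * log a⁻¹) := by
      rw [le_div_iff₀ (by positivity)]
      calc g * (4 * log a⁻¹) ≤ g * (4 * cb) := by (clear * - hc1 hg0; (clear * - hc1 hg0; gcongr))
        _ = 4 * g * cb := by ring
        _ ≤ 1 - (Mi ^ 2)⁻¹ := hg
        _ ≤ _ := by linarith only [h3]
    refine (hI t).trans ?_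
    apply mul_le_mul_of_nonneg_left _ (by linarith only [ha0])
    apply exp_le_exp.mpr
    exact mul_le_mul_of_nonneg_right h4 (sq_nonneg t)
  · have hea : exp (-log a⁻¹) = a := by rw [log_inv, neg_neg, exp_log ha0]
    rw [hea]
    have h1 : M ^ 27 ≤ (2 / (1 + a)) ^ 32 := by
      refine le_trans ?_ hpow
      (clear * - hM0 hM2; gcongr)
    have h2 := log_le_log (by positivity) h1
    rw [log_pow, log_pow] at h2
    push_cast at h2
    linarith only [h2]

lemma small_case {M : ℝ} (h1 : 1 < M) (h2 : M ≤ 32 / 25) :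
    ∃ c, 0 < c ∧ GaussOK M c ∧ 27 / 32 * log M ≤ log (2 / (1 + exp (-c))) := by
  have hM0 : 0 < M := by linarith only [h1]
  set u := (M ^ 2 - 1) / (M ^ 2 + 1) with hu
  have hM2 : 1 < M ^ 2 := by nlinarith only [h1]
  have hu0 : 0 < u := div_pos (by linarith only [hM2]) (by linarith only [hM2])
  refine ⟨2 * u, by (clear * - hM2 h1; positivity), ?_, ?_⟩
  · intro t
    set a := exp (-(2 * u)) with ha
    have ha0 : 0 < a := exp_pos _
    have hg : (1 - (M ^ 2)⁻¹) / (4 * (2 * u)) = (1 + (M ^ 2)⁻¹) / 8 := by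
      rw [hu]
      have h3 : M ^ 2 - 1 ≠ 0 := by linarith only [hM2]
      field_simp
      try norm_num
    rw [hg]
    set g := (1 + (M ^ 2)⁻¹) / 8 with hgd
    have hM3 : M ^ 2 ≤ 1.7 := by nlinarith only [h1, h2]
    have hinv : (1 : ℝ) / 1.7 ≤ (M ^ 2)⁻¹ := by
      rw [one_div]
      exact inv_anti₀ (by positivity) hM3
    have hg6 : 1 / 6 ≤ g := by
      rw [hgd]
      norm_num1 at hinv
      linarith only [hinv]
    -- first coefficient
    have ha1 : a * (1 + 2 * u) ≤ 1 := by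
      have h3 : 1 + 2 * u ≤ exp (2 * u) := by
        have := add_one_le_exp (2 * u)
        linarith only [this]
      calc a * (1 + 2 * u) ≤ a * exp (2 * u) := by (clear * - h3; gcongr)
        _ = 1 := by rw [ha, ← exp_add]; simp
    have hcoef : a / 2 ≤ (1 + a) * g := by
      have h4 : g = 1 / (4 * (1 + u)) := by
        rw [hgd, hu]
        field_simp
        ring
      rw [h4, mul_one_div, le_div_iff₀ (by (clear * - hM2 h1; positivity))]
      linarith only [ha1]
    exact gauss_simple ha0.le hg6 hcoef t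
  · set a := exp (-(2 * u)) with ha
    have h3 : 2 / (1 + a) = exp u / cosh u := by
      rw [cosh_eq, ha]
      have e1 : exp (-(2 * u)) = exp (-u) * exp (-u) := by rw [← exp_add]; congr 1; ring
      have e2 : exp u * exp (-u) = 1 := by rw [← exp_add]; simp
      rw [e1]
      have h4 := exp_pos u
      have h5 := exp_pos (-u)
      rw [div_eq_div_iff (by positivity) (by positivity)]
      linear_combination (-exp (-u)) * e2
    rw [h3, log_div (exp_pos _).ne' (cosh_pos u).ne', log_exp]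
    have h4 : log (cosh u) ≤ u ^ 2 / 2 := by
      rw [log_le_iff_le_exp (cosh_pos u)]
      exact cosh_le_exp_half_sq u
    have h5 : log M ≤ (M ^ 2 - 1) / (2 * M) := by
      have h6 : log M ≤ sinh (log M) := self_le_sinh_iff.mpr (log_nonneg h1.le)
      rw [sinh_log hM0] at h6
      refine h6.trans (le_of_eq ?_)
      (clear * - h1; field_simp)
      try norm_num
    have h6 : 27 / 32 * ((M ^ 2 - 1) / (2 * M)) ≤ u - u ^ 2 / 2 := by
      have e : u - u ^ 2 / 2 = (M ^ 2 - 1) * (M ^ 2 + 3) / (2 * (M ^ 2 + 1) ^ 2) := by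
        rw [hu]; field_simp; ring
      have e' : 27 / 32 * ((M ^ 2 - 1) / (2 * M)) = (M ^ 2 - 1) * (27 / 32) / (2 * M) := by ring
      rw [e, e', div_le_div_iff₀ (by positivity) (by positivity)]
      have key : 27 * (M ^ 2 + 1) ^ 2 ≤ 32 * M * (M ^ 2 + 3) := by
        linarith only [h2, mul_nonneg (sub_nonneg.mpr h1.le) (sub_nonneg.mpr h2), mul_nonneg (mul_nonneg (sub_nonneg.mpr h1.le) (sub_nonneg.mpr h2)) (sub_nonneg.mpr h1.le), mul_nonneg (mul_nonneg (sub_nonneg.mpr h1.le) (sub_nonneg.mpr h2)) (mul_nonneg (sub_nonneg.mpr h1.le) (sub_nonneg.mpr h1.le))]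
      have h7 : 0 < M ^ 2 - 1 := by linarith only [hM2]
      linarith only [mul_nonneg_of_nonpos_of_nonpos (le_of_lt (Mathlib.Tactic.Linarith.sub_neg_of_lt hM2)) (Mathlib.Tactic.Linarith.sub_nonpos_of_le key)]
    linarith only [h4, h5, h6]

lemma interval0 {M : ℝ} (h1 : (32 / 25) ≤ M) (h2 : M ≤ (1309 / 1000)) :
    ∃ c, 0 < c ∧ GaussOK M c ∧ 27 / 32 * log M ≤ log (2 / (1 + exp (-c))) :=
  interval_case (a := (593 / 1000)) (g := (233 / 1250)) (cb := (26129 / 50000)) h1 h2 (by norm_num) (by norm_num1)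
    (by norm_num) gauss_case0 (by norm_num) (by norm_num)
    (by norm_num [Finset.sum_range_succ, Nat.factorial]) (by norm_num) (by norm_num)

lemma interval1 {M : ℝ} (h1 : (1309 / 1000) ≤ M) (h2 : M ≤ (1341 / 1000)) :
    ∃ c, 0 < c ∧ GaussOK M c ∧ 27 / 32 * log M ≤ log (2 / (1 + exp (-c))) :=
  interval_case (a := (561 / 1000)) (g := (2251 / 12500)) (cb := (11561 / 20000)) h1 h2 (by norm_num) (by norm_num)
    (by norm_num) gauss_case1 (by norm_num) (by norm_num)
    (by norm_num [Finset.sum_range_succ, Nat.factorial]) (by norm_num) (by norm_num)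

lemma interval2 {M : ℝ} (h1 : (1341 / 1000) ≤ M) (h2 : M ≤ (1377 / 1000)) :
    ∃ c, 0 < c ∧ GaussOK M c ∧ 27 / 32 * log M ≤ log (2 / (1 + exp (-c))) :=
  interval_case (a := (263 / 500)) (g := (17273 / 100000)) (cb := (64247 / 100000)) h1 h2 (by norm_num) (by norm_num)
    (by norm_num) gauss_case2 (by norm_num) (by norm_num)
    (by norm_num [Finset.sum_range_succ, Nat.factorial]) (by norm_num) (by norm_num)

lemma interval3 {M : ℝ} (h1 : (1377 / 1000) ≤ M) (h2 : M ≤ (711 / 500)) :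
    ∃ c, 0 < c ∧ GaussOK M c ∧ 27 / 32 * log M ≤ log (2 / (1 + exp (-c))) :=
  interval_case (a := (243 / 500)) (g := (8187 / 50000)) (cb := (18039 / 25000)) h1 h2 (by norm_num) (by norm_num1)
    (by norm_num) gauss_case3 (by norm_num) (by norm_num)
    (by norm_num [Finset.sum_range_succ, Nat.factorial]) (by norm_num) (by norm_num)

lemma interval4 {M : ℝ} (h1 : (711 / 500) ≤ M) (h2 : M ≤ (369 / 250)) :
    ∃ c, 0 < c ∧ GaussOK M c ∧ 27 / 32 * log M ≤ log (2 / (1 + exp (-c))) :=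
  interval_case (a := (11 / 25)) (g := (15391 / 100000)) (cb := (821 / 1000)) h1 h2 (by norm_num) (by norm_num1)
    (by norm_num) gauss_case4 (by norm_num) (by norm_num)
    (by norm_num [Finset.sum_range_succ, Nat.factorial]) (by norm_num) (by norm_num)

lemma interval5 {M : ℝ} (h1 : (369 / 250) ≤ M) (h2 : M ≤ (1539 / 1000)) :
    ∃ c, 0 < c ∧ GaussOK M c ∧ 27 / 32 * log M ≤ log (2 / (1 + exp (-c))) :=
  interval_case (a := (39 / 100)) (g := (14363 / 100000)) (cb := (47081 / 50000)) h1 h2 (by (clear * -; norm_num)) (by norm_num1)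
    (by norm_num) gauss_case5 (by norm_num) (by norm_num)
    (by norm_num [Finset.sum_range_succ, Nat.factorial]) (by norm_num) (by norm_num)

lemma interval6 {M : ℝ} (h1 : (1539 / 1000) ≤ M) (h2 : M ≤ (161 / 100)) :
    ∃ c, 0 < c ∧ GaussOK M c ∧ 27 / 32 * log M ≤ log (2 / (1 + exp (-c))) :=
  interval_case (a := (169 / 500)) (g := (3329 / 25000)) (cb := (13559 / 12500)) h1 h2 (by norm_num) (by norm_num)
    (by norm_num) gauss_case6 (by norm_num) (by norm_num)
    (by norm_num [Finset.sum_range_succ, Nat.factorial]) (by norm_num) (by norm_num)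

lemma interval7 {M : ℝ} (h1 : (161 / 100) ≤ M) (h2 : M ≤ (843 / 500)) :
    ∃ c, 0 < c ∧ GaussOK M c ∧ 27 / 32 * log M ≤ log (2 / (1 + exp (-c))) :=
  interval_case (a := (287 / 1000)) (g := (12301 / 100000)) (cb := (124829 / 100000)) h1 h2 (by norm_num) (by norm_num1)
    (by norm_num) gauss_case7 (by norm_num) (by norm_num)
    (by norm_num [Finset.sum_range_succ, Nat.factorial]) (by norm_num) (by norm_num)

lemma interval8 {M : ℝ} (h1 : (843 / 500) ≤ M) (h2 : M ≤ (881 / 500)) :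
    ∃ c, 0 < c ∧ GaussOK M c ∧ 27 / 32 * log M ≤ log (2 / (1 + exp (-c))) :=
  interval_case (a := (6 / 25)) (g := (2271 / 20000)) (cb := (142713 / 100000)) h1 h2 (by norm_num) (by norm_num1)
    (by norm_num) gauss_case8 (by norm_num) (by norm_num)
    (by norm_num [Finset.sum_range_succ, Nat.factorial]) (by norm_num) (by norm_num)

lemma interval9 {M : ℝ} (h1 : (881 / 500) ≤ M) (h2 : M ≤ (229 / 125)) :
    ∃ c, 0 < c ∧ GaussOK M c ∧ 27 / 32 * log M ≤ log (2 / (1 + exp (-c))) :=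
  interval_case (a := (1 / 5)) (g := (1053 / 10000)) (cb := (32189 / 20000)) h1 h2 (by norm_num) (by norm_num)
    (by norm_num) gauss_case9 (by norm_num) (by norm_num)
    (by norm_num [Finset.sum_range_succ, Nat.factorial]) (by norm_num) (by norm_num)

lemma interval10 {M : ℝ} (h1 : (229 / 125) ≤ M) (h2 : M ≤ (1889 / 1000)) :
    ∃ c, 0 < c ∧ GaussOK M c ∧ 27 / 32 * log M ≤ log (2 / (1 + exp (-c))) :=
  interval_case (a := (169 / 1000)) (g := (617 / 6250)) (cb := (177787 / 100000)) h1 h2 (by norm_num) (by norm_num1)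
    (by norm_num) gauss_case10 (by norm_num) (by norm_num)
    (by norm_num [Finset.sum_range_succ, Nat.factorial]) (by norm_num) (by norm_num)

lemma interval11 {M : ℝ} (h1 : (1889 / 1000) ≤ M) (h2 : M ≤ (967 / 500)) :
    ∃ c, 0 < c ∧ GaussOK M c ∧ 27 / 32 * log M ≤ log (2 / (1 + exp (-c))) :=
  interval_case (a := (73 / 500)) (g := (9351 / 100000)) (cb := (6013 / 3125)) h1 h2 (by norm_num) (by norm_num1)
    (by norm_num) gauss_case11 (by norm_num) (by norm_num)
    (by norm_num [Finset.sum_range_succ, Nat.factorial]) (by norm_num) (by norm_num)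

lemma interval12 {M : ℝ} (h1 : (967 / 500) ≤ M) (h2 : M ≤ (393 / 200)) :
    ∃ c, 0 < c ∧ GaussOK M c ∧ 27 / 32 * log M ≤ log (2 / (1 + exp (-c))) :=
  interval_case (a := (131 / 1000)) (g := (9011 / 100000)) (cb := (203257 / 100000)) h1 h2 (by norm_num) (by norm_num1)
    (by norm_num) gauss_case12 (by norm_num) (by norm_num)
    (by norm_num [Finset.sum_range_succ, Nat.factorial]) (by norm_num) (by norm_num)

lemma interval13 {M : ℝ} (h1 : (393 / 200) ≤ M) (h2 : M ≤ (993 / 500)) :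
    ∃ c, 0 < c ∧ GaussOK M c ∧ 27 / 32 * log M ≤ log (2 / (1 + exp (-c))) :=
  interval_case (a := (121 / 1000)) (g := (8771 / 100000)) (cb := (105599 / 50000)) h1 h2 (by norm_num) (by norm_num1)
    (by norm_num) gauss_case13 (by norm_num) (by norm_num)
    (by norm_num [Finset.sum_range_succ, Nat.factorial]) (by norm_num) (by norm_num)

lemma interval14 {M : ℝ} (h1 : (993 / 500) ≤ M) (h2 : M ≤ 2) :
    ∃ c, 0 < c ∧ GaussOK M c ∧ 27 / 32 * log M ≤ log (2 / (1 + exp (-c))) :=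
  interval_case (a := (57 / 500)) (g := (8593 / 100000)) (cb := (217157 / 100000)) h1 h2 (by norm_num) (by norm_num)
    (by norm_num) gauss_case14 (by norm_num) (by norm_num)
    (by norm_num [Finset.sum_range_succ, Nat.factorial]) (by norm_num) (by norm_num)

/-- **Uniform entropy bound for Mahler measure at most 2.** -/
theorem gauss_exists {M : ℝ} (h1 : 1 < M) (h2 : M ≤ 2) :
    ∃ c, 0 < c ∧ GaussOK M c ∧ 27 / 32 * log M ≤ log (2 / (1 + exp (-c))) := by
  rcases le_or_gt M (32 / 25) with h | h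
  · exact small_case h1 h
  rcases le_or_gt M (1309 / 1000) with k0 | k0
  · exact interval0 h.le k0
  rcases le_or_gt M (1341 / 1000) with k1 | k1
  · exact interval1 k0.le k1
  rcases le_or_gt M (1377 / 1000) with k2 | k2
  · exact interval2 k1.le k2
  rcases le_or_gt M (711 / 500) with k3 | k3
  · exact interval3 k2.le k3
  rcases le_or_gt M (369 / 250) with k4 | k4
  · exact interval4 k3.le k4
  rcases le_or_gt M (1539 / 1000) with k5 | k5
  · exact interval5 k4.le k5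
  rcases le_or_gt M (161 / 100) with k6 | k6
  · exact interval6 k5.le k6
  rcases le_or_gt M (843 / 500) with k7 | k7
  · exact interval7 k6.le k7
  rcases le_or_gt M (881 / 500) with k8 | k8
  · exact interval8 k7.le k8
  rcases le_or_gt M (229 / 125) with k9 | k9
  · exact interval9 k8.le k9
  rcases le_or_gt M (1889 / 1000) with k10 | k10
  · exact interval10 k9.le k10
  rcases le_or_gt M (967 / 500) with k11 | k11
  · exact interval11 k10.le k11
  rcases le_or_gt M (393 / 200) with k12 | k12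
  · exact interval12 k11.le k12
  rcases le_or_gt M (993 / 500) with k13 | k13
  · exact interval13 k12.le k13
  exact interval14 k13.le h2

end Vale.Agent.P105
end
end

section

section

open MeasureTheory Real Filter Topology
open scoped ENNReal

namespace Vale.Agent.P105

/-- smoothing of a measure by a complex kernel -/
noncomputable def smC (μ : Measure ℝ) (K : ℝ → ℂ) (x : ℝ) : ℂ := ∫ t, K (x - t) ∂μ

/-- the L1 norm of the complex smoothing -/
noncomputable def nrmC (μ : Measure ℝ) (K : ℝ → ℂ) : ℝ≥0∞ := ∫⁻ x, ‖smC μ K x‖ₑ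

lemma continuous_smC {μ : Measure ℝ} [IsFiniteMeasure μ] {K : ℝ → ℂ} (hK : Continuous K)
    (hb : ∃ C, ∀ x, ‖K x‖ ≤ C) : Continuous (smC μ K) := by
  obtain ⟨C, hC⟩ := hb
  unfold smC
  refine continuous_of_dominated (bound := fun _ => C) ?_ ?_ ?_ ?_
  · intro x
    exact (by fun_prop : Continuous fun t => K (x - t)).aestronglyMeasurable
  · intro x
    exact ae_of_all _ fun t => hC _
  · exact integrable_const _
  · exact ae_of_all _ fun t => by fun_prop

lemma integrable_kernelC {μ : Measure ℝ} [IsFiniteMeasure μ] {K : ℝ → ℂ} (hK : Continuous K)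
    (hb : ∃ C, ∀ x, ‖K x‖ ≤ C) (x : ℝ) : Integrable (fun t => K (x - t)) μ := by
  obtain ⟨C, hC⟩ := hb
  exact (integrable_const C).mono' (by fun_prop : Continuous fun t => K (x - t)).aestronglyMeasurable
    (ae_of_all _ fun t => hC _)

lemma nrmC_le {μ : Measure ℝ} [IsProbabilityMeasure μ] {K : ℝ → ℂ} (hK : Continuous K) :
    nrmC μ K ≤ ∫⁻ x, ‖K x‖ₑ := by
  unfold nrmC smC
  calc ∫⁻ x, ‖∫ t, K (x - t) ∂μ‖ₑ ≤ ∫⁻ x, ∫⁻ t, ‖K (x - t)‖ₑ ∂μ :=
        lintegral_mono fun x => enorm_integral_le_lintegral_enorm _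
    _ = ∫⁻ t, (∫⁻ x, ‖K (x - t)‖ₑ) ∂μ := by
        refine lintegral_lintegral_swap (f := fun x t => ‖K (x - t)‖ₑ) ?_
        exact (by fun_prop : Continuous fun p : ℝ × ℝ => ‖K (p.1 - p.2)‖ₑ).measurable.aemeasurable
    _ = ∫⁻ _t, (∫⁻ x, ‖K x‖ₑ) ∂μ :=
        lintegral_congr fun t => lintegral_sub_right_eq_self (fun x => ‖K x‖ₑ) t
    _ = ∫⁻ x, ‖K x‖ₑ := by simp

lemma smC_conv {μ ρ : Measure ℝ} [IsProbabilityMeasure μ] [IsProbabilityMeasure ρ]
    {K : ℝ → ℂ} (hK : Continuous K) (hb : ∃ C, ∀ x, ‖K x‖ ≤ C) (x : ℝ) :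
    smC (μ ∗ ρ) K x = ∫ a, smC ρ K (x - a) ∂μ := by
  unfold smC Measure.conv
  have hKx : Continuous fun t => K (x - t) := by fun_prop
  rw [integral_map (by fun_prop) hKx.aestronglyMeasurable]
  obtain ⟨C, hC⟩ := hb
  rw [integral_prod]
  · simp only [sub_sub]
  · refine (integrable_const C).mono' ?_ (ae_of_all _ fun t => hC _)
    exact (by fun_prop : Continuous fun p : ℝ × ℝ => K (x - (p.1 + p.2))).aestronglyMeasurable

lemma nrmC_conv_le_right {μ ρ : Measure ℝ} [IsProbabilityMeasure μ] [IsProbabilityMeasure ρ]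
    {K : ℝ → ℂ} (hK : Continuous K) (hb : ∃ C, ∀ x, ‖K x‖ ≤ C) :
    nrmC (μ ∗ ρ) K ≤ nrmC ρ K := by
  unfold nrmC
  have hc : Continuous (smC ρ K) := continuous_smC hK hb
  calc ∫⁻ x, ‖smC (μ ∗ ρ) K x‖ₑ = ∫⁻ x, ‖∫ a, smC ρ K (x - a) ∂μ‖ₑ := by
        congr 1; ext x; rw [smC_conv hK hb]
    _ ≤ ∫⁻ x, ∫⁻ a, ‖smC ρ K (x - a)‖ₑ ∂μ :=
        lintegral_mono fun x => enorm_integral_le_lintegral_enorm _
    _ = ∫⁻ a, (∫⁻ x, ‖smC ρ K (x - a)‖ₑ) ∂μ := by
        refine lintegral_lintegral_swap (f := fun x a => ‖smC ρ K (x - a)‖ₑ) ?_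
        exact (by fun_prop : Continuous fun p : ℝ × ℝ =>
          ‖smC ρ K (p.1 - p.2)‖ₑ).measurable.aemeasurable
    _ = ∫⁻ _t, (∫⁻ x, ‖smC ρ K x‖ₑ) ∂μ :=
        lintegral_congr fun t => lintegral_sub_right_eq_self (fun x => ‖smC ρ K x‖ₑ) t
    _ = ∫⁻ x, ‖smC ρ K x‖ₑ := by simp

/-- exact convolution identity for complex kernels -/
def ConvC (A B C : ℝ → ℂ) : Prop := ∀ x, ∫ t, A t * B (x - t) = C x

lemma smC_conv_mul {μ ρ : Measure ℝ} [IsProbabilityMeasure μ] [IsProbabilityMeasure ρ]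
    {A B C : ℝ → ℂ} (hA : Continuous A) (hB : Continuous B) (hC : Continuous C)
    (hAi : Integrable A) (hbB : ∃ C, ∀ x, ‖B x‖ ≤ C) (h : ConvC A B C) (x : ℝ) :
    smC (μ ∗ ρ) C x = ∫ s, smC μ A s * smC ρ B (x - s) := by
  have h1 : smC (μ ∗ ρ) C x = ∫ p : ℝ × ℝ, C (x - (p.1 + p.2)) ∂(μ.prod ρ) := by
    unfold smC Measure.conv
    have hKx : Continuous fun t => C (x - t) := by fun_prop
    rw [integral_map (by fun_prop) hKx.aestronglyMeasurable]
  rw [h1]
  have h2 : ∀ p : ℝ × ℝ, C (x - (p.1 + p.2)) = ∫ s, A (s - p.1) * B (x - s - p.2) := by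
    intro p
    rw [← h (x - (p.1 + p.2)), ← integral_sub_right_eq_self
      (fun s => A s * B (x - (p.1 + p.2) - s)) p.1]
    congr 1
    ext s
    congr 2
    ring
  simp_rw [h2]
  obtain ⟨K, hK⟩ := hbB
  have hint : Integrable (Function.uncurry fun (p : ℝ × ℝ) (s : ℝ) => A (s - p.1) * B (x - s - p.2))
      ((μ.prod ρ).prod volume) := by
    have hdom : Integrable (Function.uncurry fun (p : ℝ × ℝ) (s : ℝ) => A (s - p.1))
        ((μ.prod ρ).prod volume) := by
      have hm : AEStronglyMeasurable (Function.uncurry fun (p : ℝ × ℝ) (s : ℝ) => A (s - p.1))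
          ((μ.prod ρ).prod volume) :=
        (by fun_prop : Continuous (Function.uncurry fun (p : ℝ × ℝ) (s : ℝ) =>
          A (s - p.1))).aestronglyMeasurable
      rw [integrable_prod_iff hm]
      refine ⟨ae_of_all _ fun p => hAi.comp_sub_right p.1, ?_⟩
      have : (fun p : ℝ × ℝ => ∫ y : ℝ, ‖Function.uncurry (fun (p : ℝ × ℝ) (s : ℝ) => A (s - p.1))
          (p, y)‖) = fun _ => ∫ y, ‖A y‖ := by
        ext p
        simp only [Function.uncurry_apply_pair]
        exact integral_sub_right_eq_self (fun s => ‖A s‖) p.1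
      rw [this]
      exact integrable_const _
    refine (hdom.norm.mul_const K).mono' ?_ (ae_of_all _ fun q => ?_)
    · exact (by (clear * - hA hB; fun_prop) : Continuous (Function.uncurry fun (p : ℝ × ℝ) (s : ℝ) =>
          A (s - p.1) * B (x - s - p.2))).aestronglyMeasurable
    · simp only [Function.uncurry]
      rw [norm_mul]
      exact mul_le_mul_of_nonneg_left (hK _) (norm_nonneg _)
  rw [integral_integral_swap hint]
  congr 1
  ext s
  unfold smC
  exact integral_prod_mul (fun a => A (s - a)) (fun b => B (x - s - b))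

lemma nrmC_conv_le {μ ρ : Measure ℝ} [IsProbabilityMeasure μ] [IsProbabilityMeasure ρ]
    {A B C : ℝ → ℂ} (hA : Continuous A) (hB : Continuous B) (hC : Continuous C)
    (hAi : Integrable A) (hbA : ∃ C, ∀ x, ‖A x‖ ≤ C)
    (hbB : ∃ C, ∀ x, ‖B x‖ ≤ C) (h : ConvC A B C) :
    nrmC (μ ∗ ρ) C ≤ nrmC μ A * nrmC ρ B := by
  unfold nrmC
  have hcA : Continuous (smC μ A) := continuous_smC hA hbA
  have hcB : Continuous (smC ρ B) := continuous_smC hB hbB
  calc ∫⁻ x, ‖smC (μ ∗ ρ) C x‖ₑ = ∫⁻ x, ‖∫ s, smC μ A s * smC ρ B (x - s)‖ₑ := by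
        congr 1; ext x; rw [smC_conv_mul hA hB hC hAi hbB h]
    _ ≤ ∫⁻ x, ∫⁻ s, ‖smC μ A s * smC ρ B (x - s)‖ₑ :=
        lintegral_mono fun x => enorm_integral_le_lintegral_enorm _
    _ = ∫⁻ s, ∫⁻ x, ‖smC μ A s * smC ρ B (x - s)‖ₑ := by
        refine lintegral_lintegral_swap (f := fun x s => ‖smC μ A s * smC ρ B (x - s)‖ₑ) ?_
        exact (by (clear * - hcA hcB; fun_prop) : Continuous fun p : ℝ × ℝ =>
          ‖smC μ A p.2 * smC ρ B (p.1 - p.2)‖ₑ).measurable.aemeasurable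
    _ = ∫⁻ s, ‖smC μ A s‖ₑ * ∫⁻ x, ‖smC ρ B x‖ₑ := by
        refine lintegral_congr fun s => ?_
        simp_rw [enorm_mul]
        rw [lintegral_const_mul _ (by fun_prop : Continuous fun x => ‖smC ρ B (x - s)‖ₑ).measurable]
        congr 1
        exact lintegral_sub_right_eq_self (fun x => ‖smC ρ B x‖ₑ) s
    _ = (∫⁻ x, ‖smC μ A x‖ₑ) * ∫⁻ x, ‖smC ρ B x‖ₑ := by
        rw [lintegral_mul_const _ (by fun_prop : Continuous fun x => ‖smC μ A x‖ₑ).measurable]

/-- the twisted Gaussian kernel -/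
noncomputable def twK (w y u : ℝ) : ℂ := (G y u : ℂ) * Complex.exp (-(w * u : ℝ) * Complex.I)

/-- the twisted norm -/
noncomputable def tn (μ : Measure ℝ) (w y : ℝ) : ℝ≥0∞ := nrmC μ (twK w y)

lemma norm_twK (w y u : ℝ) : ‖twK w y u‖ = G y u := by
  unfold twK
  rw [norm_mul, Complex.norm_real, Real.norm_of_nonneg (G_nonneg y u), ← Complex.ofReal_neg,
    Complex.norm_exp_ofReal_mul_I, mul_one]

lemma continuous_twK (w y : ℝ) : Continuous (twK w y) := by
  have h := continuous_G y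
  unfold twK
  (clear * - h; fun_prop)

lemma bdd_twK {y : ℝ} (hy : 0 < y) (w : ℝ) : ∃ C, ∀ x, ‖twK w y x‖ ≤ C := by
  obtain ⟨C, hC⟩ := bdd_G' hy
  refine ⟨C, fun x => ?_⟩
  rw [norm_twK]
  exact (le_abs_self _).trans (hC x)

lemma integrable_twK {y : ℝ} (hy : 0 < y) (w : ℝ) : Integrable (twK w y) := by
  refine (integrable_G hy).mono' (continuous_twK w y).aestronglyMeasurable
    (ae_of_all _ fun x => ?_)
  rw [norm_twK]

lemma convC_twK {y z : ℝ} (hy : 0 < y) (hz : 0 < z) (w : ℝ) :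
    ConvC (twK w y) (twK w z) (twK w (y + z)) := by
  intro x
  have h : ∀ t, twK w y t * twK w z (x - t) =
      Complex.exp (-(w * x : ℝ) * Complex.I) * ((G y t * G z (x - t) : ℝ) : ℂ) := by
    intro t
    unfold twK
    have : Complex.exp (-(w * x : ℝ) * Complex.I) =
        Complex.exp (-(w * t : ℝ) * Complex.I) * Complex.exp (-(w * (x - t) : ℝ) * Complex.I) := by
      rw [← Complex.exp_add]
      congr 1
      push_cast
      ring
    rw [this]
    push_cast
    ring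
  simp_rw [h]
  rw [integral_const_mul, integral_complex_ofReal, convE_G hy hz x]
  unfold twK
  ring

lemma tn_le_one {μ : Measure ℝ} [IsProbabilityMeasure μ] {y : ℝ} (hy : 0 < y) (w : ℝ) :
    tn μ w y ≤ 1 := by
  refine (nrmC_le (continuous_twK w y)).trans (le_of_eq ?_)
  have h : ∀ x, ‖twK w y x‖ₑ = ENNReal.ofReal (G y x) := by
    intro x
    rw [← ofReal_norm, norm_twK]
  simp_rw [h]
  rw [← ofReal_integral_eq_lintegral_ofReal (integrable_G hy) (ae_of_all _ fun z => G_nonneg y z),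
    integral_G hy, ENNReal.ofReal_one]

lemma tn_conv_le {μ ρ : Measure ℝ} [IsProbabilityMeasure μ] [IsProbabilityMeasure ρ] {y z : ℝ}
    (hy : 0 < y) (hz : 0 < z) (w : ℝ) : tn (μ ∗ ρ) w (y + z) ≤ tn μ w y * tn ρ w z :=
  nrmC_conv_le (continuous_twK w y) (continuous_twK w z) (continuous_twK w _)
    (integrable_twK hy w) (bdd_twK hy w) (bdd_twK hz w) (convC_twK hy hz w)

lemma tn_conv_le_right {μ ρ : Measure ℝ} [IsProbabilityMeasure μ] [IsProbabilityMeasure ρ] {y : ℝ}
    (hy : 0 < y) (w : ℝ) : tn (μ ∗ ρ) w y ≤ tn ρ w y :=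
  nrmC_conv_le_right (continuous_twK w y) (bdd_twK hy w)

lemma tn_anti {μ : Measure ℝ} [IsProbabilityMeasure μ] {y z : ℝ} (hy : 0 < y) (hz : y ≤ z)
    (w : ℝ) : tn μ w z ≤ tn μ w y := by
  rcases hz.eq_or_lt with h | h
  · rw [h]
  · have h1 := tn_conv_le (μ := μ) (ρ := Measure.dirac 0) hy (sub_pos.mpr h) w
    rw [Measure.conv_dirac_zero, add_sub_cancel] at h1
    refine h1.trans ?_
    calc tn μ w y * tn (Measure.dirac 0) w (z - y) ≤ tn μ w y * 1 := by
          gcongr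
          exact tn_le_one (sub_pos.mpr h) w
      _ = tn μ w y := mul_one _

lemma twK_scale {y c : ℝ} (hy : 0 < y) (hc : 0 < c) (w u : ℝ) :
    twK w y (c * u) = (c⁻¹ : ℝ) * twK (c * w) (y / c ^ 2) u := by
  unfold twK
  rw [G_scale hy hc]
  have : w * (c * u) = c * w * u := by ring
  rw [this]
  push_cast
  ring

lemma tn_map {μ : Measure ℝ} {y c : ℝ} (hy : 0 < y) (hc : 0 < c) (w : ℝ)
    [IsFiniteMeasure μ] :
    tn (μ.map (c * ·)) w y = tn μ (c * w) (y / c ^ 2) := by
  have hyc : 0 < y / c ^ 2 := by positivity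
  have hK := continuous_twK w y
  have h1 : ∀ x, smC (μ.map (c * ·)) (twK w y) x = ∫ t, twK w y (x - c * t) ∂μ := by
    intro x
    unfold smC
    exact integral_map (by fun_prop)
      (by fun_prop : Continuous fun t => twK w y (x - t)).aestronglyMeasurable
  have h2 : ∀ x, smC (μ.map (c * ·)) (twK w y) (c * x) =
      (c⁻¹ : ℝ) * smC μ (twK (c * w) (y / c ^ 2)) x := by
    intro x
    rw [h1]
    unfold smC
    rw [← integral_const_mul]
    congr 1
    ext t
    rw [← mul_sub, twK_scale hy hc]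
  have hcont : Continuous (smC (μ.map (c * ·)) (twK w y)) :=
    continuous_smC hK (bdd_twK hy w)
  unfold tn nrmC
  rw [lintegral_comp_mul _ (by fun_prop : Continuous fun x =>
    ‖smC (μ.map (c * ·)) (twK w y) x‖ₑ).measurable hc]
  simp_rw [h2, enorm_mul]
  have hcs : Continuous (smC μ (twK (c * w) (y / c ^ 2))) :=
    continuous_smC (continuous_twK _ _) (bdd_twK hyc _)
  rw [lintegral_const_mul _ (by fun_prop : Continuous fun x =>
    ‖smC μ (twK (c * w) (y / c ^ 2)) x‖ₑ).measurable, ← mul_assoc]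
  have h3 : ENNReal.ofReal c * ‖((c⁻¹ : ℝ) : ℂ)‖ₑ = 1 := by
    rw [← ofReal_norm, Complex.norm_real, Real.norm_of_nonneg (by positivity),
      ← ENNReal.ofReal_mul hc.le, mul_inv_cancel₀ hc.ne', ENNReal.ofReal_one]
  rw [h3, one_mul]

/-- the twisted norm is even in the frequency -/
lemma tn_neg {μ : Measure ℝ} (w y : ℝ) : tn μ (-w) y = tn μ w y := by
  unfold tn nrmC
  refine lintegral_congr fun x => ?_
  have h : smC μ (twK (-w) y) x = (starRingEnd ℂ) (smC μ (twK w y) x) := by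
    unfold smC
    rw [← integral_conj]
    congr 1
    ext t
    unfold twK
    rw [map_mul, Complex.conj_ofReal, ← Complex.exp_conj]
    congr 2
    rw [map_mul, Complex.conj_I, ← Complex.ofReal_neg, ← Complex.ofReal_neg, Complex.conj_ofReal]
    push_cast
    ring
  rw [h, ← ofReal_norm, ← ofReal_norm, RCLike.norm_conj]

end Vale.Agent.P105
end
end

section

section

open MeasureTheory Real Filter Topology
open scoped ENNReal

namespace Vale.Agent.P105

/-- positivity of a bilinear expression is preserved by integration -/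
lemma bilin_nonneg {ι : Type*} [Fintype ι] {μ : Measure ℝ} [IsProbabilityMeasure μ]
    (F : ι → ℝ → ℝ) (hF : ∀ i, Integrable (F i) μ) (c : ι → ι → ℝ)
    (h : ∀ s t, 0 ≤ ∑ i, ∑ j, c i j * (F i s * F j t)) :
    0 ≤ ∑ i, ∑ j, c i j * ((∫ s, F i s ∂μ) * ∫ t, F j t ∂μ) := by
  have h1 : 0 ≤ ∫ p : ℝ × ℝ, ∑ i, ∑ j, c i j * (F i p.1 * F j p.2) ∂(μ.prod μ) :=
    integral_nonneg fun p => h p.1 p.2
  have h2 : ∀ i j, Integrable (fun p : ℝ × ℝ => c i j * (F i p.1 * F j p.2)) (μ.prod μ) :=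
    fun i j => ((hF i).mul_prod (hF j)).const_mul _
  rw [integral_finsetSum _ (fun i _ => integrable_finsetSum _ (fun j _ => h2 i j))] at h1
  have h3 : ∀ i, ∫ p : ℝ × ℝ, ∑ j, c i j * (F i p.1 * F j p.2) ∂(μ.prod μ) =
      ∑ j, c i j * ((∫ s, F i s ∂μ) * ∫ t, F j t ∂μ) := by
    intro i
    rw [integral_finsetSum _ (fun j _ => h2 i j)]
    refine Finset.sum_congr rfl fun j _ => ?_
    rw [integral_const_mul, integral_prod_mul]
  simpa only [h3] using h1

/-- the kernel controlling the large deviations of the noise -/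
noncomputable def tailK (y b u : ℝ) : ℝ := 2 * exp (-b) * (u ^ 2 * G (4 * y) u)

lemma tailK_nonneg (y b u : ℝ) : 0 ≤ tailK y b u := by
  have := G_nonneg (4 * y) u
  unfold tailK
  positivity

lemma tailK_eq {y : ℝ} (hy : 0 < y) (b u : ℝ) :
    tailK y b u = u ^ 2 * exp (3 * u ^ 2 / (8 * y) - b) * G y u := by
  unfold tailK G
  have e1 : √(2 * π * (4 * y)) = 2 * √(2 * π * y) := by
    have : 2 * π * (4 * y) = 2 ^ 2 * (2 * π * y) := by ring
    rw [this, Real.sqrt_mul (by positivity), Real.sqrt_sq (by norm_num)]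
  have e2 : exp (3 * u ^ 2 / (8 * y) - b) * exp (-u ^ 2 / (2 * y)) =
      exp (-b) * exp (-u ^ 2 / (2 * (4 * y))) := by
    rw [← exp_add, ← exp_add]
    congr 1
    field_simp
    ring
  rw [e1, mul_inv]
  calc 2 * exp (-b) * (u ^ 2 * (2⁻¹ * (√(2 * π * y))⁻¹ * exp (-u ^ 2 / (2 * (4 * y)))))
      = u ^ 2 * (√(2 * π * y))⁻¹ * (exp (-b) * exp (-u ^ 2 / (2 * (4 * y)))) := by ring
    _ = _ := by rw [← e2]; ring

lemma tailK_ge {w y b u : ℝ} (hw : 0 < w) (hy : 0 < y) (hb : b = 3 * π ^ 2 / (32 * (w ^ 2 * y)))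
    (hu : π ≤ 2 * w * |u|) : u ^ 2 * G y u ≤ tailK y b u := by
  rw [tailK_eq hy]
  have h1 : b ≤ 3 * u ^ 2 / (8 * y) := by
    rw [hb, div_le_div_iff₀ (by positivity) (by positivity)]
    have h2 : π ^ 2 ≤ 4 * w ^ 2 * u ^ 2 := by
      have := pow_le_pow_left₀ pi_pos.le hu 2
      rw [mul_pow, mul_pow, sq_abs] at this
      linarith only [this]
    have h3 := mul_le_mul_of_nonneg_right h2 hy.le
    linarith only [h3]
  have h2 : 1 ≤ exp (3 * u ^ 2 / (8 * y) - b) := one_le_exp (by linarith only [h1])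
  have h3 : 0 ≤ u ^ 2 * G y u := mul_nonneg (sq_nonneg u) (G_nonneg y u)
  calc u ^ 2 * G y u = 1 * (u ^ 2 * G y u) := (one_mul _).symm
    _ ≤ exp (3 * u ^ 2 / (8 * y) - b) * (u ^ 2 * G y u) := by gcongr
    _ = _ := by ring

/-- the pointwise inequality behind the gain estimate -/
lemma kernel_ineq {w y b : ℝ} (hw : 0 < w) (hy : 0 < y)
    (hb : b = 3 * π ^ 2 / (32 * (w ^ 2 * y))) (u u' : ℝ) :
    2 * w ^ 2 / π ^ 2 * ((u - u') ^ 2 * (G y u * G y u') - 4 * (tailK y b u * G y u') -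
      4 * (G y u * tailK y b u')) ≤ G y u * G y u' * (1 - cos (w * (u - u'))) := by
  have hG := G_nonneg y u
  have hG' := G_nonneg y u'
  have hT := tailK_nonneg y b u
  have hT' := tailK_nonneg y b u'
  have hpi := pi_pos
  by_cases hc : |w * (u - u')| ≤ π
  · have h1 := cos_le_one_sub_mul_cos_sq hc
    have h2 : 2 / π ^ 2 * (w * (u - u')) ^ 2 ≤ 1 - cos (w * (u - u')) := by linarith only [h1]
    have h3 := mul_le_mul_of_nonneg_left h2 (mul_nonneg hG hG')
    have h4 : 0 ≤ 2 * w ^ 2 / π ^ 2 * (4 * (tailK y b u * G y u') + 4 * (G y u * tailK y b u')) := by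
      (clear * - hw hT hG' hG hT'; (clear * - hw hT hG' hG hT'; positivity))
    calc _ = G y u * G y u' * (2 / π ^ 2 * (w * (u - u')) ^ 2) -
          2 * w ^ 2 / π ^ 2 * (4 * (tailK y b u * G y u') + 4 * (G y u * tailK y b u')) := by ring
      _ ≤ _ := by linarith only [h3, h4]
  · push Not at hc
    have h0 : 0 ≤ G y u * G y u' * (1 - cos (w * (u - u'))) := by
      have := cos_le_one (w * (u - u'))
      have : 0 ≤ 1 - cos (w * (u - u')) := by linarith only [this]
      (clear b hw hy hb hT hT' hpi hc this; positivity)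
    refine le_trans ?_ h0
    have h1 : π < w * |u - u'| := by rwa [abs_mul, abs_of_pos hw] at hc
    have hneg : (u - u') ^ 2 * (G y u * G y u') - 4 * (tailK y b u * G y u') -
      4 * (G y u * tailK y b u') ≤ 0 := by
      have h2 : |u - u'| ≤ |u| + |u'| := abs_sub _ _
      rcases le_total |u'| |u| with h | h
      · have h3 : π ≤ 2 * w * |u| := by nlinarith only [h1, hw, h2, h]
        have h4 := tailK_ge hw hy hb h3
        have h5 : (u - u') ^ 2 ≤ 4 * u ^ 2 := by
          rw [← sq_abs (u - u'), ← sq_abs u]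
          have h6 : |u - u'| ≤ 2 * |u| := by linarith only [h2, h]
          have := pow_le_pow_left₀ (abs_nonneg _) h6 2
          linarith only [this]
        have h6 : (u - u') ^ 2 * (G y u * G y u') ≤ 4 * (tailK y b u * G y u') := by
          calc (u - u') ^ 2 * (G y u * G y u') ≤ 4 * u ^ 2 * (G y u * G y u') := by (clear * - h5 hG hG'; gcongr)
            _ = 4 * ((u ^ 2 * G y u) * G y u') := by ring
            _ ≤ 4 * (tailK y b u * G y u') := by (clear * - h4 hG'; gcongr)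
        have h7 : 0 ≤ G y u * tailK y b u' := by (clear * - hG hT'; positivity)
        linarith only [h6, h7]
      · have h3 : π ≤ 2 * w * |u'| := by nlinarith only [h1, hw, h2, h]
        have h4 := tailK_ge hw hy hb h3
        have h5 : (u - u') ^ 2 ≤ 4 * u' ^ 2 := by
          rw [← sq_abs (u - u'), ← sq_abs u']
          have h6 : |u - u'| ≤ 2 * |u'| := by linarith only [h2, h]
          have := pow_le_pow_left₀ (abs_nonneg _) h6 2
          linarith only [this]
        have h6 : (u - u') ^ 2 * (G y u * G y u') ≤ 4 * (G y u * tailK y b u') := by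
          calc (u - u') ^ 2 * (G y u * G y u') ≤ 4 * u' ^ 2 * (G y u * G y u') := by (clear * - h5 hG hG'; gcongr)
            _ = 4 * (G y u * (u' ^ 2 * G y u')) := by ring
            _ ≤ 4 * (G y u * tailK y b u') := by (clear * - h4 hG; gcongr)
        have h7 : 0 ≤ tailK y b u * G y u' := by (clear * - hT hG'; positivity)
        linarith only [h6, h7]
    have h8 : 0 ≤ 2 * w ^ 2 / π ^ 2 := by positivity
    exact mul_nonpos_of_nonneg_of_nonpos h8 hneg

lemma re_twK (w y u : ℝ) : (twK w y u).re = G y u * cos (w * u) := by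
  unfold twK
  rw [Complex.re_ofReal_mul, ← Complex.ofReal_neg, Complex.exp_ofReal_mul_I_re, cos_neg]

lemma im_twK (w y u : ℝ) : (twK w y u).im = -(G y u * sin (w * u)) := by
  unfold twK
  rw [Complex.im_ofReal_mul, ← Complex.ofReal_neg, Complex.exp_ofReal_mul_I_im, sin_neg]
  ring

/-- the Fisher information of the smoothed measure -/
noncomputable def fi (μ : Measure ℝ) (y : ℝ) : ℝ := ∫ x, sm μ (G1 y) x ^ 2 / sm μ (G y) x

section
variable {μ : Measure ℝ} [IsProbabilityMeasure μ] {R : ℝ}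

lemma re_smC {w y : ℝ} (hy : 0 < y) (x : ℝ) :
    (smC μ (twK w y) x).re = ∫ t, G y (x - t) * cos (w * (x - t)) ∂μ := by
  unfold smC
  have h := integral_re (integrable_kernelC (μ := μ) (continuous_twK w y) (bdd_twK hy w) x)
  simp only [RCLike.re_to_complex, re_twK] at h
  exact h.symm

lemma im_smC {w y : ℝ} (hy : 0 < y) (x : ℝ) :
    (smC μ (twK w y) x).im = -∫ t, G y (x - t) * sin (w * (x - t)) ∂μ := by
  unfold smC
  have h := integral_im (integrable_kernelC (μ := μ) (continuous_twK w y) (bdd_twK hy w) x)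
  simp only [RCLike.im_to_complex, im_twK] at h
  rw [← integral_neg]
  exact h.symm

lemma cont_powG (y : ℝ) (n : ℕ) : Continuous fun u => u ^ n * G y u := by
  have := continuous_G y
  fun_prop

lemma cont_tailK (y b : ℝ) : Continuous (tailK y b) := by
  have := continuous_G (4 * y)
  unfold tailK
  fun_prop

lemma bdd_tailK {y : ℝ} (hy : 0 < y) (b : ℝ) : ∃ C, ∀ u, |tailK y b u| ≤ C := by
  obtain ⟨C, hC⟩ := bdd_pow_mul_G (v := 4 * y) (by positivity) 2
  exact ⟨_, fun u => abs_cmul_le (hC u)⟩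

lemma integrable_tailK {y : ℝ} (hy : 0 < y) (b : ℝ) : Integrable (tailK y b) :=
  (integrable_pow_mul_G (v := 4 * y) (by positivity) 2).const_mul _

lemma integral_tailK {y : ℝ} (hy : 0 < y) (b : ℝ) : ∫ u, tailK y b u = 8 * exp (-b) * y := by
  unfold tailK
  rw [integral_const_mul, integral_sq_mul_G (by positivity)]
  ring

lemma sm_G1_eq (y x : ℝ) : sm μ (G1 y) x = -(1 / y) * sm μ (fun u => u ^ 1 * G y u) x := by
  unfold sm
  rw [← integral_const_mul]
  congr 1
  ext t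
  unfold G1
  ring

/-- Cauchy-Schwarz for the first moment -/
lemma sq_sm_le {y : ℝ} (hy : 0 < y) (x : ℝ) :
    sm μ (fun u => u ^ 1 * G y u) x ^ 2 ≤ sm μ (G y) x * sm μ (fun u => u ^ 2 * G y u) x := by
  have h := bilin_nonneg (μ := μ) (ι := Fin 3)
    (F := ![fun t => G y (x - t), fun t => (x - t) ^ 1 * G y (x - t),
      fun t => (x - t) ^ 2 * G y (x - t)])
    (by
      intro i
      fin_cases i
      · exact integrable_kernel (continuous_G y) (bdd_G' hy) x
      · exact integrable_kernel (cont_powG y 1) (bdd_pow_mul_G hy 1) x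
      · exact integrable_kernel (cont_powG y 2) (bdd_pow_mul_G hy 2) x)
    (![![0, 0, 1], ![0, -2, 0], ![1, 0, 0]])
    (by
      intro s t
      simp only [Fin.sum_univ_three, Matrix.cons_val_zero, Matrix.cons_val_one, Matrix.cons_val]
      have h1 := G_nonneg y (x - s)
      have h2 := G_nonneg y (x - t)
      have h3 : 0 ≤ (s - t) ^ 2 * (G y (x - s) * G y (x - t)) := by (clear * - h1 h2; positivity)
      refine h3.trans (le_of_eq ?_)
      ring)
  simp only [Fin.sum_univ_three, Matrix.cons_val_zero, Matrix.cons_val_one, Matrix.cons_val] at h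
  unfold sm
  linarith only [h]

/-- the pointwise gain, squared form -/
lemma gain_sq {w y b : ℝ} (hw : 0 < w) (hy : 0 < y)
    (hb : b = 3 * π ^ 2 / (32 * (w ^ 2 * y))) (x : ℝ) :
    ‖smC μ (twK w y) x‖ ^ 2 ≤ sm μ (G y) x ^ 2 - 2 * (2 * w ^ 2 / π ^ 2) *
      (sm μ (G y) x * sm μ (fun u => u ^ 2 * G y u) x - sm μ (fun u => u ^ 1 * G y u) x ^ 2 -
        4 * (sm μ (G y) x * sm μ (tailK y b) x)) := by
  set K := 2 * w ^ 2 / π ^ 2 with hK
  have hcG := continuous_G y
  obtain ⟨C, hC⟩ := bdd_G' hy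
  have h := bilin_nonneg (μ := μ) (ι := Fin 6)
    (F := ![fun t => G y (x - t), fun t => G y (x - t) * cos (w * (x - t)),
      fun t => G y (x - t) * sin (w * (x - t)), fun t => (x - t) ^ 1 * G y (x - t),
      fun t => (x - t) ^ 2 * G y (x - t), fun t => tailK y b (x - t)])
    (by
      intro i
      fin_cases i
      · exact integrable_kernel (continuous_G y) (bdd_G' hy) x
      · refine integrable_kernel (K := fun u => G y u * cos (w * u)) (by fun_prop) ⟨C, fun u => ?_⟩ x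
        rw [abs_mul]
        exact (mul_le_of_le_one_right (abs_nonneg _) (abs_cos_le_one _)).trans (hC u)
      · refine integrable_kernel (K := fun u => G y u * sin (w * u)) (by fun_prop) ⟨C, fun u => ?_⟩ x
        rw [abs_mul]
        exact (mul_le_of_le_one_right (abs_nonneg _) (abs_sin_le_one _)).trans (hC u)
      · exact integrable_kernel (cont_powG y 1) (bdd_pow_mul_G hy 1) x
      · exact integrable_kernel (cont_powG y 2) (bdd_pow_mul_G hy 2) x
      · exact integrable_kernel (cont_tailK y b) (bdd_tailK hy b) x)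
    (![![1, 0, 0, 0, -K, 4 * K], ![0, -1, 0, 0, 0, 0], ![0, 0, -1, 0, 0, 0],
      ![0, 0, 0, 2 * K, 0, 0], ![-K, 0, 0, 0, 0, 0], ![4 * K, 0, 0, 0, 0, 0]])
    (by
      intro s t
      simp only [Fin.sum_univ_six, Matrix.cons_val_zero, Matrix.cons_val_one, Matrix.cons_val]
      have h1 := kernel_ineq hw hy hb (x - s) (x - t)
      have h2 : cos (w * (x - s - (x - t))) = cos (w * (x - s)) * cos (w * (x - t)) +
          sin (w * (x - s)) * sin (w * (x - t)) := by
        rw [mul_sub, cos_sub]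
      rw [h2, ← hK] at h1
      have h3 := sub_nonneg.mpr h1
      refine h3.trans (le_of_eq ?_)
      ring)
  simp only [Fin.sum_univ_six, Matrix.cons_val_zero, Matrix.cons_val_one, Matrix.cons_val] at h
  rw [Complex.sq_norm, Complex.normSq_apply, re_smC hy, im_smC hy]
  unfold sm
  have h4 := neg_nonpos.mpr h
  refine sub_nonpos.mp (le_trans (le_of_eq ?_) h4)
  ring

lemma norm_smC_le {w y : ℝ} (x : ℝ) : ‖smC μ (twK w y) x‖ ≤ sm μ (G y) x := by
  unfold smC sm
  refine (norm_integral_le_integral_norm _).trans (le_of_eq ?_)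
  congr 1
  ext t
  rw [norm_twK]

/-- the pointwise gain -/
lemma gain_pt (hR : ∀ᵐ t ∂μ, |t| ≤ R) {w y b : ℝ} (hw : 0 < w) (hy : 0 < y)
    (hb : b = 3 * π ^ 2 / (32 * (w ^ 2 * y))) (x : ℝ) :
    ‖smC μ (twK w y) x‖ ≤ sm μ (G y) x - 2 * w ^ 2 / π ^ 2 *
      (sm μ (fun u => u ^ 2 * G y u) x - y ^ 2 * (sm μ (G1 y) x ^ 2 / sm μ (G y) x) -
        4 * sm μ (tailK y b) x) := by
  have hg := sm_G_pos hR hy x
  have h1 := gain_sq (μ := μ) hw hy hb x
  have h2 := norm_smC_le (μ := μ) (w := w) (y := y) x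
  have h3 : sm μ (fun u => u ^ 1 * G y u) x ^ 2 = y ^ 2 * sm μ (G1 y) x ^ 2 := by
    rw [sm_G1_eq]
    field_simp
  rw [h3] at h1
  set g := sm μ (G y) x
  set A := ‖smC μ (twK w y) x‖
  have hA : 0 ≤ A := norm_nonneg _
  set D := 2 * w ^ 2 / π ^ 2 *
      (sm μ (fun u => u ^ 2 * G y u) x - y ^ 2 * (sm μ (G1 y) x ^ 2 / g) -
        4 * sm μ (tailK y b) x) with hD
  have h4 : A ^ 2 ≤ g ^ 2 - 2 * g * D := by
    refine h1.trans (le_of_eq ?_)
    rw [hD]
    (clear * - hg; field_simp)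
  by_cases hD0 : D ≤ 0
  · linarith only [h2, hD0]
  · push Not at hD0
    have h5 : (g - A) * (g + A) ≥ 2 * g * D := by linarith only [h4]
    have h6 : (g - A) * (g + A) ≤ (g - A) * (2 * g) := by
      apply mul_le_mul_of_nonneg_left <;> linarith only [h2]
    have h7 : 2 * g * D ≤ 2 * g * (g - A) := by linarith only [h4, h6]
    have h8 := le_of_mul_le_mul_left h7 (by positivity)
    linarith only [h8]

lemma integrable_fisher (hR : ∀ᵐ t ∂μ, |t| ≤ R) {y : ℝ} (hy : 0 < y) :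
    Integrable (fun x => sm μ (G1 y) x ^ 2 / sm μ (G y) x) := by
  have h2 := integrable_sm (μ := μ) (cont_powG y 2) (bdd_pow_mul_G hy 2) (integrable_pow_mul_G hy 2)
  have hc := continuous_sm (μ := μ) (continuous_G y) (bdd_G' hy)
  have hc1 := continuous_sm (μ := μ) (continuous_G1 y) (bdd_G1 hy)
  have hne : ∀ x, sm μ (G y) x ≠ 0 := fun x => (sm_G_pos hR hy x).ne'
  refine (h2.const_mul (1 / y ^ 2)).mono' ?_ (ae_of_all _ fun x => ?_)
  · exact (by fun_prop (disch := assumption) :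
      Continuous fun x => sm μ (G1 y) x ^ 2 / sm μ (G y) x).aestronglyMeasurable
  · have hg := sm_G_pos hR hy x
    rw [Real.norm_of_nonneg (by (clear * - hg; positivity)), div_le_iff₀ hg, sm_G1_eq]
    have h := sq_sm_le (μ := μ) hy x
    have e : (-(1 / y) * sm μ (fun u => u ^ 1 * G y u) x) ^ 2 =
      1 / y ^ 2 * sm μ (fun u => u ^ 1 * G y u) x ^ 2 := by ring
    rw [e, mul_assoc]
    have h3 : (0 : ℝ) ≤ 1 / y ^ 2 := by positivity
    calc _ ≤ 1 / y ^ 2 * (sm μ (G y) x * sm μ (fun u => u ^ 2 * G y u) x) := by gcongr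
      _ = _ := by ring

/-- the gain estimate for twisted norms -/
lemma tn_gain (hR : ∀ᵐ t ∂μ, |t| ≤ R) {w y b : ℝ} (hw : 0 < w) (hy : 0 < y)
    (hb : b = 3 * π ^ 2 / (32 * (w ^ 2 * y))) :
    tn μ w y ≤ ENNReal.ofReal (1 - 3 / (16 * b) * (1 - y * fi μ y - 32 * exp (-b))) := by
  have hpi := pi_pos
  have i1 := integrable_sm_G (μ := μ) hy
  have i2 := integrable_sm (μ := μ) (cont_powG y 2) (bdd_pow_mul_G hy 2) (integrable_pow_mul_G hy 2)
  have i3 := (integrable_fisher hR hy).const_mul (y ^ 2)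
  have i4 := (integrable_sm (μ := μ) (cont_tailK y b) (bdd_tailK hy b)
    (integrable_tailK hy b)).const_mul 4
  have i23 : Integrable (fun x => sm μ (fun u => u ^ 2 * G y u) x -
      y ^ 2 * (sm μ (G1 y) x ^ 2 / sm μ (G y) x)) := i2.sub i3
  have i24 : Integrable (fun x => sm μ (fun u => u ^ 2 * G y u) x -
      y ^ 2 * (sm μ (G1 y) x ^ 2 / sm μ (G y) x) - 4 * sm μ (tailK y b) x) := i23.sub i4
  have i25 : Integrable (fun x => 2 * w ^ 2 / π ^ 2 * (sm μ (fun u => u ^ 2 * G y u) x -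
      y ^ 2 * (sm μ (G1 y) x ^ 2 / sm μ (G y) x) - 4 * sm μ (tailK y b) x)) := i24.const_mul _
  have i5 : Integrable (fun x => sm μ (G y) x - 2 * w ^ 2 / π ^ 2 *
      (sm μ (fun u => u ^ 2 * G y u) x - y ^ 2 * (sm μ (G1 y) x ^ 2 / sm μ (G y) x) -
        4 * sm μ (tailK y b) x)) := i1.sub i25
  have hval : ∫ x, (sm μ (G y) x - 2 * w ^ 2 / π ^ 2 *
      (sm μ (fun u => u ^ 2 * G y u) x - y ^ 2 * (sm μ (G1 y) x ^ 2 / sm μ (G y) x) -
        4 * sm μ (tailK y b) x)) = 1 - 3 / (16 * b) * (1 - y * fi μ y - 32 * exp (-b)) := by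
    rw [integral_sub i1 i25, integral_const_mul,
      integral_sub i23 i4, integral_sub i2 i3, integral_const_mul, integral_const_mul,
      integral_sm_G hy, integral_sm (cont_powG y 2) (integrable_pow_mul_G hy 2),
      integral_sq_mul_G hy, integral_sm (cont_tailK y b) (integrable_tailK hy b),
      integral_tailK hy]
    have e : ∫ x, sm μ (G1 y) x ^ 2 / sm μ (G y) x = fi μ y := rfl
    rw [e, hb]
    have hwy : w ^ 2 * y ≠ 0 := by positivity
    field_simp
    ring
  rw [← hval, ofReal_integral_eq_lintegral_ofReal i5 (ae_of_all _ fun x =>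
    (norm_nonneg _).trans (gain_pt hR hw hy hb x))]
  unfold tn nrmC
  refine lintegral_mono fun x => ?_
  rw [← ofReal_norm]
  exact ENNReal.ofReal_le_ofReal (gain_pt hR hw hy hb x)

end

end Vale.Agent.P105
end
end

section

section

open MeasureTheory Real Filter Topology
open scoped ENNReal

namespace Vale.Agent.P105

lemma log_G {v : ℝ} (hv : 0 < v) (x : ℝ) :
    log (G v x) = -(1 / 2) * log (2 * π * v) - x ^ 2 / (2 * v) := by
  unfold G
  rw [log_mul (by positivity) (exp_pos _).ne', log_exp, log_inv, log_sqrt (by positivity)]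
  ring

lemma gibbs_pointwise {P Q : ℝ} (hP : 0 < P) (hQ : 0 < Q) : P - Q ≤ P * (log P - log Q) := by
  have h := log_le_sub_one_of_pos (div_pos hQ hP)
  rw [log_div hQ.ne' hP.ne'] at h
  have h2 := mul_le_mul_of_nonneg_left h hP.le
  have e : P * (Q / P - 1) = Q - P := by field_simp
  rw [e] at h2
  linarith only [h2]

section
variable {μ : Measure ℝ} [IsProbabilityMeasure μ] {R : ℝ}

/-- the score function -/
noncomputable def scr (μ : Measure ℝ) (y x : ℝ) : ℝ := sm μ (G1 y) x / sm μ (G y) x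

lemma continuous_scr (hR : ∀ᵐ t ∂μ, |t| ≤ R) {y : ℝ} (hy : 0 < y) : Continuous (scr μ y) := by
  have hc := continuous_sm (μ := μ) (continuous_G y) (bdd_G' hy)
  have hc1 := continuous_sm (μ := μ) (continuous_G1 y) (bdd_G1 hy)
  have hne : ∀ x, sm μ (G y) x ≠ 0 := fun x => (sm_G_pos hR hy x).ne'
  unfold scr
  fun_prop (disch := assumption)

lemma sm_scr_sq (hR : ∀ᵐ t ∂μ, |t| ≤ R) {y : ℝ} (hy : 0 < y) (x : ℝ) :
    scr μ y x ^ 2 * sm μ (G y) x = sm μ (G1 y) x ^ 2 / sm μ (G y) x := by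
  have hne : sm μ (G y) x ≠ 0 := (sm_G_pos hR hy x).ne'
  unfold scr
  field_simp

lemma int_inner {v w : ℝ} (hv : 0 < v) (hw : 0 < w) (x : ℝ) :
    ∫ z, G w z * sm μ (G v) (x - z) = sm μ (G (v + w)) x := by
  rw [sm_semigroup (continuous_G v) (continuous_G w) (continuous_G (v + w)) (integrable_G hv)
    (bdd_G' hw) (convE_G hv hw)]
  congr 1
  ext z
  ring

lemma int_inner1 {v w : ℝ} (hv : 0 < v) (hw : 0 < w) (x : ℝ) :
    ∫ z, z * (G w z * sm μ (G v) (x - z)) = -w * sm μ (G1 (v + w)) x := by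
  rw [sm_semigroup (continuous_G v) (continuous_G1 w) (continuous_G1 (v + w)) (integrable_G hv)
    (bdd_G1 hw) (convE_G_G1 hv hw), ← integral_const_mul]
  congr 1
  ext z
  unfold G1
  field_simp

lemma int_scr_sq (hR : ∀ᵐ t ∂μ, |t| ≤ R) {v w : ℝ} (hv : 0 < v) (hw : 0 < w) :
    Integrable (fun p : ℝ × ℝ => scr μ (v + w) p.1 ^ 2 * (G w p.2 * sm μ (G v) (p.1 - p.2)))
      (volume.prod volume) := by
  have hvw : 0 < v + w := by positivity
  have hcs := continuous_scr hR hvw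
  have hcf := continuous_sm (μ := μ) (continuous_G v) (bdd_G' hv)
  have hcG := continuous_G w
  have hm : AEStronglyMeasurable (fun p : ℝ × ℝ =>
      scr μ (v + w) p.1 ^ 2 * (G w p.2 * sm μ (G v) (p.1 - p.2))) (volume.prod volume) :=
    (by (clear * - hcs hcG hcf; fun_prop) : Continuous fun p : ℝ × ℝ =>
      scr μ (v + w) p.1 ^ 2 * (G w p.2 * sm μ (G v) (p.1 - p.2))).aestronglyMeasurable
  have hin : ∀ x, Integrable (fun z => G w z * sm μ (G v) (x - z)) := by
    intro x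
    refine ((integrable_G hw).norm.const_mul (√(2 * π * v))⁻¹).mono' ?_ (ae_of_all _ fun z => ?_)
    · exact (by fun_prop : Continuous fun z => G w z * sm μ (G v) (x - z)).aestronglyMeasurable
    · rw [norm_mul, mul_comm, Real.norm_of_nonneg (sm_G_pos hR hv (x - z)).le]
      exact mul_le_mul_of_nonneg_right (sm_G_le hv _) (norm_nonneg _)
  rw [integrable_prod_iff hm]
  refine ⟨ae_of_all _ fun x => (hin x).const_mul (scr μ (v + w) x ^ 2), ?_⟩
  refine (integrable_fisher hR hvw).congr (ae_of_all _ fun x => ?_)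
  have : ∀ z, ‖scr μ (v + w) x ^ 2 * (G w z * sm μ (G v) (x - z))‖ =
      scr μ (v + w) x ^ 2 * (G w z * sm μ (G v) (x - z)) := by
    intro z
    have h1 := G_nonneg w z
    have h2 := (sm_G_pos hR hv (x - z)).le
    exact Real.norm_of_nonneg (by (clear * - h1 h2; positivity))
  simp only [this]
  rw [integral_const_mul, int_inner hv hw, sm_scr_sq hR hvw]

lemma val_scr_sq (hR : ∀ᵐ t ∂μ, |t| ≤ R) {v w : ℝ} (hv : 0 < v) (hw : 0 < w) :
    ∫ p : ℝ × ℝ, scr μ (v + w) p.1 ^ 2 * (G w p.2 * sm μ (G v) (p.1 - p.2))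
      ∂(volume.prod volume) = fi μ (v + w) := by
  have hvw : 0 < v + w := by positivity
  rw [integral_prod _ (int_scr_sq hR hv hw)]
  unfold fi
  congr 1
  ext x
  simp only
  rw [integral_const_mul, int_inner hv hw, sm_scr_sq hR hvw]

lemma int_scr_mul (hR : ∀ᵐ t ∂μ, |t| ≤ R) {v w : ℝ} (hv : 0 < v) (hw : 0 < w) :
    Integrable (fun p : ℝ × ℝ => scr μ (v + w) p.1 * (p.2 * (G w p.2 * sm μ (G v) (p.1 - p.2))))
      (volume.prod volume) := by
  have hvw : 0 < v + w := by positivity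
  have hcs := continuous_scr hR hvw
  have hcf := continuous_sm (μ := μ) (continuous_G v) (bdd_G' hv)
  have hcG := continuous_G w
  have i1 := conv_integrand (integrable_pow_mul_G hw 2) (integrable_sm_G (μ := μ) hv)
  refine ((int_scr_sq hR hv hw).add i1).mono' (by (clear * - hcs hcG hcf; fun_prop) : Continuous fun p : ℝ × ℝ =>
      scr μ (v + w) p.1 * (p.2 * (G w p.2 * sm μ (G v) (p.1 - p.2)))).aestronglyMeasurable
    (ae_of_all _ fun p => ?_)
  have h1 := G_nonneg w p.2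
  have h2 := (sm_G_pos hR hv (p.1 - p.2)).le
  have h3 : 0 ≤ G w p.2 * sm μ (G v) (p.1 - p.2) := mul_nonneg h1 h2
  rw [norm_mul, norm_mul, Real.norm_of_nonneg h3, Real.norm_eq_abs, Real.norm_eq_abs]
  simp only [Pi.add_apply]
  have h4 : |scr μ (v + w) p.1| * |p.2| ≤ scr μ (v + w) p.1 ^ 2 + p.2 ^ 2 := by
    have := sq_abs (scr μ (v + w) p.1)
    have := sq_abs p.2
    nlinarith [sq_nonneg (|scr μ (v + w) p.1| - |p.2|), abs_nonneg (scr μ (v + w) p.1),
      abs_nonneg p.2]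
  calc |scr μ (v + w) p.1| * (|p.2| * (G w p.2 * sm μ (G v) (p.1 - p.2)))
      = |scr μ (v + w) p.1| * |p.2| * (G w p.2 * sm μ (G v) (p.1 - p.2)) := by ring
    _ ≤ (scr μ (v + w) p.1 ^ 2 + p.2 ^ 2) * (G w p.2 * sm μ (G v) (p.1 - p.2)) := by (clear * - h4 h1 h2; (clear * - h4 h1 h2; gcongr))
    _ = _ := by ring

lemma val_scr_mul (hR : ∀ᵐ t ∂μ, |t| ≤ R) {v w : ℝ} (hv : 0 < v) (hw : 0 < w) :
    ∫ p : ℝ × ℝ, scr μ (v + w) p.1 * (p.2 * (G w p.2 * sm μ (G v) (p.1 - p.2)))
      ∂(volume.prod volume) = -w * fi μ (v + w) := by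
  have hvw : 0 < v + w := by positivity
  rw [integral_prod _ (int_scr_mul hR hv hw)]
  unfold fi
  rw [← integral_const_mul]
  congr 1
  ext x
  simp only
  rw [integral_const_mul, int_inner1 hv hw]
  unfold scr
  ring

lemma int_Q (hR : ∀ᵐ t ∂μ, |t| ≤ R) {y w s : ℝ} (hy : 0 < y) (hs : 0 < s) :
    Integrable (fun p : ℝ × ℝ => sm μ (G y) p.1 * G s (p.2 + w * scr μ y p.1))
      (volume.prod volume) ∧
    ∫ p : ℝ × ℝ, sm μ (G y) p.1 * G s (p.2 + w * scr μ y p.1) ∂(volume.prod volume) = 1 := by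
  have hcs := continuous_scr hR hy
  have hcf := continuous_sm (μ := μ) (continuous_G y) (bdd_G' hy)
  have hcG := continuous_G s
  have hm : AEStronglyMeasurable (fun p : ℝ × ℝ => sm μ (G y) p.1 * G s (p.2 + w * scr μ y p.1))
      (volume.prod volume) :=
    (by fun_prop : Continuous fun p : ℝ × ℝ =>
      sm μ (G y) p.1 * G s (p.2 + w * scr μ y p.1)).aestronglyMeasurable
  have hval : ∀ x, ∫ z, sm μ (G y) x * G s (z + w * scr μ y x) = sm μ (G y) x := by
    intro x
    rw [integral_const_mul, integral_add_right_eq_self (fun z => G s z), integral_G hs, mul_one]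
  have hint : Integrable (fun p : ℝ × ℝ => sm μ (G y) p.1 * G s (p.2 + w * scr μ y p.1))
      (volume.prod volume) := by
    rw [integrable_prod_iff hm]
    refine ⟨ae_of_all _ fun x => ((integrable_G hs).comp_add_right (w * scr μ y x)).const_mul
      (sm μ (G y) x), ?_⟩
    refine (integrable_sm_G (μ := μ) hy).congr (ae_of_all _ fun x => ?_)
    have : ∀ z, ‖sm μ (G y) x * G s (z + w * scr μ y x)‖ =
        sm μ (G y) x * G s (z + w * scr μ y x) := by
      intro z
      have h1 := G_nonneg s (z + w * scr μ y x)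
      have h2 := (sm_G_pos hR hy x).le
      exact Real.norm_of_nonneg (by (clear * - h2 h1; positivity))
    simp only [this, hval]
  refine ⟨hint, ?_⟩
  rw [integral_prod _ hint]
  simp only [hval]
  exact integral_sm_G hy

/-- The reverse entropy step: an upper bound for the entropy increment in terms of the
Fisher information. -/
lemma ent_rev (hR : ∀ᵐ t ∂μ, |t| ≤ R) {v w : ℝ} (hv : 0 < v) (hw : 0 < w) :
    ent μ v - ent μ (v + w) ≤ 1 / 2 * log (v / (v + w)) +
      w / (2 * v) * (1 - (v + w) * fi μ (v + w)) := by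
  have hvw : 0 < v + w := by positivity
  set σ := v * w / (v + w) with hσ
  have hσ0 : 0 < σ := by (clear * - hv hw; positivity)
  set c := 1 / 2 * log (v / (v + w)) with hc
  obtain ⟨iQ, vQ⟩ := int_Q (μ := μ) hR (w := w) hvw hσ0
  have i1 := conv_integrand (integrable_pow_mul_G hw 2) (integrable_sm_G (μ := μ) hv)
  have v1 := integral_conv_integrand (integrable_pow_mul_G hw 2) (integrable_sm_G (μ := μ) hv)
  have i3 := conv_integrand (integrable_G hw) (integrable_mul_log hR hv)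
  have v3 := integral_conv_integrand (integrable_G hw) (integrable_mul_log hR hv)
  have i4 := cross_int hR hv hw
  have v4 := cross_val hR hv hw
  have i5 := conv_integrand (integrable_G hw) (integrable_sm_G (μ := μ) hv)
  have v5 := integral_conv_integrand (integrable_G hw) (integrable_sm_G (μ := μ) hv)
  have i6 := int_scr_sq hR hv hw
  have v6 := val_scr_sq hR hv hw
  have i7 := int_scr_mul hR hv hw
  have v7 := val_scr_mul hR hv hw
  rw [integral_sq_mul_G hw, integral_sm_G hv, mul_one] at v1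
  rw [integral_G hw, one_mul] at v3
  rw [integral_G hw, integral_sm_G hv, mul_one] at v5
  have e3 : ∫ x, sm μ (G v) x * log (sm μ (G v) x) = - ent μ v := by rw [ent_eq, neg_neg]
  rw [e3] at v3
  -- the pointwise inequality
  set a : ℝ := 1 / (2 * σ) - 1 / (2 * w) with ha
  set F : ℝ × ℝ → ℝ := fun p => G w p.2 * (sm μ (G v) (p.1 - p.2) * log (sm μ (G v) (p.1 - p.2))) -
      (G w p.2 * sm μ (G v) (p.1 - p.2)) * log (sm μ (G (v + w)) p.1) +
      a * ((p.2 ^ 2 * G w p.2) * sm μ (G v) (p.1 - p.2)) +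
      w / σ * (scr μ (v + w) p.1 * (p.2 * (G w p.2 * sm μ (G v) (p.1 - p.2)))) +
      w ^ 2 / (2 * σ) * (scr μ (v + w) p.1 ^ 2 * (G w p.2 * sm μ (G v) (p.1 - p.2))) +
      (c - 1) * (G w p.2 * sm μ (G v) (p.1 - p.2)) +
      sm μ (G (v + w)) p.1 * G σ (p.2 + w * scr μ (v + w) p.1) with hF
  have hpt : ∀ p, 0 ≤ F p := by
    intro p
    have hG := G_pos hw p.2
    have hf := sm_G_pos hR hv (p.1 - p.2)
    have hg := sm_G_pos hR hvw p.1
    have hGs := G_pos hσ0 (p.2 + w * scr μ (v + w) p.1)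
    have key := gibbs_pointwise (mul_pos hG hf) (mul_pos hg hGs)
    rw [log_mul hG.ne' hf.ne', log_mul hg.ne' hGs.ne', log_G hw, log_G hσ0] at key
    have hlog : 1 / 2 * log (2 * π * σ) - 1 / 2 * log (2 * π * w) = c := by
      rw [hc, ← mul_sub, ← log_div (by positivity) (by positivity)]
      congr 2
      rw [hσ]
      field_simp
    have e : F p = (G w p.2 * sm μ (G v) (p.1 - p.2)) *
        (-(1 / 2) * log (2 * π * w) - p.2 ^ 2 / (2 * w) + log (sm μ (G v) (p.1 - p.2)) -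
        (log (sm μ (G (v + w)) p.1) + (-(1 / 2) * log (2 * π * σ) -
          (p.2 + w * scr μ (v + w) p.1) ^ 2 / (2 * σ)))) -
        (G w p.2 * sm μ (G v) (p.1 - p.2) -
          sm μ (G (v + w)) p.1 * G σ (p.2 + w * scr μ (v + w) p.1)) := by
      rw [hF, ← hlog, ha]
      ring
    rw [e]
    linarith only [key]
  have j34 := i3.sub i4
  have j1 := i1.const_mul a
  have j7 := i7.const_mul (w / σ)
  have j6 := i6.const_mul (w ^ 2 / (2 * σ))
  have j5 := i5.const_mul (c - 1)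
  have hFe : F = ((((((fun p : ℝ × ℝ => G w p.2 * (sm μ (G v) (p.1 - p.2) *
        log (sm μ (G v) (p.1 - p.2)))) -
      (fun p : ℝ × ℝ => (G w p.2 * sm μ (G v) (p.1 - p.2)) * log (sm μ (G (v + w)) p.1))) +
      (fun p : ℝ × ℝ => a * ((p.2 ^ 2 * G w p.2) * sm μ (G v) (p.1 - p.2)))) +
      (fun p : ℝ × ℝ => w / σ * (scr μ (v + w) p.1 *
        (p.2 * (G w p.2 * sm μ (G v) (p.1 - p.2)))))) +
      (fun p : ℝ × ℝ => w ^ 2 / (2 * σ) * (scr μ (v + w) p.1 ^ 2 *
        (G w p.2 * sm μ (G v) (p.1 - p.2))))) +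
      (fun p : ℝ × ℝ => (c - 1) * (G w p.2 * sm μ (G v) (p.1 - p.2)))) +
      (fun p : ℝ × ℝ => sm μ (G (v + w)) p.1 * G σ (p.2 + w * scr μ (v + w) p.1)) := rfl
  have h0 : 0 ≤ ∫ p, F p ∂(volume.prod volume) := integral_nonneg hpt
  rw [hFe, integral_add' (((((j34).add j1).add j7).add j6).add j5) iQ,
    integral_add' ((((j34).add j1).add j7).add j6) j5,
    integral_add' (((j34).add j1).add j7) j6, integral_add' ((j34).add j1) j7,
    integral_add' j34 j1, integral_sub' i3 i4] at h0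
  simp only [integral_const_mul] at h0
  rw [v1, v3, v4, v5, v6, v7, vQ] at h0
  have e1 : a * w + w / σ * (-w * fi μ (v + w)) + w ^ 2 / (2 * σ) * fi μ (v + w) =
      w / (2 * v) * (1 - (v + w) * fi μ (v + w)) := by
    rw [ha, hσ]
    field_simp
    ring
  linarith only [h0, e1]

end

end Vale.Agent.P105
end
end

section

section

/-!
# Bernoulli convolutions: basic facts (self-similarity)
-/

open MeasureTheory Real Filter Topology
open scoped ENNReal

namespace Vale.Agent.P105.Salem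

instance : IsProbabilityMeasure coin := by
  constructor
  unfold coin
  simp only [Bool.univ_eq, Measure.coe_add, Measure.coe_smul, Pi.add_apply, Pi.smul_apply, MeasurableSpace.measurableSet_top, Measure.dirac_apply', Set.mem_insert_iff, Bool.true_eq_false, Set.mem_singleton_iff, or_true, Set.indicator_of_mem, Pi.one_apply, smul_eq_mul, mul_one, Bool.false_eq_true, or_false, ENNReal.inv_two_add_inv_two]

lemma abs_sgn (b : Bool) : |sgn b| = 1 := by
  cases b <;> simp [sgn]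

lemma measurable_sgn : Measurable sgn := measurable_of_finite sgn

lemma summable_sgn {lam : ℝ} (h0 : 0 < lam) (h1 : lam < 1) (ω : ℕ → Bool) :
    Summable fun n : ℕ => sgn (ω n) * lam ^ n := by
  refine Summable.of_norm_bounded (summable_geometric_of_lt_one h0.le h1) fun n => ?_
  rw [norm_mul, Real.norm_eq_abs, abs_sgn, one_mul, Real.norm_of_nonneg (by positivity)]

lemma measurable_series {lam : ℝ} (h0 : 0 < lam) (h1 : lam < 1) :
    Measurable fun ω : ℕ → Bool => ∑' n : ℕ, sgn (ω n) * lam ^ n := by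
  refine measurable_of_tendsto_metrizable (f := fun N (ω : ℕ → Bool) =>
    ∑ n ∈ Finset.range N, sgn (ω n) * lam ^ n) (fun N => ?_) ?_
  · refine Finset.measurable_sum _ fun n _ => ?_
    have : Measurable fun ω : ℕ → Bool => sgn (ω n) :=
      measurable_sgn.comp (measurable_pi_apply n)
    exact this.mul_const _
  · rw [tendsto_pi_nhds]
    intro ω
    exact (summable_sgn h0 h1 ω).hasSum.tendsto_sum_nat

lemma isProbabilityMeasure_bernConv {lam : ℝ} (h0 : 0 < lam) (h1 : lam < 1) :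
    IsProbabilityMeasure (bernConv lam) :=
  Measure.isProbabilityMeasure_map (measurable_series h0 h1).aemeasurable

/-- prepend a letter -/
def consB (p : Bool × (ℕ → Bool)) : ℕ → Bool := fun n => if n = 0 then p.1 else p.2 (n - 1)

lemma measurable_consB : Measurable consB := by
  rw [measurable_pi_iff]
  intro n
  by_cases h : n = 0
  · simp only [consB, h, if_true]
    exact measurable_fst
  · simp only [consB, h, if_false]
    exact (measurable_pi_apply _).comp measurable_snd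

lemma map_consB : (coin.prod (Measure.infinitePi fun _ : ℕ => coin)).map consB =
    Measure.infinitePi fun _ : ℕ => coin := by
  classical
  apply Measure.eq_infinitePi
  intro s t ht
  rw [Measure.map_apply measurable_consB (MeasurableSet.pi s.countable_toSet fun i _ => ht i)]
  set s' : Finset ℕ := s.preimage Nat.succ (Nat.succ_injective.injOn) with hs'
  have e1 : consB ⁻¹' (Set.pi s t) =
      (if 0 ∈ s then t 0 else Set.univ) ×ˢ (Set.pi s' fun i => t (i + 1)) := by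
    ext ⟨b, ω⟩
    simp only [Set.mem_preimage, Set.mem_pi, Set.mem_prod, hs', Finset.mem_coe,
      Finset.mem_preimage, Nat.succ_eq_add_one]
    constructor
    · intro h
      refine ⟨?_, fun i hi => ?_⟩
      · split_ifs with h0
        · simpa [consB] using h 0 h0
        · trivial
      · simpa only [consB, Nat.add_eq_zero_iff, one_ne_zero, and_false, ↓reduceIte, add_tsub_cancel_right] using h (i + 1) hi
    · rintro ⟨h1, h2⟩ i hi
      rcases i with _ | i
      · rw [if_pos hi] at h1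
        simpa [consB] using h1
      · simpa only [consB, Nat.add_eq_zero_iff, one_ne_zero, and_false, ↓reduceIte, add_tsub_cancel_right] using h2 i hi
  rw [e1, Measure.prod_prod, Measure.infinitePi_pi _ (fun i _ => ht _)]
  have e2 := Finset.prod_filter_mul_prod_filter_not s (fun x => x ∈ Set.range Nat.succ)
    (fun i => coin (t i))
  rw [← e2, mul_comm]
  congr 1
  · exact Finset.prod_preimage' Nat.succ s (Nat.succ_injective.injOn) (fun i => coin (t i))
  · have e3 : s.filter (fun x => x ∉ Set.range Nat.succ) = s.filter (fun x => x = 0) := by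
      apply Finset.filter_congr
      intro x _
      rw [Nat.range_succ]
      simp only [Set.mem_ofPred_eq, not_lt, nonpos_iff_eq_zero]
    rw [e3, Finset.filter_eq']
    split_ifs
    · simp
    · rw [measure_univ, Finset.prod_empty]

lemma bernConv_step {lam : ℝ} (h0 : 0 < lam) (h1 : lam < 1) :
    bernConv lam = coin.map sgn ∗ (bernConv lam).map (lam * ·) := by
  have hS := measurable_series h0 h1
  have hsg := measurable_sgn
  conv_lhs => rw [bernConv, ← map_consB]
  rw [Measure.map_map hS measurable_consB]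
  conv_rhs => rw [bernConv, Measure.map_map (by fun_prop) hS]
  unfold Measure.conv
  have hS2 : Measurable (fun ω : ℕ → Bool => lam * ∑' n : ℕ, sgn (ω n) * lam ^ n) :=
    hS.const_mul lam
  rw [Measure.map_prod_map _ _ hsg (by exact hS2), Measure.map_map (by fun_prop)
    (hsg.prodMap (by exact hS2))]
  congr 1
  ext ⟨b, ω⟩
  simp only [Function.comp_apply, Prod.map_apply]
  rw [(summable_sgn h0 h1 (consB (b, ω))).tsum_eq_zero_add]
  simp only [consB, pow_zero, mul_one, if_true, Nat.add_eq_zero_iff, one_ne_zero, and_false,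
    if_false, Nat.add_sub_cancel]
  rw [← tsum_mul_left]
  congr 1
  apply tsum_congr
  intro n
  ring

lemma coin_map_sgn : coin.map sgn =
    (2⁻¹ : ℝ≥0∞) • Measure.dirac (1 : ℝ) + (2⁻¹ : ℝ≥0∞) • Measure.dirac (-1 : ℝ) := by
  unfold coin
  rw [Measure.map_add _ _ measurable_sgn, Measure.map_smul, Measure.map_smul,
    Measure.map_dirac' measurable_sgn, Measure.map_dirac' measurable_sgn]
  simp [sgn]

/-- The Bernoulli convolution is the average of its two affine images. -/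
lemma bernConv_half {lam : ℝ} (h0 : 0 < lam) (h1 : lam < 1) :
    bernConv lam = (2⁻¹ : ℝ≥0∞) • (bernConv lam).map (fun x => 1 + lam * x) +
      (2⁻¹ : ℝ≥0∞) • (bernConv lam).map (fun x => -1 + lam * x) := by
  have := isProbabilityMeasure_bernConv h0 h1
  have : IsProbabilityMeasure ((bernConv lam).map (lam * ·)) :=
    Measure.isProbabilityMeasure_map (by fun_prop)
  conv_lhs => rw [bernConv_step h0 h1, coin_map_sgn]
  have h2 : IsFiniteMeasure ((2⁻¹ : ℝ≥0∞) • Measure.dirac (1 : ℝ)) :=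
    Measure.smul_finite _ (by simp)
  have h3 : IsFiniteMeasure ((2⁻¹ : ℝ≥0∞) • Measure.dirac (-1 : ℝ)) :=
    Measure.smul_finite _ (by simp)
  rw [Measure.add_conv, Measure.conv_smul_left, Measure.conv_smul_left,
    Measure.dirac_conv, Measure.dirac_conv, Measure.map_map (by fun_prop) (by fun_prop),
    Measure.map_map (by fun_prop) (by fun_prop)]
  rfl

/-- The Bernoulli convolution lives on a bounded interval. -/
lemma ae_bernConv {lam : ℝ} (h0 : 0 < lam) (h1 : lam < 1) :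
    ∀ᵐ x ∂(bernConv lam), |x| ≤ (1 - lam)⁻¹ := by
  unfold bernConv
  rw [ae_map_iff (measurable_series h0 h1).aemeasurable
    (measurableSet_le (by (clear * -; fun_prop)) (by fun_prop))]
  refine Eventually.of_forall fun ω => ?_
  have hs := summable_sgn h0 h1 ω
  rw [← Real.norm_eq_abs, ← tsum_geometric_of_lt_one h0.le h1]
  refine tsum_of_norm_bounded (summable_geometric_of_lt_one h0.le h1).hasSum fun n => ?_
  rw [norm_mul, Real.norm_eq_abs, abs_sgn, one_mul, Real.norm_of_nonneg (by positivity)]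

end Vale.Agent.P105.Salem
end
end

section

section

/-!
# Bernoulli convolutions: Fourier transform, moments and test sets
-/

open MeasureTheory Real Filter Topology
open scoped ENNReal

namespace Vale.Agent.P105.Salem

section FourierProduct

variable {lam : ℝ}

lemma integrable_bdd {μ : Measure ℝ} [IsFiniteMeasure μ] {f : ℝ → ℝ} (hf : Continuous f) {C : ℝ}
    (hC : ∀ x, |f x| ≤ C) : Integrable f μ :=
  Integrable.of_bound hf.aestronglyMeasurable C (Eventually.of_forall hC)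

lemma integral_half (h0 : 0 < lam) (h1 : lam < 1) {f : ℝ → ℝ} (hf : Continuous f) {C : ℝ}
    (hC : ∀ x, |f x| ≤ C) :
    ∫ x, f x ∂(bernConv lam) = ((∫ x, f (1 + lam * x) ∂(bernConv lam)) +
      ∫ x, f (-1 + lam * x) ∂(bernConv lam)) / 2 := by
  have := isProbabilityMeasure_bernConv h0 h1
  conv_lhs => rw [bernConv_half h0 h1]
  have m1 : AEMeasurable (fun x : ℝ => 1 + lam * x) (bernConv lam) := by fun_prop
  have m2 : AEMeasurable (fun x : ℝ => -1 + lam * x) (bernConv lam) := by fun_prop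
  have p1 : IsProbabilityMeasure ((bernConv lam).map (fun x => 1 + lam * x)) :=
    Measure.isProbabilityMeasure_map m1
  have p2 : IsProbabilityMeasure ((bernConv lam).map (fun x => -1 + lam * x)) :=
    Measure.isProbabilityMeasure_map m2
  rw [integral_add_measure, integral_smul_measure, integral_smul_measure,
    integral_map m1 hf.aestronglyMeasurable, integral_map m2 hf.aestronglyMeasurable]
  · simp only [ENNReal.toReal_inv, ENNReal.toReal_ofNat, smul_eq_mul]
    ring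
  · exact (integrable_bdd hf hC).smul_measure (by simp)
  · exact (integrable_bdd hf hC).smul_measure (by simp)

lemma nuHat_step (h0 : 0 < lam) (h1 : lam < 1) (t : ℝ) :
    nuHat lam t = cos t * nuHat lam (t * lam) := by
  have := isProbabilityMeasure_bernConv h0 h1
  unfold nuHat
  rw [integral_half h0 h1 (f := fun x => cos (t * x)) (by fun_prop) (C := 1)
    (fun x => abs_cos_le_one _), ← integral_add, ← integral_const_mul, ← integral_div]
  · apply integral_congr_ae
    refine Eventually.of_forall fun x => ?_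
    simp only
    rw [show t * (1 + lam * x) = t + t * lam * x by ring,
      show t * (-1 + lam * x) = t * lam * x - t by ring, cos_add, cos_sub]
    ring
  · exact integrable_bdd (by fun_prop) (C := 1) (fun x => abs_cos_le_one _)
  · exact integrable_bdd (by fun_prop) (C := 1) (fun x => abs_cos_le_one _)

lemma nuHat_prod (h0 : 0 < lam) (h1 : lam < 1) (t : ℝ) (N : ℕ) :
    nuHat lam t = (∏ n ∈ Finset.range N, cos (t * lam ^ n)) * nuHat lam (t * lam ^ N) := by
  induction N with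
  | zero => simp
  | succ N ih =>
    rw [Finset.prod_range_succ, mul_assoc, ih, nuHat_step h0 h1 (t * lam ^ N), pow_succ,
      mul_assoc t]

lemma nuHat_neg (t : ℝ) : nuHat lam (-t) = nuHat lam t := by
  unfold nuHat
  simp only [neg_mul, cos_neg]

lemma abs_nuHat_le (h0 : 0 < lam) (h1 : lam < 1) (t : ℝ) : |nuHat lam t| ≤ 1 := by
  have := isProbabilityMeasure_bernConv h0 h1
  unfold nuHat
  refine (abs_integral_le_integral_abs).trans ?_
  calc ∫ x, |cos (t * x)| ∂(bernConv lam) ≤ ∫ x, (1 : ℝ) ∂(bernConv lam) :=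
        integral_mono (integrable_bdd (by fun_prop) (C := 1) fun x => by
          rw [abs_abs]; exact abs_cos_le_one _) (integrable_const _) fun x => abs_cos_le_one _
    _ = 1 := by simp

lemma one_sub_nuHat (h0 : 0 < lam) (h1 : lam < 1) (t : ℝ) :
    |1 - nuHat lam t| ≤ |t| * (1 - lam)⁻¹ := by
  have := isProbabilityMeasure_bernConv h0 h1
  have e : 1 - nuHat lam t = ∫ x, (1 - cos (t * x)) ∂(bernConv lam) := by
    rw [integral_sub (integrable_const _)
      (integrable_bdd (by fun_prop) (C := 1) (fun x => abs_cos_le_one _))]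
    simp [nuHat]
  rw [e]
  refine (abs_integral_le_integral_abs).trans ?_
  calc ∫ x, |1 - cos (t * x)| ∂(bernConv lam) ≤ ∫ x, |t| * (1 - lam)⁻¹ ∂(bernConv lam) := by
        refine integral_mono_ae (integrable_bdd (by fun_prop) (C := 2) fun x => ?_)
          (integrable_const _) ?_
        · rw [abs_abs]
          have h2 := cos_le_one (t * x)
          have h3 := neg_one_le_cos (t * x)
          rw [abs_le]
          constructor <;> linarith
        · filter_upwards [ae_bernConv h0 h1] with x hx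
          have h4 : |cos (t * x) - cos 0| ≤ |t * x - 0| := abs_cos_sub_cos_le _ _
          rw [cos_zero, sub_zero, abs_sub_comm, abs_mul] at h4
          exact h4.trans (mul_le_mul_of_nonneg_left hx (abs_nonneg _))
    _ = |t| * (1 - lam)⁻¹ := by simp only [integral_const, probReal_univ, smul_eq_mul, one_mul]

/-- (P1) -/
theorem nuHat_tendsto {lam : ℝ} (h0 : 0 < lam) (h1 : lam < 1) (t : ℝ) :
    Tendsto (fun N : ℕ => ∏ n ∈ Finset.range N, cos (t * lam ^ n)) atTop (𝓝 (nuHat lam t)) := by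
  rw [tendsto_iff_norm_sub_tendsto_zero]
  refine squeeze_zero (g := fun N : ℕ => |t| * (1 - lam)⁻¹ * lam ^ N) (fun N => norm_nonneg _)
    (fun N => ?_) ?_
  · have e := nuHat_prod h0 h1 t N
    have hP : |∏ n ∈ Finset.range N, cos (t * lam ^ n)| ≤ 1 := by
      rw [Finset.abs_prod]
      exact Finset.prod_le_one (fun _ _ => abs_nonneg _) fun _ _ => abs_cos_le_one _
    rw [e, Real.norm_eq_abs]
    conv_lhs => rw [← mul_one (∏ n ∈ Finset.range N, cos (t * lam ^ n)), mul_assoc, one_mul,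
      ← mul_sub, abs_mul]
    have h3 := one_sub_nuHat h0 h1 (t * lam ^ N)
    rw [abs_mul, abs_of_nonneg (pow_nonneg h0.le N)] at h3
    calc _ ≤ 1 * |1 - nuHat lam (t * lam ^ N)| := by gcongr
      _ ≤ 1 * (|t| * lam ^ N * (1 - lam)⁻¹) := by gcongr
      _ = _ := by ring
  · have := (tendsto_pow_atTop_nhds_zero_of_lt_one h0.le h1).const_mul (|t| * (1 - lam)⁻¹)
    simpa only [mul_zero] using this

end FourierProduct

section Schur

/-- A Schur test for symmetric nonnegative kernels. -/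
lemma schur {J : ℕ} (a : ℕ → ℝ) (w : ℕ → ℕ → ℝ) (hw : ∀ i j, 0 ≤ w i j)
    (hsym : ∀ i j, w i j = w j i) {M : ℝ}
    (hM : ∀ j < J, ∑ i ∈ Finset.range J, w j i ≤ M) :
    ∑ j ∈ Finset.range J, ∑ i ∈ Finset.range J, |a j| * |a i| * w j i ≤
      M * ∑ j ∈ Finset.range J, a j ^ 2 := by
  have h1 : ∑ j ∈ Finset.range J, ∑ i ∈ Finset.range J, |a j| * |a i| * w j i ≤
      ∑ j ∈ Finset.range J, ∑ i ∈ Finset.range J, (a j ^ 2 * w j i / 2 + a i ^ 2 * w j i / 2) := by
    refine Finset.sum_le_sum fun j _ => Finset.sum_le_sum fun i _ => ?_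
    have h2 : |a j| * |a i| ≤ (a j ^ 2 + a i ^ 2) / 2 := by
      linarith only [sq_nonneg (|a j| - |a i|), sq_abs (a j), sq_abs (a i)]
    calc |a j| * |a i| * w j i ≤ (a j ^ 2 + a i ^ 2) / 2 * w j i :=
          mul_le_mul_of_nonneg_right h2 (hw _ _)
      _ = _ := by ring
  refine h1.trans ?_
  have h3 : ∑ j ∈ Finset.range J, ∑ i ∈ Finset.range J, a i ^ 2 * w j i / 2 =
      ∑ j ∈ Finset.range J, ∑ i ∈ Finset.range J, a j ^ 2 * w j i / 2 := by
    rw [Finset.sum_comm]
    refine Finset.sum_congr rfl fun j _ => Finset.sum_congr rfl fun i _ => ?_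
    rw [hsym i j]
  have h4 : ∑ j ∈ Finset.range J, ∑ i ∈ Finset.range J, (a j ^ 2 * w j i / 2 +
      a i ^ 2 * w j i / 2) = ∑ j ∈ Finset.range J, a j ^ 2 * ∑ i ∈ Finset.range J, w j i := by
    simp_rw [Finset.sum_add_distrib]
    rw [h3, ← Finset.sum_add_distrib]
    refine Finset.sum_congr rfl fun j _ => ?_
    rw [← Finset.sum_add_distrib, Finset.mul_sum]
    refine Finset.sum_congr rfl fun i _ => ?_
    ring
  rw [h4, Finset.mul_sum]
  refine Finset.sum_le_sum fun j hj => ?_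
  rw [mul_comm M]
  exact mul_le_mul_of_nonneg_left (hM j (Finset.mem_range.mp hj)) (sq_nonneg _)

lemma sum_geom_dist {lam : ℝ} (h0 : 0 < lam) (h1 : lam < 1) {J j : ℕ} (hj : j < J) :
    ∑ i ∈ Finset.range J, lam ^ ((j - i) + (i - j)) ≤ 2 * (1 - lam)⁻¹ := by
  have hg : ∀ n : ℕ, ∑ k ∈ Finset.range n, lam ^ k ≤ (1 - lam)⁻¹ := fun n => by
    rw [← tsum_geometric_of_lt_one h0.le h1]
    exact (summable_geometric_of_lt_one h0.le h1).sum_le_tsum _ fun _ _ => by positivity
  have hJ : J = (j + 1) + (J - (j + 1)) := by omega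
  rw [hJ, Finset.sum_range_add]
  have e1 : ∑ i ∈ Finset.range (j + 1), lam ^ ((j - i) + (i - j)) =
      ∑ k ∈ Finset.range (j + 1), lam ^ k := by
    rw [← Finset.sum_range_reflect]
    refine Finset.sum_congr rfl fun i hi => ?_
    have := Finset.mem_range.mp hi
    congr 1
    omega
  have e2 : ∑ i ∈ Finset.range (J - (j + 1)), lam ^ ((j - (j + 1 + i)) + (j + 1 + i - j)) ≤
      ∑ k ∈ Finset.range (J - (j + 1)), lam ^ k := by
    refine Finset.sum_le_sum fun i _ => ?_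
    exact pow_le_pow_of_le_one h0.le h1.le (by omega)
  rw [e1]
  linarith only [e2, hg (j + 1), hg (J - (j + 1))]

lemma card_near (J j d : ℕ) : ((Finset.range J).filter
    (fun i => ¬ (i + d ≤ j) ∧ ¬ (j + d ≤ i))).card ≤ 2 * d := by
  calc _ ≤ (Finset.Ico (j + 1 - d) (j + d)).card := by
        refine Finset.card_le_card fun i hi => ?_
        rw [Finset.mem_filter] at hi
        rw [Finset.mem_Ico]
        omega
    _ ≤ 2 * d := by
        rw [Nat.card_Ico]
        omega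

end Schur

section Moments

variable {lam : ℝ}

lemma integral_cos_cos (h0 : 0 < lam) (h1 : lam < 1) (s t : ℝ) :
    ∫ x, cos (s * x) * cos (t * x) ∂(bernConv lam) =
      (nuHat lam (s - t) + nuHat lam (s + t)) / 2 := by
  have := isProbabilityMeasure_bernConv h0 h1
  unfold nuHat
  rw [← integral_add, ← integral_div]
  · apply integral_congr_ae
    refine Eventually.of_forall fun x => ?_
    simp only
    rw [sub_mul, add_mul, cos_add, cos_sub]
    ring
  · exact integrable_bdd (by fun_prop) (C := 1) (fun x => abs_cos_le_one _)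
  · exact integrable_bdd (by fun_prop) (C := 1) (fun x => abs_cos_le_one _)

/-- the test function -/
noncomputable def tf (a t : ℕ → ℝ) (J : ℕ) (x : ℝ) : ℝ :=
  ∑ j ∈ Finset.range J, a j * cos (t j * x)

lemma continuous_tf (a t : ℕ → ℝ) (J : ℕ) : Continuous (tf a t J) := by
  unfold tf
  fun_prop

lemma tf_sq (a t : ℕ → ℝ) (J : ℕ) (x : ℝ) : tf a t J x ^ 2 =
    ∑ j ∈ Finset.range J, ∑ i ∈ Finset.range J,
      a j * a i * (cos (t j * x) * cos (t i * x)) := by
  unfold tf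
  rw [sq, Finset.sum_mul_sum]
  refine Finset.sum_congr rfl fun j _ => Finset.sum_congr rfl fun i _ => ?_
  ring

lemma abs_tf_le (a t : ℕ → ℝ) (J : ℕ) (x : ℝ) :
    |tf a t J x| ≤ ∑ j ∈ Finset.range J, |a j| := by
  unfold tf
  refine (Finset.abs_sum_le_sum_abs _ _).trans (Finset.sum_le_sum fun j _ => ?_)
  rw [abs_mul]
  calc _ ≤ |a j| * 1 := by gcongr; exact abs_cos_le_one _
    _ = _ := mul_one _

lemma integral_tf (h0 : 0 < lam) (h1 : lam < 1) (a t : ℕ → ℝ) (J : ℕ) :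
    ∫ x, tf a t J x ∂(bernConv lam) = ∑ j ∈ Finset.range J, a j * nuHat lam (t j) := by
  have := isProbabilityMeasure_bernConv h0 h1
  unfold tf
  rw [integral_finsetSum]
  · refine Finset.sum_congr rfl fun j _ => ?_
    rw [integral_const_mul]
    rfl
  · intro j _
    exact (integrable_bdd (by fun_prop) (C := 1) (fun x => abs_cos_le_one _)).const_mul _

lemma integral_tf_sq {μ : Measure ℝ} [IsFiniteMeasure μ] (a t : ℕ → ℝ) (J : ℕ) :
    ∫ x, tf a t J x ^ 2 ∂μ = ∑ j ∈ Finset.range J, ∑ i ∈ Finset.range J,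
      a j * a i * ∫ x, cos (t j * x) * cos (t i * x) ∂μ := by
  have hi : ∀ j i : ℕ, Integrable (fun x => a j * a i * (cos (t j * x) * cos (t i * x))) μ := by
    intro j i
    refine (integrable_bdd (by fun_prop) (C := 1) (fun x => ?_)).const_mul _
    rw [abs_mul]
    exact mul_le_one₀ (abs_cos_le_one _) (abs_nonneg _) (abs_cos_le_one _)
  simp_rw [tf_sq]
  rw [integral_finsetSum]
  · refine Finset.sum_congr rfl fun j _ => ?_
    rw [integral_finsetSum]
    · refine Finset.sum_congr rfl fun i _ => ?_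
      rw [integral_const_mul]
    · exact fun i _ => hi j i
  · exact fun j _ => integrable_finsetSum _ fun i _ => hi j i

/-- The second moment of the test function. -/
lemma second_moment (h0 : 0 < lam) (h1 : lam < 1) (t : ℕ → ℝ) (J d : ℕ) {K : ℝ} (hK : 1 ≤ K)
    (hB : 2 * (d : ℝ) ≤ ∑ j ∈ Finset.range J, nuHat lam (t j) ^ 2)
    (hG : ∀ j < J, ∀ i < J, i + d ≤ j →
      |nuHat lam (t j - t i)| ≤ K * |nuHat lam (t j)| * |nuHat lam (t i)| ∧
      |nuHat lam (t j + t i)| ≤ K * |nuHat lam (t j)| * |nuHat lam (t i)|) :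
    ∫ x, tf (fun j => nuHat lam (t j)) t J x ^ 2 ∂(bernConv lam) ≤
      (K + 1) * (∑ j ∈ Finset.range J, nuHat lam (t j) ^ 2) ^ 2 := by
  have := isProbabilityMeasure_bernConv h0 h1
  set a : ℕ → ℝ := fun j => nuHat lam (t j) with ha
  set B := ∑ j ∈ Finset.range J, nuHat lam (t j) ^ 2 with hBdef
  have hB0 : 0 ≤ B := Finset.sum_nonneg fun _ _ => sq_nonneg _
  rw [integral_tf_sq]
  have hG1 : ∀ i j : ℕ, |(nuHat lam (t j - t i) + nuHat lam (t j + t i)) / 2| ≤ 1 := by
    intro i j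
    rw [abs_div, abs_two, div_le_one (by norm_num)]
    refine (abs_add_le _ _).trans ?_
    linarith [abs_nuHat_le h0 h1 (t j - t i), abs_nuHat_le h0 h1 (t j + t i)]
  have hG2 : ∀ j < J, ∀ i < J, (i + d ≤ j ∨ j + d ≤ i) →
      |(nuHat lam (t j - t i) + nuHat lam (t j + t i)) / 2| ≤ K * |a j| * |a i| := by
    intro j hj i hi hij
    have h2 : |nuHat lam (t j - t i)| ≤ K * |a j| * |a i| ∧
        |nuHat lam (t j + t i)| ≤ K * |a j| * |a i| := by
      rcases hij with hij | hij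
      · exact hG j hj i hi hij
      · have := hG i hi j hj hij
        rw [show t i - t j = -(t j - t i) by ring, nuHat_neg, add_comm (t i)] at this
        refine ⟨this.1.trans (le_of_eq (by ring)), this.2.trans (le_of_eq (by ring))⟩
    rw [abs_div, abs_two, div_le_iff₀ (by norm_num)]
    refine (abs_add_le _ _).trans ?_
    linarith only [h2.1, h2.2]
  have key : ∀ j ∈ Finset.range J, ∀ i ∈ Finset.range J,
      a j * a i * ∫ x, cos (t j * x) * cos (t i * x) ∂(bernConv lam) ≤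
      K * (a j ^ 2 * a i ^ 2) + |a j| * |a i| *
        (if ¬ (i + d ≤ j) ∧ ¬ (j + d ≤ i) then 1 else 0) := by
    intro j hj i hi
    rw [integral_cos_cos h0 h1]
    have hj' := Finset.mem_range.mp hj
    have hi' := Finset.mem_range.mp hi
    have h3 : a j * a i * ((nuHat lam (t j - t i) + nuHat lam (t j + t i)) / 2) ≤
        |a j| * |a i| * |(nuHat lam (t j - t i) + nuHat lam (t j + t i)) / 2| := by
      rw [← abs_mul, ← abs_mul]
      exact le_abs_self _
    refine h3.trans ?_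
    by_cases hc : ¬ (i + d ≤ j) ∧ ¬ (j + d ≤ i)
    · rw [if_pos hc, mul_one]
      have h4 : |a j| * |a i| * |(nuHat lam (t j - t i) + nuHat lam (t j + t i)) / 2| ≤
          |a j| * |a i| * 1 := by
        gcongr
        exact hG1 i j
      have h5 : 0 ≤ K * (a j ^ 2 * a i ^ 2) := by (clear * - hK; positivity)
      linarith only [h4, h5]
    · rw [if_neg hc, mul_zero, add_zero]
      have hc' : i + d ≤ j ∨ j + d ≤ i := by (clear * - hc; tauto)
      calc _ ≤ |a j| * |a i| * (K * |a j| * |a i|) := by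
            gcongr
            exact hG2 j hj' i hi' hc'
        _ = K * (|a j| ^ 2 * |a i| ^ 2) := by ring
        _ = _ := by rw [sq_abs, sq_abs]
  calc _ ≤ ∑ j ∈ Finset.range J, ∑ i ∈ Finset.range J, (K * (a j ^ 2 * a i ^ 2) + |a j| * |a i| *
        (if ¬ (i + d ≤ j) ∧ ¬ (j + d ≤ i) then 1 else 0)) :=
        Finset.sum_le_sum fun j hj => Finset.sum_le_sum fun i hi => key j hj i hi
    _ = K * (B * B) + ∑ j ∈ Finset.range J, ∑ i ∈ Finset.range J, |a j| * |a i| *
        (if ¬ (i + d ≤ j) ∧ ¬ (j + d ≤ i) then 1 else 0) := by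
        simp_rw [Finset.sum_add_distrib]
        congr 1
        rw [hBdef, Finset.sum_mul_sum, Finset.mul_sum]
        refine Finset.sum_congr rfl fun j _ => ?_
        rw [Finset.mul_sum]
    _ ≤ K * (B * B) + (2 * d) * B := by
        gcongr
        refine schur a (fun j i => if ¬ (i + d ≤ j) ∧ ¬ (j + d ≤ i) then 1 else 0) ?_ ?_ ?_
        · intro i j
          split_ifs <;> norm_num
        · intro i j
          simp only [and_comm]
        · intro j _
          rw [Finset.sum_boole]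
          exact_mod_cast card_near J j d
    _ ≤ K * (B * B) + B * B := by
        (clear * - hB; gcongr)
    _ = _ := by ring

end Moments

section Lebesgue

variable {lam : ℝ}

lemma abs_integral_cos_le {s : ℝ} (hs : s ≠ 0) (R : ℝ) :
    |∫ x in (-R)..R, cos (s * x)| ≤ 2 / |s| := by
  rw [intervalIntegral.integral_comp_mul_left (fun x => cos x) hs, integral_cos, smul_eq_mul,
    abs_mul, abs_inv, div_eq_inv_mul]
  gcongr
  refine (abs_sub _ _).trans ?_
  linarith [abs_sin_le_one (s * R), abs_sin_le_one (s * -R)]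

lemma abs_integral_cos_cos_le {s t : ℝ} (hst : s ≠ t) (hs : 0 < s) (ht : 0 < t) (R : ℝ) :
    |∫ x in (-R)..R, cos (s * x) * cos (t * x)| ≤ 2 / |s - t| := by
  have e : ∫ x in (-R)..R, cos (s * x) * cos (t * x) =
      ((∫ x in (-R)..R, cos ((s - t) * x)) + ∫ x in (-R)..R, cos ((s + t) * x)) / 2 := by
    rw [← intervalIntegral.integral_add, ← intervalIntegral.integral_div]
    · refine intervalIntegral.integral_congr fun x _ => ?_
      rw [sub_mul, add_mul, cos_add, cos_sub]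
      ring
    · exact Continuous.intervalIntegrable (by fun_prop) _ _
    · exact Continuous.intervalIntegrable (by fun_prop) _ _
  have h1 := abs_integral_cos_le (sub_ne_zero.mpr hst) R
  have h2 := abs_integral_cos_le (by (clear * - hs ht; positivity) : s + t ≠ 0) R
  have h3 : 2 / |s + t| ≤ 2 / |s - t| := by
    have h0 : 0 < |s - t| := abs_pos.mpr (sub_ne_zero.mpr hst)
    refine div_le_div_of_nonneg_left (by norm_num) h0 ?_
    rw [abs_of_pos (by positivity : 0 < s + t), abs_le]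
    constructor <;> linarith only [hs, ht]
  rw [e, abs_div, abs_two, div_le_iff₀ (by norm_num)]
  refine (abs_add_le _ _).trans ?_
  linarith only [h1, h2, h3]

lemma abs_integral_cos_cos_le' (s t : ℝ) {R : ℝ} (hR : 0 ≤ R) :
    |∫ x in (-R)..R, cos (s * x) * cos (t * x)| ≤ 2 * R := by
  have := intervalIntegral.norm_integral_le_of_norm_le_const (a := -R) (b := R) (C := 1)
    (f := fun x => cos (s * x) * cos (t * x)) (fun x _ => by
      rw [Real.norm_eq_abs, abs_mul]
      exact mul_le_one₀ (abs_cos_le_one _) (abs_nonneg _) (abs_cos_le_one _))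
  rw [Real.norm_eq_abs] at this
  refine this.trans (le_of_eq ?_)
  rw [abs_of_nonneg (by linarith)]
  ring

/-- The frequencies. -/
noncomputable def fr (lam u : ℝ) (j : ℕ) : ℝ := π * (lam⁻¹ ^ j * u)

lemma fr_gap (h0 : 0 < lam) (h1 : lam < 1) {u₀ u : ℝ} (hu₀ : 0 < u₀) (hu : u₀ ≤ u) {i j : ℕ}
    (hij : i < j) : 2 / |fr lam u j - fr lam u i| ≤
      2 / (π * u₀ * (1 - lam)) * lam ^ ((j - i) + (i - j)) := by
  obtain ⟨k, rfl⟩ : ∃ k, j = i + (k + 1) := ⟨j - i - 1, by omega⟩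
  have e1 : (i + (k + 1) - i) + (i - (i + (k + 1))) = k + 1 := by omega
  have e2 : fr lam u (i + (k + 1)) - fr lam u i = π * (lam⁻¹ ^ i * (lam⁻¹ ^ (k + 1) - 1) * u) := by
    unfold fr
    rw [pow_add]
    ring
  have hb : 1 ≤ lam⁻¹ := (one_le_inv₀ h0).mpr h1.le
  have h2 : π * u₀ * (1 - lam) * lam⁻¹ ^ (k + 1) ≤
      π * (lam⁻¹ ^ i * (lam⁻¹ ^ (k + 1) - 1) * u) := by
    have h3 : (1 - lam) * lam⁻¹ ^ (k + 1) ≤ lam⁻¹ ^ (k + 1) - 1 := by
      have h4 : lam * lam⁻¹ ^ (k + 1) = lam⁻¹ ^ k := by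
        rw [pow_succ]
        (clear * - h0; field_simp)
      have h5 : 1 ≤ lam⁻¹ ^ k := one_le_pow₀ hb
      linarith only [h4, h5]
    have h6 : 1 ≤ lam⁻¹ ^ i := one_le_pow₀ hb
    have h7 : 0 ≤ (1 - lam) * lam⁻¹ ^ (k + 1) := by
      have : 0 < 1 - lam := by linarith only [h1]
      positivity
    calc π * u₀ * (1 - lam) * lam⁻¹ ^ (k + 1) = π * (1 * ((1 - lam) * lam⁻¹ ^ (k + 1)) * u₀) := by
          ring
      _ ≤ π * (lam⁻¹ ^ i * (lam⁻¹ ^ (k + 1) - 1) * u) := by
          gcongr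
          exact mul_nonneg (by positivity) (h7.trans h3)
  have hpos : 0 < π * u₀ * (1 - lam) * lam⁻¹ ^ (k + 1) := by
    have : 0 < 1 - lam := by linarith only [h1]
    (clear * - hu₀ h1 h0; positivity)
  rw [e1, e2, abs_of_pos (hpos.trans_le h2)]
  calc 2 / (π * (lam⁻¹ ^ i * (lam⁻¹ ^ (k + 1) - 1) * u)) ≤
        2 / (π * u₀ * (1 - lam) * lam⁻¹ ^ (k + 1)) := by gcongr
    _ = _ := by
        rw [inv_pow]
        have : 0 < 1 - lam := by linarith only [h1]
        (clear * - h0 this hu₀; field_simp)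

lemma fr_pos (h0 : 0 < lam) {u : ℝ} (hu : 0 < u) (j : ℕ) : 0 < fr lam u j := by
  unfold fr
  positivity

lemma fr_ne (h0 : 0 < lam) (h1 : lam < 1) {u : ℝ} (hu : 0 < u) {i j : ℕ} (hij : i ≠ j) :
    fr lam u j ≠ fr lam u i := by
  unfold fr
  intro h
  have h2 := mul_left_cancel₀ pi_ne_zero h
  have h3 := mul_right_cancel₀ hu.ne' h2
  have hb : 1 < lam⁻¹ := (one_lt_inv₀ h0).mpr h1
  exact hij (pow_right_injective₀ (by positivity) hb.ne' h3.symm)

/-- The Lebesgue second moment of the test function. -/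
lemma lebesgue_moment (h0 : 0 < lam) (h1 : lam < 1) {u₀ u : ℝ} (hu₀ : 0 < u₀) (hu : u₀ ≤ u)
    (a : ℕ → ℝ) (J : ℕ) :
    ∫ x in Set.Ioc (-(1 - lam)⁻¹) (1 - lam)⁻¹, tf a (fr lam u) J x ^ 2 ≤
      (2 * (1 - lam)⁻¹ + 2 / (π * u₀ * (1 - lam))) * (2 * (1 - lam)⁻¹) *
        ∑ j ∈ Finset.range J, a j ^ 2 := by
  set R := (1 - lam)⁻¹ with hR
  have hR0 : 0 < R := by
    have : 0 < 1 - lam := by linarith only [h1]
    (clear * - h1; positivity)
  have h1l : 0 < 1 - lam := by linarith only [h1]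
  set C₁ := 2 * R + 2 / (π * u₀ * (1 - lam)) with hC₁
  have hC₁0 : 0 ≤ C₁ := by positivity
  rw [integral_tf_sq]
  have key : ∀ j ∈ Finset.range J, ∀ i ∈ Finset.range J,
      a j * a i * ∫ x in Set.Ioc (-R) R, cos (fr lam u j * x) * cos (fr lam u i * x) ≤
      |a j| * |a i| * (C₁ * lam ^ ((j - i) + (i - j))) := by
    intro j _ i _
    have e : ∫ x in Set.Ioc (-R) R, cos (fr lam u j * x) * cos (fr lam u i * x) =
        ∫ x in (-R)..R, cos (fr lam u j * x) * cos (fr lam u i * x) := by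
      rw [intervalIntegral.integral_of_le (by linarith only [hR0])]
    rw [e]
    have h3 : |∫ x in (-R)..R, cos (fr lam u j * x) * cos (fr lam u i * x)| ≤
        C₁ * lam ^ ((j - i) + (i - j)) := by
      have hpos : 0 ≤ lam ^ ((j - i) + (i - j)) := by positivity
      have hu' : 0 < u := lt_of_lt_of_le hu₀ hu
      rcases lt_trichotomy i j with hij | rfl | hij
      · refine (abs_integral_cos_cos_le (fr_ne h0 h1 hu' hij.ne) (fr_pos h0 hu' j)
          (fr_pos h0 hu' i) R).trans ((fr_gap h0 h1 hu₀ hu hij).trans ?_)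
        gcongr
        rw [hC₁]
        linarith only [hR0]
      · refine (abs_integral_cos_cos_le' _ _ hR0.le).trans ?_
        simp only [Nat.sub_self, add_zero, pow_zero, mul_one, hC₁]
        have : 0 ≤ 2 / (π * u₀ * (1 - lam)) := by (clear * - hu₀ h1; positivity)
        linarith only [this]
      · refine (abs_integral_cos_cos_le (fr_ne h0 h1 hu' hij.ne').symm.symm (fr_pos h0 hu' j)
          (fr_pos h0 hu' i) R).trans ?_
        have h4 := fr_gap h0 h1 hu₀ hu hij
        rw [abs_sub_comm, add_comm (i - j)] at h4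
        refine h4.trans ?_
        gcongr
        rw [hC₁]
        linarith only [hR0]
    calc _ ≤ |a j * a i| * |∫ x in (-R)..R, cos (fr lam u j * x) * cos (fr lam u i * x)| := by
          rw [← abs_mul]
          exact le_abs_self _
      _ ≤ _ := by
          rw [abs_mul]
          (clear * - h3; gcongr)
  calc _ ≤ ∑ j ∈ Finset.range J, ∑ i ∈ Finset.range J,
        |a j| * |a i| * (C₁ * lam ^ ((j - i) + (i - j))) :=
        Finset.sum_le_sum fun j hj => Finset.sum_le_sum fun i hi => key j hj i hi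
    _ ≤ C₁ * (2 * R) * ∑ j ∈ Finset.range J, a j ^ 2 := by
        refine schur a (fun j i => C₁ * lam ^ ((j - i) + (i - j))) ?_ ?_ ?_
        · intro i j
          (clear * - h1 hu₀ h0; positivity)
        · intro i j
          simp only [add_comm (i - j)]
        · intro j hj
          rw [← Finset.mul_sum]
          gcongr
          exact sum_geom_dist h0 h1 hj
    _ = _ := by ring

end Lebesgue

/-- (P2) the test sets. -/
theorem exists_test_set {lam : ℝ} (h0 : 0 < lam) (h1 : lam < 1) {u₀ : ℝ} (hu₀ : 0 < u₀) :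
    ∃ C : ℝ, 0 < C ∧ ∀ (u K : ℝ) (J d : ℕ), u₀ ≤ u → 1 ≤ K → 0 < J →
      (2 * (d : ℝ) ≤ ∑ j ∈ Finset.range J, nuHat lam (π * (lam⁻¹ ^ j * u)) ^ 2) →
      (∀ j < J, ∀ i < J, i + d ≤ j →
        |nuHat lam (π * (lam⁻¹ ^ j * u) - π * (lam⁻¹ ^ i * u))| ≤
            K * |nuHat lam (π * (lam⁻¹ ^ j * u))| * |nuHat lam (π * (lam⁻¹ ^ i * u))| ∧
        |nuHat lam (π * (lam⁻¹ ^ j * u) + π * (lam⁻¹ ^ i * u))| ≤
            K * |nuHat lam (π * (lam⁻¹ ^ j * u))| * |nuHat lam (π * (lam⁻¹ ^ i * u))|) →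
      0 < ∑ j ∈ Finset.range J, nuHat lam (π * (lam⁻¹ ^ j * u)) ^ 2 →
      ∃ E : Set ℝ, MeasurableSet E ∧
        volume E ≤ ENNReal.ofReal (C / ∑ j ∈ Finset.range J, nuHat lam (π * (lam⁻¹ ^ j * u)) ^ 2) ∧
        ENNReal.ofReal (1 / (4 * (K + 1))) ≤ bernConv lam E := by
  have hprob := isProbabilityMeasure_bernConv h0 h1
  set R := (1 - lam)⁻¹ with hR
  have h1l : 0 < 1 - lam := by linarith only [h1]
  have hR0 : 0 < R := by positivity
  set M := (2 * R + 2 / (π * u₀ * (1 - lam))) * (2 * R) with hM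
  have hM0 : 0 < M := by positivity
  refine ⟨4 * M, by positivity, ?_⟩
  intro u K J d hu hK _ hd hG hBpos
  set B := ∑ j ∈ Finset.range J, nuHat lam (π * (lam⁻¹ ^ j * u)) ^ 2 with hB
  set a : ℕ → ℝ := fun j => nuHat lam (fr lam u j) with ha
  set X : ℝ → ℝ := tf a (fr lam u) J with hX
  have hXc : Continuous X := continuous_tf _ _ _
  have hXb := abs_tf_le a (fr lam u) J
  have hint1 : ∫ x, X x ∂(bernConv lam) = B := by
    rw [hX, integral_tf h0 h1, hB]
    refine Finset.sum_congr rfl fun j _ => ?_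
    rw [sq]
    rfl
  have hint2 : ∫ x, X x ^ 2 ∂(bernConv lam) ≤ (K + 1) * B ^ 2 :=
    second_moment h0 h1 (fr lam u) J d hK hd hG
  have hint3 : ∫ x in Set.Ioc (-R) R, X x ^ 2 ≤ M * B :=
    lebesgue_moment h0 h1 hu₀ hu a J
  set E : Set ℝ := {x | B / 2 ≤ X x} ∩ Set.Ioc (-R) R with hE
  have hEm : MeasurableSet E :=
    (measurableSet_le measurable_const hXc.measurable).inter measurableSet_Ioc
  -- the closed version
  set E' : Set ℝ := {x | B / 2 ≤ X x} ∩ Set.Icc (-R) R with hE'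
  have hE'm : MeasurableSet E' :=
    (measurableSet_le measurable_const hXc.measurable).inter measurableSet_Icc
  refine ⟨E', hE'm, ?_, ?_⟩
  · -- Lebesgue measure
    have e1 : volume E' = volume E := by
      apply measure_congr
      exact (ae_eq_refl _).inter Ioc_ae_eq_Icc.symm
    rw [e1]
    have hfin : volume E ≠ ∞ := by
      refine ne_top_of_le_ne_top ?_ (measure_mono (Set.inter_subset_right))
      rw [Real.volume_Ioc]
      exact ENNReal.ofReal_ne_top
    rw [← ENNReal.ofReal_toReal hfin]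
    apply ENNReal.ofReal_le_ofReal
    have h2 : (volume E).toReal = ∫ x in Set.Ioc (-R) R, Set.indicator {x | B / 2 ≤ X x} 1 x := by
      rw [integral_indicator_one (measurableSet_le measurable_const hXc.measurable), hE,
        Measure.real, Measure.restrict_apply (measurableSet_le measurable_const hXc.measurable)]
    rw [h2]
    have h3 : ∫ x in Set.Ioc (-R) R, Set.indicator {x | B / 2 ≤ X x} (1 : ℝ → ℝ) x ≤
        ∫ x in Set.Ioc (-R) R, 4 / B ^ 2 * X x ^ 2 := by
      refine integral_mono_of_nonneg (Eventually.of_forall fun x => ?_) ?_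
        (Eventually.of_forall fun x => ?_)
      · exact Set.indicator_nonneg (fun _ _ => zero_le_one) _
      · refine Integrable.const_mul ?_ _
        refine integrable_bdd (by fun_prop) (C := (∑ j ∈ Finset.range J, |a j|) ^ 2) fun x => ?_
        rw [abs_pow]
        gcongr
        exact hXb x
      · simp only
        by_cases hx : B / 2 ≤ X x
        · rw [Set.indicator_of_mem (by exact hx), Pi.one_apply]
          have h4 : (B / 2) ^ 2 ≤ X x ^ 2 := by (clear * - hBpos hx; gcongr)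
          rw [div_mul_eq_mul_div, le_div_iff₀ (by (clear * - hBpos; positivity))]
          linarith only [h4]
        · rw [Set.indicator_of_notMem (by exact hx)]
          (clear * - hBpos; positivity)
    refine h3.trans ?_
    rw [integral_const_mul]
    calc 4 / B ^ 2 * ∫ x in Set.Ioc (-R) R, X x ^ 2 ≤ 4 / B ^ 2 * (M * B) := by (clear * - hint3 hBpos; gcongr)
      _ = 4 * M / B := by (clear * - hM0 hBpos; field_simp)
  · -- Paley-Zygmund
    have hfin : bernConv lam E' ≠ ∞ := measure_ne_top _ _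
    rw [← ENNReal.ofReal_toReal hfin]
    apply ENNReal.ofReal_le_ofReal
    have h2 : (bernConv lam E').toReal = ∫ x, Set.indicator E' 1 x ∂(bernConv lam) := by
      rw [integral_indicator_one hE'm]
      rfl
    have hK1 : 0 < K + 1 := by linarith only [hK]
    have hi2 : Integrable (fun x => X x ^ 2) (bernConv lam) := by
      refine integrable_bdd (by fun_prop) (C := (∑ j ∈ Finset.range J, |a j|) ^ 2) fun x => ?_
      rw [abs_pow]
      gcongr
      exact hXb x
    have hi3 : Integrable (Set.indicator E' (1 : ℝ → ℝ)) (bernConv lam) :=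
      (integrable_const (1 : ℝ)).indicator hE'm
    have hi4 : Integrable (fun x => B / 2 + 1 / (4 * (K + 1) * B) * X x ^ 2) (bernConv lam) :=
      (integrable_const _).add (hi2.const_mul _)
    have h3 : ∫ x, X x ∂(bernConv lam) ≤ ∫ x, (B / 2 + 1 / (4 * (K + 1) * B) * X x ^ 2 +
        (K + 1) * B * Set.indicator E' 1 x) ∂(bernConv lam) := by
      refine integral_mono_ae (integrable_bdd hXc hXb) (hi4.add (hi3.const_mul _)) ?_
      filter_upwards [ae_bernConv h0 h1] with x hx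
      have hsq : 0 ≤ 1 / (4 * (K + 1) * B) * X x ^ 2 := by (clear * - hK hBpos; (clear * - hK hBpos; positivity))
      by_cases hxE : B / 2 ≤ X x
      · have hxm : x ∈ E' := ⟨hxE, abs_le.mp hx⟩
        rw [Set.indicator_of_mem hxm, Pi.one_apply, mul_one]
        have h5 : X x ≤ 1 / (4 * (K + 1) * B) * X x ^ 2 + (K + 1) * B := by
          have h6 : 0 ≤ (X x - 2 * (K + 1) * B) ^ 2 / (4 * (K + 1) * B) := by (clear * - hK hBpos; (clear * - hK hBpos; positivity))
          have h7 : (X x - 2 * (K + 1) * B) ^ 2 / (4 * (K + 1) * B) =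
              1 / (4 * (K + 1) * B) * X x ^ 2 + (K + 1) * B - X x := by
            field_simp
            ring
          linarith only [h6, h7]
        linarith only [hBpos, h5]
      · have : 0 ≤ (K + 1) * B * Set.indicator E' 1 x :=
          mul_nonneg (by (clear * - hK hBpos; positivity)) (Set.indicator_nonneg (fun _ _ => zero_le_one) _)
        push Not at hxE
        linarith only [hsq, this, hxE]
    rw [integral_add hi4 (hi3.const_mul _), integral_add (integrable_const _) (hi2.const_mul _),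
      integral_const_mul, integral_const_mul, ← h2, hint1] at h3
    simp only [integral_const, probReal_univ, smul_eq_mul, one_mul] at h3
    have h4 : 1 / (4 * (K + 1) * B) * ∫ x, X x ^ 2 ∂(bernConv lam) ≤ B / 4 := by
      calc _ ≤ 1 / (4 * (K + 1) * B) * ((K + 1) * B ^ 2) := by (clear * - hint2 hK hBpos; gcongr)
        _ = B / 4 := by (clear * - hK hBpos; field_simp)
    rw [div_le_iff₀ (by positivity)]
    have h5 : B / 4 ≤ (K + 1) * B * (bernConv lam E').toReal := by linarith only [h3, h4]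
    have h6 : B * 1 ≤ B * ((bernConv lam E').toReal * (4 * (K + 1))) := by linarith only [h3, h4]
    exact le_of_mul_le_mul_left h6 hBpos

end Vale.Agent.P105.Salem
end
end

section

section

/-!
# Zero-one law for Bernoulli convolutions
-/

open MeasureTheory Real Filter Topology
open scoped ENNReal

namespace Vale.Agent.P105.Salem

theorem coin_prob : IsProbabilityMeasure coin := by
  constructor
  unfold coin
  simp only [Bool.univ_eq, Measure.coe_add, Measure.coe_smul, Pi.add_apply, Pi.smul_apply, MeasurableSpace.measurableSet_top, Measure.dirac_apply', Set.mem_insert_iff, Bool.true_eq_false, Set.mem_singleton_iff, or_true, Set.indicator_of_mem, Pi.one_apply, smul_eq_mul, mul_one, Bool.false_eq_true, or_false, ENNReal.inv_two_add_inv_two]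

theorem abs_sgn_eq (b : Bool) : |sgn b| = 1 := by
  cases b <;> simp [sgn]

theorem sgn_meas : Measurable sgn := measurable_of_finite sgn

theorem sgn_summable {lam : ℝ} (h0 : 0 < lam) (h1 : lam < 1) (ω : ℕ → Bool) :
    Summable fun n : ℕ => sgn (ω n) * lam ^ n := by
  refine Summable.of_norm_bounded (summable_geometric_of_lt_one h0.le h1) fun n => ?_
  rw [norm_mul, Real.norm_eq_abs, abs_sgn_eq, one_mul, Real.norm_of_nonneg (by positivity)]

/-- The random series. -/
noncomputable def YY (lam : ℝ) (ω : ℕ → Bool) : ℝ := ∑' n : ℕ, sgn (ω n) * lam ^ n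

theorem YY_meas {lam : ℝ} (h0 : 0 < lam) (h1 : lam < 1) : Measurable (YY lam) := by
  refine measurable_of_tendsto_metrizable (f := fun N (ω : ℕ → Bool) =>
    ∑ n ∈ Finset.range N, sgn (ω n) * lam ^ n) (fun N => ?_) ?_
  · refine Finset.measurable_sum _ fun n _ => ?_
    have : Measurable fun ω : ℕ → Bool => sgn (ω n) := sgn_meas.comp (measurable_pi_apply n)
    exact this.mul_const _
  · rw [tendsto_pi_nhds]
    intro ω
    exact (sgn_summable h0 h1 ω).hasSum.tendsto_sum_nat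

theorem bernConv_eq (lam : ℝ) :
    bernConv lam = (Measure.infinitePi (fun _ : ℕ => coin)).map (YY lam) := rfl

theorem bernConv_prob {lam : ℝ} (h0 : 0 < lam) (h1 : lam < 1) :
    IsProbabilityMeasure (bernConv lam) := by
  have := coin_prob
  exact Measure.isProbabilityMeasure_map (YY_meas h0 h1).aemeasurable

/-- The shift. -/
def shiftB (n : ℕ) (ω : ℕ → Bool) : ℕ → Bool := fun k => ω (k + n)

theorem YY_split {lam : ℝ} (h0 : 0 < lam) (h1 : lam < 1) (n : ℕ) (ω : ℕ → Bool) :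
    YY lam ω = ∑ i ∈ Finset.range n, sgn (ω i) * lam ^ i + lam ^ n * YY lam (shiftB n ω) := by
  unfold YY shiftB
  rw [← (sgn_summable h0 h1 ω).sum_add_tsum_nat_add n, ← tsum_mul_left]
  congr 1
  apply tsum_congr
  intro k
  ring

theorem zero_one {lam : ℝ} (h0 : 0 < lam) (h1 : lam < 1) {N : Set ℝ} (hN : MeasurableSet N)
    (hG : ∀ (n : ℕ) (x : ℝ), x ∈ N ↔ x + lam ^ n ∈ N) :
    bernConv lam N = 0 ∨ bernConv lam N = 1 := by
  have := coin_prob
  have hG' : ∀ (n : ℕ) (b : Bool) (x : ℝ), sgn b * lam ^ n + x ∈ N ↔ x ∈ N := by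
    intro n b x
    cases b
    · have h := hG n (sgn false * lam ^ n + x)
      rw [h]
      have : sgn false * lam ^ n + x + lam ^ n = x := by simp only [sgn, Bool.false_eq_true, ↓reduceIte, neg_mul, one_mul, neg_add_cancel_comm]
      rw [this]
    · have h := hG n x
      rw [h]
      have : sgn true * lam ^ n + x = x + lam ^ n := by simp only [sgn, ↓reduceIte, one_mul]; ring
      rw [this]
  have hG2 : ∀ (n : ℕ) (ω : ℕ → Bool) (x : ℝ),
      ∑ i ∈ Finset.range n, sgn (ω i) * lam ^ i + x ∈ N ↔ x ∈ N := by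
    intro n ω
    induction n with
    | zero => intro x; simp only [Finset.range_zero, Finset.sum_empty, zero_add]
    | succ n ih =>
      intro x
      rw [Finset.sum_range_succ, add_assoc, ih, hG']
  rw [bernConv_eq, Measure.map_apply (YY_meas h0 h1) hN]
  set s : ℕ → MeasurableSpace (ℕ → Bool) :=
    fun k => MeasurableSpace.comap (fun ω : ℕ → Bool => ω k) inferInstance with hs
  have hle : ∀ n, s n ≤ MeasurableSpace.pi := fun n => (measurable_pi_apply n).comap_le
  have hind : ProbabilityTheory.iIndep s (Measure.infinitePi (fun _ : ℕ => coin)) :=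
    ProbabilityTheory.iIndepFun_infinitePi (P := fun _ : ℕ => coin)
      (X := fun _ (b : Bool) => b) (fun _ => measurable_id)
  refine ProbabilityTheory.measure_zero_or_one_of_measurableSet_limsup_atTop hle hind ?_
  rw [Filter.limsup_eq_iInf_iSup_of_nat, MeasurableSpace.measurableSet_iInf]
  intro n
  -- the event only depends on the coordinates `≥ n`
  have hset : YY lam ⁻¹' N = shiftB n ⁻¹' ((fun ω => lam ^ n * YY lam ω) ⁻¹' N) := by
    ext ω
    simp only [Set.mem_preimage]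
    rw [YY_split h0 h1 n ω, hG2]
  have hm : MeasurableSet ((fun ω => lam ^ n * YY lam ω) ⁻¹' N) :=
    ((YY_meas h0 h1).const_mul _) hN
  have hcomap : MeasurableSpace.comap (shiftB n) MeasurableSpace.pi ≤ ⨆ i, ⨆ (_ : i ≥ n), s i := by
    rw [MeasurableSpace.pi, MeasurableSpace.comap_iSup]
    refine iSup_le fun k => ?_
    rw [MeasurableSpace.comap_comp]
    exact le_iSup₂_of_le (k + n) (by omega) le_rfl
  rw [hset]
  exact hcomap _ ⟨_, hm, rfl⟩

/-- (Z) zero-one law and Borel-Cantelli. -/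
theorem singular_of_sets {lam : ℝ} (h0 : 0 < lam) (h1 : lam < 1) {δ : ℝ} (hδ : 0 < δ)
    (h : ∀ ε : ℝ, 0 < ε → ∃ E : Set ℝ, MeasurableSet E ∧ volume E ≤ ENNReal.ofReal ε ∧
      ENNReal.ofReal δ ≤ bernConv lam E) :
    bernConv lam ⟂ₘ volume := by
  have := bernConv_prob h0 h1
  choose E hEm hEv hEb using fun n : ℕ => h ((1 / 2) ^ n) (by positivity)
  set N : Set ℝ := limsup E atTop with hN
  have hNv : volume N = 0 := by
    refine measure_limsup_atTop_eq_zero ?_
    refine ne_top_of_le_ne_top ?_ (ENNReal.tsum_le_tsum hEv)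
    rw [← ENNReal.ofReal_tsum_of_nonneg (fun n => by positivity)
      (summable_geometric_of_lt_one (by norm_num) (by norm_num))]
    exact ENNReal.ofReal_ne_top
  have hNm : MeasurableSet N := MeasurableSet.measurableSet_limsup hEm
  have hNb : ENNReal.ofReal δ ≤ bernConv lam N := by
    have hN2 : N = ⋂ n, ⋃ i ≥ n, E i := by
      rw [hN, Filter.limsup_eq_iInf_iSup_of_nat]
      rfl
    set A : ℕ → Set ℝ := fun n => ⋃ i ≥ n, E i with hA
    have hanti : Antitone A := by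
      intro a b hab
      refine Set.iUnion₂_subset fun i hi => ?_
      exact Set.subset_iUnion₂_of_subset i (le_trans hab hi) le_rfl
    have hAm : ∀ n, MeasurableSet (A n) := fun n =>
      MeasurableSet.iUnion fun i => MeasurableSet.iUnion fun _ => hEm i
    have ht := tendsto_measure_iInter_atTop (μ := bernConv lam)
      (fun n => (hAm n).nullMeasurableSet) hanti ⟨0, measure_ne_top _ _⟩
    rw [hN2]
    refine ge_of_tendsto' ht fun n => (hEb n).trans (measure_mono ?_)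
    exact Set.subset_iUnion₂_of_subset n le_rfl le_rfl
  -- saturate by the group generated by the powers
  set φ : (ℕ →₀ ℤ) →+ ℝ := Finsupp.liftAddHom fun n => zmultiplesHom ℝ (lam ^ n) with hφ
  set G : AddSubgroup ℝ := φ.range with hG
  have hGc : (G : Set ℝ).Countable := by
    rw [hG, AddMonoidHom.coe_range]
    exact Set.countable_range _
  set N' : Set ℝ := ⋃ g ∈ (G : Set ℝ), (fun x => x + g) ⁻¹' N with hN'
  have hN'm : MeasurableSet N' :=
    MeasurableSet.biUnion hGc fun g _ => (measurable_add_const g) hNm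
  have hN'v : volume N' = 0 := by
    rw [hN', measure_biUnion_null_iff hGc]
    intro g _
    rw [measure_preimage_add_right]
    exact hNv
  have hN'b : bernConv lam N' ≠ 0 := by
    have hsub : N ⊆ N' := by
      intro x hx
      refine Set.mem_biUnion (G.zero_mem) ?_
      simpa using hx
    intro h0'
    have := hNb.trans (measure_mono hsub)
    rw [h0'] at this
    have h2 : 0 < ENNReal.ofReal δ := ENNReal.ofReal_pos.2 hδ
    exact absurd (lt_of_lt_of_le h2 this) (lt_irrefl 0)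
  have hGinv : ∀ (n : ℕ) (x : ℝ), x ∈ N' ↔ x + lam ^ n ∈ N' := by
    intro n x
    have hn : lam ^ n ∈ G := ⟨Finsupp.single n 1, by simp only [hφ, Finsupp.liftAddHom_apply, zmultiplesHom_apply, zero_smul, Finsupp.sum_single_index, one_smul]⟩
    simp only [hN', Set.mem_iUnion, Set.mem_preimage, SetLike.mem_coe, exists_prop]
    constructor
    · rintro ⟨g, hg, hx⟩
      exact ⟨g - lam ^ n, G.sub_mem hg hn, by convert hx using 1; ring⟩
    · rintro ⟨g, hg, hx⟩
      exact ⟨g + lam ^ n, G.add_mem hg hn, by convert hx using 1; ring⟩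
  have h01 := zero_one h0 h1 hN'm hGinv
  have h1' : bernConv lam N' = 1 := h01.resolve_left hN'b
  refine ⟨N'ᶜ, hN'm.compl, ?_, ?_⟩
  · rw [prob_compl_eq_zero_iff hN'm]
    exact h1'
  · rw [compl_compl]
    exact hN'v

end Vale.Agent.P105.Salem
end
end

section

section

/-!
# Final assembly: Bernoulli convolutions of Salem numbers of degree four are singular
-/

open MeasureTheory Real Filter Topology
open scoped ENNReal

namespace Vale.Agent.P105.Salem

variable {b : ℝ} {ζ : ℂ}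

/-- The integers `j, j - 1, ..., j - N + 1`. -/
def down (j : ℤ) (N : ℕ) : Finset ℤ :=
  (Finset.range N).map ⟨fun n : ℕ => j - n, fun x y h => by
    simp only at h
    omega⟩

theorem mem_down {j m : ℤ} {N : ℕ} (h : m ∈ down j N) : m ≤ j := by
  unfold down at h
  rw [Finset.mem_map] at h
  obtain ⟨n, -, rfl⟩ := h
  show j - (n : ℤ) ≤ j
  omega

theorem prod_down (j : ℤ) (N : ℕ) (f : ℤ → ℝ) :
    ∏ m ∈ down j N, f m = ∏ n ∈ Finset.range N, f (j - n) := by
  unfold down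
  rw [Finset.prod_map]
  rfl

theorem sum_down (j : ℤ) (N : ℕ) (f : ℤ → ℝ) :
    ∑ m ∈ down j N, f m = ∑ n ∈ Finset.range N, f (j - n) := by
  unfold down
  rw [Finset.sum_map]
  rfl

theorem freq_eq (hb : 1 < b) (u : ℝ) (j n : ℕ) :
    π * (b ^ j * u) * b⁻¹ ^ n = π * (b ^ ((j : ℤ) - n) * u) := by
  have hb0 : b ≠ 0 := by positivity
  rw [zpow_sub₀ hb0, zpow_natCast, zpow_natCast, inv_pow]
  (clear * - hb; field_simp)

theorem nuHat_abs_tendsto (hb : 1 < b) (u : ℝ) (j : ℕ) :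
    Tendsto (fun N : ℕ => ∏ m ∈ down j N, |cos (π * (b ^ m * u))|) atTop
      (𝓝 |nuHat b⁻¹ (π * (b ^ j * u))|) := by
  have h0 : 0 < b⁻¹ := by positivity
  have h1 : b⁻¹ < 1 := inv_lt_one_of_one_lt₀ hb
  have h := (nuHat_tendsto h0 h1 (π * (b ^ j * u))).abs
  refine h.congr fun N => ?_
  rw [prod_down, Finset.abs_prod]
  exact Finset.prod_congr rfl fun n _ => by rw [freq_eq hb]

theorem nuHat_abs_ge (hb : 1 < b) {u a ρ : ℝ} (hst : Star b u a ρ) {j : ℕ}
    (hj : (j : ℝ) * ρ ^ 2 ≤ 1) : a ≤ |nuHat b⁻¹ (π * (b ^ j * u))| := by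
  refine ge_of_tendsto' (nuHat_abs_tendsto hb u j) fun N => ?_
  refine hst _ fun m hm => ?_
  have h1 : (m : ℝ) ≤ j := by exact_mod_cast mem_down hm
  have h2 : 0 ≤ ρ ^ 2 := sq_nonneg ρ
  linarith only [mul_nonneg_of_nonpos_of_nonpos (Mathlib.Tactic.Linarith.sub_nonpos_of_le (sq_nonneg ρ)) (Mathlib.Tactic.Linarith.sub_nonpos_of_le h1), hj]

/-- The constant in the comparison of the Fourier transform. -/
noncomputable def K1 (b : ℝ) : ℝ := 1 / 2 + 98 * (1 / (1 - b⁻¹ ^ 2) + 4)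

theorem sum_tan_all (hb : 1 < b) (hζ : ‖ζ‖ = 1) {u s : ℝ} {w : ℂ} (h : Adm b ζ u s w)
    {D g : ℕ} {c ρ : ℝ} (hg : 4 * D ≤ g) (hD : 1 ≤ D) (hu0 : 0 < u) (huD : u ≤ b ^ D)
    (hs : |s| ≤ 1) (hw : ‖w‖ ≤ ρ) (hρ : ρ ≤ 1 / 32) (hbD : (b ^ D)⁻¹ ≤ 1 / 16)
    (hc : 0 < c) (hcu : ∀ m : ℤ, c ≤ |cos (π * (b ^ m * u))|)
    (hε : 7 / c * (2 * (b ^ D)⁻¹ / (1 - b⁻¹) + 6 * D * ρ) ≤ 1 / 2)
    (F : Finset ℤ) (hF : ∀ m ∈ F, (m : ℝ) * ρ ^ 2 ≤ 1) :
    ∑ m ∈ F, T b u (m + g) * T b u m ≤ K1 b := by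
  rw [← Finset.sum_filter_add_sum_filter_not F (fun m => m ≤ (D : ℤ))]
  have h1 := (sum_tan_low hb hζ h hg hD hu0 huD hs hw hρ hbD hc hcu
    (F.filter (fun m => m ≤ (D : ℤ))) (fun m hm => (Finset.mem_filter.1 hm).2)).trans hε
  have h2 := sum_tan_high hb hζ h hg hD hs hw hρ hbD
    (F.filter (fun m => ¬ m ≤ (D : ℤ))) (fun m hm => by
      rw [Finset.mem_filter, not_le] at hm
      exact ⟨hm.2, hF m hm.1⟩)
  unfold K1
  linarith only [h1, h2]

/-- Comparison of the Fourier transform at sums and differences of frequencies. -/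
theorem nuHat_pair (hb : 1 < b) (hζ : ‖ζ‖ = 1) {u s : ℝ} {w : ℂ} (h : Adm b ζ u s w)
    {D : ℕ} {c ρ : ℝ} (hD : 1 ≤ D) (hu0 : 0 < u) (huD : u ≤ b ^ D)
    (hs : |s| ≤ 1) (hw : ‖w‖ ≤ ρ) (hρ : ρ ≤ 1 / 32) (hbD : (b ^ D)⁻¹ ≤ 1 / 16)
    (hc : 0 < c) (hcu : ∀ m : ℤ, c ≤ |cos (π * (b ^ m * u))|)
    (hε : 7 / c * (2 * (b ^ D)⁻¹ / (1 - b⁻¹) + 6 * D * ρ) ≤ 1 / 2)
    {i j : ℕ} (hij : i + 4 * D ≤ j) (hi : (i : ℝ) * ρ ^ 2 ≤ 1) (σ : ℝ)
    (hσ : σ = 1 ∨ σ = -1) :
    |nuHat b⁻¹ (π * (b ^ j * u) + σ * (π * (b ^ i * u)))| ≤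
      exp (K1 b) * |nuHat b⁻¹ (π * (b ^ j * u))| * |nuHat b⁻¹ (π * (b ^ i * u))| := by
  have h0 : 0 < b⁻¹ := by positivity
  have h1 : b⁻¹ < 1 := inv_lt_one_of_one_lt₀ hb
  have hlhs := (nuHat_tendsto h0 h1 (π * (b ^ j * u) + σ * (π * (b ^ i * u)))).abs
  have hrhs := ((nuHat_abs_tendsto hb u j).const_mul (exp (K1 b))).mul (nuHat_abs_tendsto hb u i)
  refine le_of_tendsto_of_tendsto' hlhs hrhs fun N => ?_
  obtain ⟨g, rfl⟩ := Nat.exists_eq_add_of_le (show i ≤ j by omega)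
  have hg : 4 * D ≤ g := by omega
  have hρ2 : 0 ≤ ρ ^ 2 := sq_nonneg ρ
  have hcne : ∀ m : ℤ, cos (π * (b ^ m * u)) ≠ 0 := by
    intro m h0
    have := hcu m
    rw [h0, abs_zero] at this
    linarith only [hc, this]
  have hT := sum_tan_all hb hζ h hg hD hu0 huD hs hw hρ hbD hc hcu hε (down i N) (fun m hm => by
    have h1 : (m : ℝ) ≤ i := by exact_mod_cast mem_down hm
    linarith only [hi, mul_nonneg_of_nonpos_of_nonpos (Mathlib.Tactic.Linarith.sub_nonpos_of_le (sq_nonneg ρ)) (Mathlib.Tactic.Linarith.sub_nonpos_of_le h1)])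
  rw [Finset.abs_prod, prod_down, prod_down]
  have hfac : ∀ n ∈ Finset.range N,
      |cos ((π * (b ^ (i + g) * u) + σ * (π * (b ^ i * u))) * b⁻¹ ^ n)| ≤
      |cos (π * (b ^ (((i + g : ℕ) : ℤ) - n) * u))| * |cos (π * (b ^ ((i : ℤ) - n) * u))| *
        exp (T b u ((i : ℤ) - n + g) * T b u ((i : ℤ) - n)) := by
    intro n _
    have e1 : (π * (b ^ (i + g) * u) + σ * (π * (b ^ i * u))) * b⁻¹ ^ n =
        π * (b ^ (((i + g : ℕ) : ℤ) - n) * u) + σ * (π * (b ^ ((i : ℤ) - n) * u)) := by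
      rw [← freq_eq hb u (i + g) n, ← freq_eq hb u i n]
      ring
    have e2 : (i : ℤ) - n + g = ((i + g : ℕ) : ℤ) - n := by
      push_cast
      ring
    rw [e1, e2]
    rcases hσ with rfl | rfl
    · rw [one_mul]
      exact cos_add_upper (hcne _) (hcne _)
    · rw [neg_one_mul, ← sub_eq_add_neg]
      exact cos_sub_upper (hcne _) (hcne _)
  refine (Finset.prod_le_prod (fun n _ => abs_nonneg _) hfac).trans ?_
  rw [Finset.prod_mul_distrib, Finset.prod_mul_distrib, ← exp_sum]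
  rw [sum_down] at hT
  have h5 : exp (∑ n ∈ Finset.range N, T b u ((i : ℤ) - n + g) * T b u ((i : ℤ) - n)) ≤
      exp (K1 b) := exp_le_exp.2 hT
  have h6 : 0 ≤ (∏ n ∈ Finset.range N, |cos (π * (b ^ (((i + g : ℕ) : ℤ) - n) * u))|) *
      ∏ n ∈ Finset.range N, |cos (π * (b ^ ((i : ℤ) - n) * u))| := by
    refine mul_nonneg ?_ ?_ <;> exact Finset.prod_nonneg fun _ _ => abs_nonneg _
  calc _ ≤ ((∏ n ∈ Finset.range N, |cos (π * (b ^ (((i + g : ℕ) : ℤ) - n) * u))|) *
      ∏ n ∈ Finset.range N, |cos (π * (b ^ ((i : ℤ) - n) * u))|) * exp (K1 b) :=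
        mul_le_mul_of_nonneg_left h5 h6
    _ = _ := by ring

/-- The Bernoulli convolution is singular under the trace identities. -/
theorem singular_of_trace (hb : 1 < b) (hζ : ‖ζ‖ = 1) (hi : IsIntegral ℤ b)
    (hi' : IsIntegral ℤ b⁻¹)
    (hT : ∀ n : ℤ, ∃ k : ℤ, b ^ n + b ^ (-n) + 2 * (ζ ^ n).re = k) :
    bernConv b⁻¹ ⟂ₘ volume := by
  have hb0 : 0 < b := by linarith
  have h0 : 0 < b⁻¹ := by positivity
  have h1 : b⁻¹ < 1 := inv_lt_one_of_one_lt₀ hb
  obtain ⟨c, u₀, hc, hu₀, hst⟩ := exists_states hb hζ hi hi' hT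
  obtain ⟨C, hC, hset⟩ := exists_test_set h0 h1 hu₀
  have hK : 1 ≤ exp (K1 b) := by
    rw [one_le_exp_iff]
    unfold K1
    have : b⁻¹ ^ 2 < 1 := by nlinarith only [h1, h0]
    have : 0 < 1 - b⁻¹ ^ 2 := by linarith only [this]
    positivity
  refine singular_of_sets h0 h1 (δ := 1 / (4 * (exp (K1 b) + 1))) (by positivity) fun ε hε => ?_
  -- choice of `η`
  have hbi : 0 < 1 - b⁻¹ := by linarith only [h1]
  obtain ⟨η, hη, hη1, hη2, hη3, hη4, hη5⟩ : ∃ η : ℝ, 0 < η ∧ η ≤ 1 / 10 ^ 4 ∧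
      η ≤ c / 28 * (1 - b⁻¹) / 2 ∧ η ≤ (c / 168) ^ 4 ∧ η ≤ ε / (4 * C) ∧ η ≤ 1 := by
    refine ⟨min (1 / 10 ^ 4) (min (c / 28 * (1 - b⁻¹) / 2) (min ((c / 168) ^ 4)
      (min (ε / (4 * C)) 1))), ?_, ?_, ?_, ?_, ?_, ?_⟩
    · exact lt_min (by norm_num) (lt_min (by positivity) (lt_min (by positivity)
        (lt_min (by positivity) one_pos)))
    · exact min_le_left _ _
    · exact (min_le_right _ _).trans (min_le_left _ _)
    · exact (min_le_right _ _).trans ((min_le_right _ _).trans (min_le_left _ _))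
    · exact (min_le_right _ _).trans ((min_le_right _ _).trans ((min_le_right _ _).trans
        (min_le_left _ _)))
    · exact (min_le_right _ _).trans ((min_le_right _ _).trans ((min_le_right _ _).trans
        (min_le_right _ _)))
  obtain ⟨u, s, w, D, ρ, a, hadm, hD, hu₀u, huD, hs, hw, hρ0, hρη, hbD, hcu, hI, ha, hρa, hstar⟩ :=
    hst η hη
  have hu0 : 0 < u := lt_of_lt_of_le hu₀ hu₀u
  have hρ4 : ρ ≤ 1 / 10 ^ 4 := hρη.trans hη1
  have hDρ : (D : ℝ) * ρ ≤ c / 168 :=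
    D_mul_rho_le hρ0 hI (by positivity) (hρη.trans hη3)
  have hε' : 7 / c * (2 * (b ^ D)⁻¹ / (1 - b⁻¹) + 6 * D * ρ) ≤ 1 / 2 := by
    have h3 : 2 * (b ^ D)⁻¹ / (1 - b⁻¹) ≤ c / 28 := by
      rw [div_le_iff₀ hbi]
      linarith only [hη2, hbD]
    have h4 : 6 * (D : ℝ) * ρ ≤ c / 28 := by
      have : 6 * (D : ℝ) * ρ = 6 * (D * ρ) := by ring
      rw [this]
      linarith only [hDρ]
    calc 7 / c * (2 * (b ^ D)⁻¹ / (1 - b⁻¹) + 6 * D * ρ) ≤ 7 / c * (c / 28 + c / 28) := by
          (clear * - h3 h4 hc; gcongr)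
      _ = 1 / 2 := by field_simp; norm_num
  have hρ32 : ρ ≤ 1 / 32 := hρ4.trans (by norm_num1)
  have hbD16 : (b ^ D)⁻¹ ≤ 1 / 16 := (hbD.trans hη1).trans (by norm_num)
  -- the number of frequencies
  set X : ℝ := (ρ ^ 2)⁻¹ with hX
  have hρ2 : 0 < ρ ^ 2 := by (clear * - hρ0; positivity)
  have hXρ : X * ρ ^ 2 = 1 := by rw [hX]; (clear * - hρ0; field_simp)
  set J : ℕ := ⌊X⌋₊ with hJ
  have hX1 : 1 ≤ X := by
    rw [hX, le_inv_comm₀ one_pos hρ2, inv_one]
    have h3 : ρ ^ 2 ≤ (1 / 10 ^ 4) ^ 2 := pow_le_pow_left₀ hρ0.le hρ4 2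
    exact h3.trans (by norm_num)
  have hJX : (J : ℝ) ≤ X := Nat.floor_le (by linarith only [hX1])
  have hJ1 : 1 ≤ J := by
    rw [hJ]
    exact Nat.le_floor (by simpa only [Nat.cast_one] using hX1)
  have hJ2 : X / 2 ≤ J := by
    have h3 : X < J + 1 := Nat.lt_floor_add_one _
    have h4 : (1 : ℝ) ≤ J := by exact_mod_cast hJ1
    linarith only [h3, h4]
  have hjρ : ∀ j < J, (j : ℝ) * ρ ^ 2 ≤ 1 := by
    intro j hj
    have h3 : (j : ℝ) ≤ J := by exact_mod_cast hj.le
    linarith only [hXρ, mul_nonneg_of_nonpos_of_nonpos (Mathlib.Tactic.Linarith.sub_nonpos_of_le (sq_nonneg ρ)) (Mathlib.Tactic.Linarith.sub_nonpos_of_le h3), mul_nonneg_of_nonpos_of_nonpos (Mathlib.Tactic.Linarith.sub_nonpos_of_le (sq_nonneg ρ)) (Mathlib.Tactic.Linarith.sub_nonpos_of_le hJX)]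
  set B : ℝ := ∑ j ∈ Finset.range J, nuHat b⁻¹ (π * (b⁻¹⁻¹ ^ j * u)) ^ 2 with hB
  -- lower bound for `B`
  have hBJ : (J : ℝ) * a ^ 2 ≤ B := by
    have h3 : ∑ _j ∈ Finset.range J, a ^ 2 ≤ B := by
      rw [hB]
      refine Finset.sum_le_sum fun j hj => ?_
      rw [inv_inv, ← sq_abs (nuHat b⁻¹ (π * (b ^ j * u)))]
      exact pow_le_pow_left₀ ha.le (nuHat_abs_ge hb hstar (hjρ j (Finset.mem_range.1 hj))) 2
    simpa only [ge_iff_le, Finset.sum_const, Finset.card_range, nsmul_eq_mul] using h3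
  -- `B` is at least `1 / (2 ρ)`
  have ha4 : ρ ≤ a ^ 2 * a ^ 2 := by
    calc ρ ≤ a ^ 4 := hρa
      _ = a ^ 2 * a ^ 2 := by ring
  have hsq : ρ ≤ a ^ 2 := by
    by_contra hcon
    push Not at hcon
    have ha2 : 0 < a ^ 2 := by positivity
    have hρ1 : ρ < 1 := by
      have : (1 : ℝ) / 10 ^ 4 < 1 := by norm_num1
      linarith only [hη1, hρη]
    nlinarith only [hρa, hcon, hη1, hρη]
  have hBρ : 1 / (2 * ρ) ≤ B := by
    refine le_trans ?_ hBJ
    have h3 : X / 2 * ρ ≤ J * a ^ 2 := by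
      refine mul_le_mul hJ2 hsq hρ0.le (by (clear * - hJ1; positivity))
    refine le_trans (le_of_eq ?_) h3
    rw [hX]
    (clear * - hρ0; field_simp)
  have hBpos : 0 < B := lt_of_lt_of_le (by positivity) hBρ
  -- `8 D ≤ B`
  have hDB : 2 * ((4 * D : ℕ) : ℝ) ≤ B := by
    have hρ1 : ρ ≤ 1 := hρ4.trans (by norm_num)
    -- `(16 D ρ ^ 2) ^ 4 ≤ a ^ 8`
    have h3 : (16 * (D : ℝ) * ρ ^ 2) ^ 4 ≤ (a ^ 2) ^ 4 := by
      calc (16 * (D : ℝ) * ρ ^ 2) ^ 4 = 16 ^ 4 * (D ^ 4 * ρ ^ 3) * ρ ^ 3 * ρ ^ 2 := by ring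
        _ ≤ 16 ^ 4 * 1 * (1 / 10 ^ 4) ^ 3 * ρ ^ 2 := by (clear * - hI hρ0 hρ4; gcongr)
        _ ≤ 1 * ρ ^ 2 := by
            have : (16 : ℝ) ^ 4 * 1 * (1 / 10 ^ 4) ^ 3 ≤ 1 := by norm_num1
            (clear * - this hρ0; gcongr)
        _ = ρ ^ 2 := one_mul _
        _ ≤ (a ^ 4) ^ 2 := pow_le_pow_left₀ hρ0.le hρa 2
        _ = (a ^ 2) ^ 4 := by ring
    have h4 : 16 * (D : ℝ) * ρ ^ 2 ≤ a ^ 2 := le_of_pow_le_pow_left₀ (by norm_num)
      (by positivity) h3
    push_cast
    refine le_trans ?_ hBJ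
    have h5 : X / 2 * (16 * (D : ℝ) * ρ ^ 2) ≤ J * a ^ 2 :=
      mul_le_mul hJ2 h4 (by (clear * - hD hρ0; positivity)) (by positivity)
    refine le_trans (le_of_eq ?_) h5
    calc 2 * (4 * (D : ℝ)) = 8 * D * (X * ρ ^ 2) := by rw [hXρ]; ring
      _ = X / 2 * (16 * D * ρ ^ 2) := by ring
  obtain ⟨S, hS, hvol, hnu⟩ := hset u (exp (K1 b)) J (4 * D) hu₀u hK (by omega) hDB
    (fun j hj i hi hij => by
      rw [inv_inv]
      have h3 := nuHat_pair hb hζ hadm hD hu0 huD hs hw hρ32 hbD16 hc hcu hε' hij (hjρ i hi)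
      refine ⟨?_, ?_⟩
      · have := h3 (-1) (Or.inr rfl)
        rwa [neg_one_mul, ← sub_eq_add_neg] at this
      · have := h3 1 (Or.inl rfl)
        rwa [one_mul] at this) hBpos
  refine ⟨S, hS, hvol.trans (ENNReal.ofReal_le_ofReal ?_), hnu⟩
  -- `C / B ≤ ε`
  calc C / B ≤ C / (1 / (2 * ρ)) := by (clear * - hC hρ0 hBρ; gcongr)
    _ = 2 * C * ρ := by (clear * - hρ0 hC; field_simp)
    _ ≤ 2 * C * (ε / (4 * C)) := by
        have := hρη.trans hη4
        (clear * - this hC; gcongr)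
    _ = ε / 2 := by field_simp; norm_num
    _ ≤ ε := by linarith only [hε]

/-- Main theorem. -/
theorem main :
    (∀ lam : ℝ, 0 < lam → IsSalem lam⁻¹ → (minpoly ℚ lam⁻¹).natDegree = 4 →
      bernConv lam ⟂ₘ volume) ∧
    ∃ lam : ℝ, 1 / 2 < lam ∧ lam < 1 ∧ lam ^ 4 - lam ^ 3 - lam ^ 2 - lam + 1 = 0 ∧
      IsSalem lam⁻¹ ∧ ¬ IsPisot lam⁻¹ ∧ bernConv lam ⟂ₘ volume := by
  have key : ∀ lam : ℝ, 0 < lam → IsSalem lam⁻¹ → (minpoly ℚ lam⁻¹).natDegree = 4 →
      bernConv lam ⟂ₘ volume := by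
    intro lam _ hS h4
    obtain ⟨hi', ζ, hζ, hT⟩ := exists_zeta_of_salem hS h4
    have := singular_of_trace hS.1 hζ hS.2.1 hi' hT
    rwa [inv_inv] at this
  refine ⟨key, ?_⟩
  obtain ⟨b, hb1, hb2, hroot, hS, h4, hP⟩ := exists_example
  have hb0 : 0 < b := by linarith only [hb1]
  refine ⟨b⁻¹, ?_, inv_lt_one_of_one_lt₀ hb1, ?_, by rwa [inv_inv], by rwa [inv_inv],
    key b⁻¹ (by positivity) (by rwa [inv_inv]) (by rwa [inv_inv])⟩
  · rw [one_div]
    exact inv_strictAnti₀ hb0 hb2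
  · have : b⁻¹ ^ 4 - b⁻¹ ^ 3 - b⁻¹ ^ 2 - b⁻¹ + 1 =
        (b ^ 4 - b ^ 3 - b ^ 2 - b + 1) / b ^ 4 := by
      field_simp
      ring
    rw [this, hroot, zero_div]

end Vale.Agent.P105.Salem
end
end

section

section

open MeasureTheory Real Filter Topology
open scoped ENNReal

namespace Vale.Agent.P105

instance : IsProbabilityMeasure coin := by
  constructor
  unfold coin
  simp only [Bool.univ_eq, Measure.coe_add, Measure.coe_smul, Pi.add_apply, Pi.smul_apply, MeasurableSpace.measurableSet_top, Measure.dirac_apply', Set.mem_insert_iff, Bool.true_eq_false, Set.mem_singleton_iff, or_true, Set.indicator_of_mem, Pi.one_apply, smul_eq_mul, mul_one, Bool.false_eq_true, or_false, ENNReal.inv_two_add_inv_two]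

lemma abs_sgn (b : Bool) : |sgn b| = 1 := by
  cases b <;> simp [sgn]

lemma measurable_sgn : Measurable sgn := measurable_of_finite sgn

lemma summable_sgn {lam : ℝ} (h0 : 0 < lam) (h1 : lam < 1) (ω : ℕ → Bool) :
    Summable fun n : ℕ => sgn (ω n) * lam ^ n := by
  refine Summable.of_norm_bounded (summable_geometric_of_lt_one h0.le h1) fun n => ?_
  rw [norm_mul, Real.norm_eq_abs, abs_sgn, one_mul, Real.norm_of_nonneg (by positivity)]

lemma measurable_series {lam : ℝ} (h0 : 0 < lam) (h1 : lam < 1) :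
    Measurable fun ω : ℕ → Bool => ∑' n : ℕ, sgn (ω n) * lam ^ n := by
  refine measurable_of_tendsto_metrizable (f := fun N (ω : ℕ → Bool) =>
    ∑ n ∈ Finset.range N, sgn (ω n) * lam ^ n) (fun N => ?_) ?_
  · refine Finset.measurable_sum _ fun n _ => ?_
    have : Measurable fun ω : ℕ → Bool => sgn (ω n) :=
      measurable_sgn.comp (measurable_pi_apply n)
    exact this.mul_const _
  · rw [tendsto_pi_nhds]
    intro ω
    exact (summable_sgn h0 h1 ω).hasSum.tendsto_sum_nat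

lemma isProbabilityMeasure_bernConv {lam : ℝ} (h0 : 0 < lam) (h1 : lam < 1) :
    IsProbabilityMeasure (bernConv lam) :=
  Measure.isProbabilityMeasure_map (measurable_series h0 h1).aemeasurable

/-- prepend a letter -/
def consB (p : Bool × (ℕ → Bool)) : ℕ → Bool := fun n => if n = 0 then p.1 else p.2 (n - 1)

lemma measurable_consB : Measurable consB := by
  rw [measurable_pi_iff]
  intro n
  by_cases h : n = 0
  · simp only [consB, h, if_true]
    exact measurable_fst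
  · simp only [consB, h, if_false]
    exact (measurable_pi_apply _).comp measurable_snd

lemma map_consB : (coin.prod (Measure.infinitePi fun _ : ℕ => coin)).map consB =
    Measure.infinitePi fun _ : ℕ => coin := by
  classical
  apply Measure.eq_infinitePi
  intro s t ht
  rw [Measure.map_apply measurable_consB (MeasurableSet.pi s.countable_toSet fun i _ => ht i)]
  set s' : Finset ℕ := s.preimage Nat.succ (Nat.succ_injective.injOn) with hs'
  have e1 : consB ⁻¹' (Set.pi s t) =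
      (if 0 ∈ s then t 0 else Set.univ) ×ˢ (Set.pi s' fun i => t (i + 1)) := by
    ext ⟨b, ω⟩
    simp only [Set.mem_preimage, Set.mem_pi, Set.mem_prod, hs', Finset.mem_coe,
      Finset.mem_preimage, Nat.succ_eq_add_one]
    constructor
    · intro h
      refine ⟨?_, fun i hi => ?_⟩
      · split_ifs with h0
        · simpa [consB] using h 0 h0
        · trivial
      · simpa only [consB, Nat.add_eq_zero_iff, one_ne_zero, and_false, ↓reduceIte, add_tsub_cancel_right] using h (i + 1) hi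
    · rintro ⟨h1, h2⟩ i hi
      rcases i with _ | i
      · rw [if_pos hi] at h1
        simpa [consB] using h1
      · simpa only [consB, Nat.add_eq_zero_iff, one_ne_zero, and_false, ↓reduceIte, add_tsub_cancel_right] using h2 i hi
  rw [e1, Measure.prod_prod, Measure.infinitePi_pi _ (fun i _ => ht _)]
  have e2 := Finset.prod_filter_mul_prod_filter_not s (fun x => x ∈ Set.range Nat.succ)
    (fun i => coin (t i))
  rw [← e2, mul_comm]
  congr 1
  · exact Finset.prod_preimage' Nat.succ s (Nat.succ_injective.injOn) (fun i => coin (t i))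
  · have e3 : s.filter (fun x => x ∉ Set.range Nat.succ) = s.filter (fun x => x = 0) := by
      apply Finset.filter_congr
      intro x _
      rw [Nat.range_succ]
      simp only [Set.mem_ofPred_eq, not_lt, nonpos_iff_eq_zero]
    rw [e3, Finset.filter_eq']
    split_ifs
    · simp
    · rw [measure_univ, Finset.prod_empty]

lemma conv_map_mul (μ ν : Measure ℝ) [SFinite μ] [SFinite ν] (c : ℝ) :
    (μ ∗ ν).map (c * ·) = μ.map (c * ·) ∗ ν.map (c * ·) := by
  unfold Measure.conv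
  rw [Measure.map_map (by fun_prop) (by fun_prop), Measure.map_prod_map _ _ (by fun_prop)
    (by fun_prop), Measure.map_map (by fun_prop) (by fun_prop)]
  congr 1
  ext p
  simp only [Function.comp_apply, mul_add, Prod.map_fst, Prod.map_snd]

lemma bernConv_step {lam : ℝ} (h0 : 0 < lam) (h1 : lam < 1) :
    bernConv lam = coin.map sgn ∗ (bernConv lam).map (lam * ·) := by
  have hS := measurable_series h0 h1
  have hsg := measurable_sgn
  conv_lhs => rw [bernConv, ← map_consB]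
  rw [Measure.map_map hS measurable_consB]
  conv_rhs => rw [bernConv, Measure.map_map (by fun_prop) hS]
  unfold Measure.conv
  have hS2 : Measurable (fun ω : ℕ → Bool => lam * ∑' n : ℕ, sgn (ω n) * lam ^ n) :=
    hS.const_mul lam
  rw [Measure.map_prod_map _ _ hsg (by exact hS2), Measure.map_map (by fun_prop)
    (hsg.prodMap (by exact hS2))]
  congr 1
  ext ⟨b, ω⟩
  simp only [Function.comp_apply, Prod.map_apply]
  rw [(summable_sgn h0 h1 (consB (b, ω))).tsum_eq_zero_add]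
  simp only [consB, pow_zero, mul_one, if_true, Nat.add_eq_zero_iff, one_ne_zero, and_false,
    if_false, Nat.add_sub_cancel]
  rw [← tsum_mul_left]
  congr 1
  apply tsum_congr
  intro n
  ring

/-- law of the `n`-th partial sum -/
noncomputable def pm (lam : ℝ) : ℕ → Measure ℝ
  | 0 => Measure.dirac 0
  | n + 1 => pm lam n ∗ (coin.map sgn).map (lam ^ n * ·)

instance : IsProbabilityMeasure (coin.map sgn) :=
  Measure.isProbabilityMeasure_map measurable_sgn.aemeasurable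

lemma pm_zero (lam : ℝ) : pm lam 0 = Measure.dirac 0 := rfl

lemma pm_succ (lam : ℝ) (n : ℕ) :
    pm lam (n + 1) = pm lam n ∗ (coin.map sgn).map (lam ^ n * ·) := rfl

instance pm_prob (lam : ℝ) (n : ℕ) : IsProbabilityMeasure (pm lam n) := by
  induction n with
  | zero => rw [pm_zero]; infer_instance
  | succ n ih =>
    rw [pm_succ]
    have : IsProbabilityMeasure ((coin.map sgn).map (lam ^ n * ·)) :=
      Measure.isProbabilityMeasure_map (by fun_prop)
    infer_instance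

lemma bernConv_self {lam : ℝ} (h0 : 0 < lam) (h1 : lam < 1) (n : ℕ) :
    bernConv lam = pm lam n ∗ (bernConv lam).map (lam ^ n * ·) := by
  have := isProbabilityMeasure_bernConv h0 h1
  induction n with
  | zero =>
    rw [pm_zero, Measure.dirac_zero_conv]
    simp only [pow_zero, one_mul, Measure.map_id']
  | succ n ih =>
    rw [pm_succ, Measure.conv_assoc]
    conv_lhs => rw [ih, bernConv_step h0 h1]
    have : IsProbabilityMeasure ((bernConv lam).map (lam * ·)) :=
      Measure.isProbabilityMeasure_map (by fun_prop)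
    have e : (bernConv lam).map (lam ^ (n + 1) * ·) =
        ((bernConv lam).map (lam * ·)).map (lam ^ n * ·) := by
      rw [Measure.map_map (by fun_prop) (by fun_prop)]
      congr 1
      ext x
      simp only [Function.comp_apply]
      ring
    rw [conv_map_mul, e]

lemma psum_snoc (lam : ℝ) (n : ℕ) (e : Fin n → Bool) (b : Bool) :
    psum lam (n + 1) (Fin.snoc e b : Fin (n + 1) → Bool) = psum lam n e + sgn b * lam ^ n := by
  unfold psum
  rw [Fin.sum_univ_castSucc]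
  simp only [Fin.snoc_castSucc, Fin.val_castSucc, Fin.snoc_last, Fin.val_last]

lemma integral_coin (f : Bool → ℝ) : ∫ b, f b ∂coin = (f true + f false) / 2 := by
  unfold coin
  rw [integral_add_measure, integral_smul_measure, integral_smul_measure, integral_dirac,
    integral_dirac]
  · simp only [ENNReal.toReal_inv, ENNReal.toReal_ofNat, smul_eq_mul]
    ring
  · exact (Integrable.of_finite).smul_measure (by simp)
  · exact (Integrable.of_finite).smul_measure (by simp)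

/-- the law of the partial sum, smoothed -/
lemma sm_pm (lam : ℝ) (n : ℕ) {K : ℝ → ℝ} (hK : Continuous K) {C : ℝ} (hC : ∀ x, |K x| ≤ C)
    (x : ℝ) : sm (pm lam n) K x =
      (Fintype.card (Fin n → Bool) : ℝ)⁻¹ * ∑ e, K (x - psum lam n e) := by
  induction n generalizing x with
  | zero =>
    rw [pm_zero]
    unfold sm psum
    simp only [integral_dirac, sub_zero, Fintype.card_unique, Nat.cast_one, inv_one, Finset.univ_unique, Finset.univ_eq_empty, Finset.sum_empty, Finset.sum_const, Finset.card_singleton, one_smul, one_mul]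
  | succ n ih =>
    rw [pm_succ]
    have : IsProbabilityMeasure ((coin.map sgn).map (lam ^ n * ·)) :=
      Measure.isProbabilityMeasure_map (by fun_prop)
    have hb : ∃ C, ∀ x, |K x| ≤ C := ⟨C, hC⟩
    have hcs := continuous_sm (μ := pm lam n) hK hb
    rw [Measure.conv_comm, sm_conv hK hb, integral_map (by fun_prop)
      (by fun_prop : Continuous fun a => sm (pm lam n) K (x - a)).aestronglyMeasurable,
      integral_map measurable_sgn.aemeasurable
      (by fun_prop : Continuous fun a => sm (pm lam n) K (x - lam ^ n * a)).aestronglyMeasurable,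
      integral_coin, ih, ih]
    rw [← (Fin.snocEquiv (fun _ : Fin (n + 1) => Bool)).sum_comp, Fintype.sum_prod_type]
    have e2 : ∀ (b : Bool) (e : Fin n → Bool),
        (Fin.snocEquiv (fun _ : Fin (n + 1) => Bool)) (b, e) = (Fin.snoc e b : Fin (n + 1) → Bool) := by
      intro b e; rfl
    simp only [Fintype.univ_bool, e2, psum_snoc]
    rw [Finset.sum_pair (by simp)]
    have e3 : ∀ (b : Bool) (e : Fin n → Bool),
        x - (psum lam n e + sgn b * lam ^ n) = x - lam ^ n * sgn b - psum lam n e := by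
      intro b e; ring
    simp only [e3, Fintype.card_pi, Fintype.card_bool, Finset.prod_const, Finset.card_univ,
      Fintype.card_fin, Nat.cast_pow, Nat.cast_ofNat, pow_succ, Nat.cast_mul]
    field_simp

lemma ae_conv {μ ν : Measure ℝ} [IsProbabilityMeasure μ] [IsProbabilityMeasure ν] {a b : ℝ}
    (h1 : ∀ᵐ t ∂μ, |t| ≤ a) (h2 : ∀ᵐ t ∂ν, |t| ≤ b) : ∀ᵐ t ∂(μ ∗ ν), |t| ≤ a + b := by
  unfold Measure.conv
  have hm : MeasurableSet {t : ℝ | |t| ≤ a + b} := measurableSet_le (by fun_prop) (by fun_prop)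
  rw [ae_map_iff (by fun_prop) hm]
  have h3 : ∀ᵐ p ∂(μ.prod ν), |p.1| ≤ a :=
    Measure.quasiMeasurePreserving_fst.ae h1
  have h4 : ∀ᵐ p ∂(μ.prod ν), |p.2| ≤ b :=
    Measure.quasiMeasurePreserving_snd.ae h2
  filter_upwards [h3, h4] with p hp1 hp2
  exact (abs_add_le _ _).trans (add_le_add hp1 hp2)

lemma ae_pm_aux {lam : ℝ} (h0 : 0 < lam) (n : ℕ) :
    ∀ᵐ t ∂(pm lam n), |t| ≤ ∑ i ∈ Finset.range n, lam ^ i := by
  induction n with
  | zero =>
    rw [pm_zero]
    rw [ae_dirac_iff (measurableSet_le (by fun_prop) (by fun_prop))]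
    simp
  | succ n ih =>
    rw [pm_succ, Finset.sum_range_succ]
    have : IsProbabilityMeasure ((coin.map sgn).map (lam ^ n * ·)) :=
      Measure.isProbabilityMeasure_map (by fun_prop)
    refine ae_conv ih ?_
    have hm : MeasurableSet {t : ℝ | |t| ≤ lam ^ n} := measurableSet_le (by fun_prop) (by fun_prop)
    rw [ae_map_iff (by fun_prop) hm]
    have hm2 : MeasurableSet {t : ℝ | |lam ^ n * t| ≤ lam ^ n} :=
      measurableSet_le (by fun_prop) (by fun_prop)
    rw [ae_map_iff measurable_sgn.aemeasurable hm2]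
    refine ae_of_all _ fun b => ?_
    rw [abs_mul, abs_sgn, mul_one, abs_of_nonneg (by positivity)]

lemma ae_pm {lam : ℝ} (h0 : 0 < lam) (h1 : lam < 1) (n : ℕ) :
    ∀ᵐ t ∂(pm lam n), |t| ≤ 1 / (1 - lam) := by
  filter_upwards [ae_pm_aux h0 n] with t ht
  refine ht.trans ?_
  rw [one_div, ← tsum_geometric_of_lt_one h0.le h1]
  exact (summable_geometric_of_lt_one h0.le h1).sum_le_tsum _ (fun i _ => by positivity)

lemma psumEntropy_eq (lam : ℝ) (n : ℕ) : psumEntropy lam n = shannon (psum lam n) := by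
  classical
  unfold psumEntropy shannon
  have hcard : (Fintype.card (Fin n → Bool) : ℝ) = 2 ^ n := by simp only [Fintype.card_pi, Fintype.card_bool, Finset.prod_const, Finset.card_univ, Fintype.card_fin, Nat.cast_pow, Nat.cast_ofNat]
  rw [hcard]
  have h := Finset.sum_comp (s := (Finset.univ : Finset (Fin n → Bool)))
    (f := fun x : ℝ => log (((Finset.univ.filter fun e : Fin n → Bool => psum lam n e = x).card : ℝ) /
      2 ^ n)) (g := psum lam n)
  rw [h, Finset.mul_sum, ← Finset.sum_neg_distrib]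
  refine Finset.sum_congr rfl fun x _ => ?_
  unfold negMulLog psumProb
  rw [nsmul_eq_mul]
  ring

lemma psumEntropy_nonneg (lam : ℝ) (n : ℕ) : 0 ≤ psumEntropy lam n := by
  unfold psumEntropy
  refine Finset.sum_nonneg fun x _ => negMulLog_nonneg ?_ ?_
  · unfold psumProb; (clear * - ; (clear * -; positivity))
  · unfold psumProb
    rw [div_le_one (by positivity)]
    have h := Finset.card_le_univ (Finset.univ.filter fun e : Fin n → Bool => psum lam n e = x)
    have hcard : Fintype.card (Fin n → Bool) = 2 ^ n := by simp only [Fintype.card_pi, Fintype.card_bool, Finset.prod_const, Finset.card_univ, Fintype.card_fin]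
    rw [hcard] at h
    exact_mod_cast h

lemma ent_pm_ge {lam θ θ' δ : ℝ} (h0 : 0 < lam) (h1 : lam < 1) (hθ' : θ' < θ)
    (hsep : ∀ᶠ n : ℕ in atTop, ∀ e e' : Fin n → Bool, psum lam n e ≠ psum lam n e' →
      exp (-θ' * n) ≤ |psum lam n e - psum lam n e'|)
    (hsh : ∀ᶠ n : ℕ in atTop, (θ - δ) * n ≤ psumEntropy lam n) :
    ∀ᶠ n : ℕ in atTop, -(δ * n) ≤ ent (pm lam n) (exp (-2 * θ * n)) := by
  have hgrow : ∀ᶠ n : ℕ in atTop, (n : ℝ) * log 2 + 1 ≤ exp (2 * (θ - θ') * n) / 4 := by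
    have h2 : Tendsto (fun n : ℕ => (n : ℝ)) atTop atTop := tendsto_natCast_atTop_atTop
    have hc : 0 < 2 * (θ - θ') := by linarith
    have h3 := (isLittleO_pow_exp_pos_mul_atTop 1 hc).comp_tendsto h2
    have h4 := h3.bound (show (0 : ℝ) < 1 / 8 by norm_num)
    filter_upwards [h4, eventually_ge_atTop 4] with n hn hn4
    simp only [Function.comp_apply, pow_one, norm_eq_abs, Nat.abs_cast, abs_exp] at hn
    have h5 : (4 : ℝ) ≤ n := by exact_mod_cast hn4
    have h6 : log 2 ≤ 1 := by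
      have := log_two_lt_d9; linarith only [this]
    linarith only [h5, hn, mul_nonneg_of_nonpos_of_nonpos (Mathlib.Tactic.Linarith.sub_nonpos_of_le (Mathlib.Tactic.Linarith.natCast_nonneg ℝ n)) (Mathlib.Tactic.Linarith.sub_nonpos_of_le h6)]
  filter_upwards [hsep, hsh, hgrow] with n hs hh hg
  have hv : 0 < exp (-2 * θ * n) := exp_pos _
  have key := ent_ge_shannon (μ := pm lam n) (ae_pm h0 h1 n) hv (exp_pos (-θ' * n)).le (psum lam n)
    (fun x => sm_pm lam n (continuous_G _) (bdd_G hv) x) hs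
  rw [← psumEntropy_eq] at key
  have hcard : (Fintype.card (Fin n → Bool) : ℝ) = 2 ^ n := by simp only [Fintype.card_pi, Fintype.card_bool, Finset.prod_const, Finset.card_univ, Fintype.card_fin, Nat.cast_pow, Nat.cast_ofNat]
  rw [hcard] at key
  have e1 : exp (-θ' * n) ^ 2 / (4 * exp (-2 * θ * n)) = exp (2 * (θ - θ') * n) / 4 := by
    rw [← exp_nat_mul, div_mul_eq_div_div, div_right_comm, ← exp_sub]
    congr 2
    push_cast
    ring
  rw [e1] at key
  have e2 : log (√(2 * π * exp (-2 * θ * n))) = log (2 * π) / 2 - θ * n := by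
    rw [log_sqrt (by positivity), log_mul (by positivity) (exp_pos _).ne', log_exp]
    ring
  rw [e2] at key
  have e3 : (2 : ℝ) ^ n * exp (-(exp (2 * (θ - θ') * n) / 4)) ≤ exp (-1) := by
    have : (2 : ℝ) ^ n = exp (n * log 2) := by
      rw [mul_comm, exp_mul, exp_log (by norm_num), rpow_natCast]
    rw [this, ← exp_add]
    apply exp_le_exp.mpr
    linarith only [hg]
  have e4 : exp (-1) ≤ log (2 * π) / 2 := by
    have h6 : exp (-1) ≤ 1 / 2 := by
      rw [exp_neg, one_div]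
      apply inv_anti₀ (by norm_num)
      have := add_one_le_exp (1 : ℝ)
      linarith only [this]
    have h7 : (1 : ℝ) ≤ log (2 * π) := by
      rw [le_log_iff_exp_le (by positivity)]
      have := exp_one_lt_d9
      have := pi_gt_three
      (clear θ θ' δ hθ' hsep hsh hgrow n hs hh hg hv key hcard e1 e2 e3 h6; linarith)
    linarith only [h6, h7]
  linarith only [hh, key, e3, e4]

lemma bern_core {lam θ θ' δ : ℝ} (h0 : 0 < lam) (h1 : lam < 1) (hθ : -log lam < θ) (hδ : 0 ≤ δ)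
    (hθ' : θ' < θ)
    (hcond : 6 * exp 1 * (-log lam) * δ * θ ^ 2 < (1 - lam ^ 2) * (θ + log lam) ^ 3)
    (hsep : ∀ᶠ n : ℕ in atTop, ∀ e e' : Fin n → Bool, psum lam n e ≠ psum lam n e' →
      exp (-θ' * n) ≤ |psum lam n e - psum lam n e'|)
    (hsh : ∀ᶠ n : ℕ in atTop, (θ - δ) * n ≤ psumEntropy lam n) : bernConv lam ≪ volume := by
  have := isProbabilityMeasure_bernConv h0 h1
  exact core h0 h1 (ae_pm h0 h1) (bernConv_self h0 h1) hθ hδ hcond (ent_pm_ge h0 h1 hθ' hsep hsh)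

/-- the separation rate is at least `-log lam` -/
lemma le_of_sep {lam m : ℝ} (h0 : 0 < lam)
    (hsep : ∀ ε > 0, ∀ᶠ n : ℕ in atTop, ∀ e e' : Fin n → Bool, psum lam n e ≠ psum lam n e' →
      exp (-(m + ε) * n) ≤ |psum lam n e - psum lam n e'|) : -log lam ≤ m := by
  apply le_of_forall_pos_le_add
  intro ε hε
  by_contra hcon
  push Not at hcon
  -- at level n+1 the two words differing in the last letter
  have hev := hsep (ε / 2) (by positivity)
  obtain ⟨N, hN⟩ := eventually_atTop.mp hev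
  have h2 : ∀ n ≥ N, exp (-(m + ε / 2) * ((n : ℝ) + 1)) ≤ 2 * lam ^ n := by
    intro n hn
    have h3 := hN (n + 1) (by omega) (Fin.snoc (fun _ => true) true : Fin (n + 1) → Bool)
      (Fin.snoc (fun _ => true) false : Fin (n + 1) → Bool)
    rw [psum_snoc, psum_snoc] at h3
    have e1 : psum lam n (fun _ => true) + sgn true * lam ^ n -
        (psum lam n (fun _ => true) + sgn false * lam ^ n) = 2 * lam ^ n := by
      simp only [sgn, if_true, Bool.false_eq_true, if_false]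
      ring
    rw [e1] at h3
    have hp : 0 < lam ^ n := pow_pos h0 n
    have h4 := h3 (by
      intro h
      have := sub_eq_zero.mpr h
      rw [e1] at this
      linarith only [e1, hp, h])
    rw [abs_of_pos (by positivity)] at h4
    push_cast at h4
    exact h4
  -- take logarithms
  have h3 : ∀ n ≥ N, (n : ℝ) * (ε / 2) ≤ log 2 + |m + ε / 2| := by
    intro n hn
    have h4 := log_le_log (exp_pos _) (h2 n hn)
    rw [log_exp, log_mul (by norm_num) (by positivity), log_pow] at h4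
    have h5 := neg_abs_le (m + ε / 2)
    have h6 := le_abs_self (m + ε / 2)
    have h7 : (0 : ℝ) ≤ n := Nat.cast_nonneg n
    linarith only [h6, h4, mul_nonneg_of_nonpos_of_nonpos (Mathlib.Tactic.Linarith.sub_nonpos_of_le (Mathlib.Tactic.Linarith.natCast_nonneg ℝ n)) (le_of_lt (Mathlib.Tactic.Linarith.sub_neg_of_lt hcon))]
  obtain ⟨n, hn⟩ := exists_nat_gt ((log 2 + |m + ε / 2|) / (ε / 2))
  have h4 := h3 (max n N) (le_max_right _ _)
  rw [div_lt_iff₀ (by positivity)] at hn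
  have h5 : (n : ℝ) ≤ ((max n N : ℕ) : ℝ) := by exact_mod_cast le_max_left _ _
  linarith only [h4, hn, mul_nonneg_of_nonpos_of_nonpos (le_of_lt (Mathlib.Tactic.Linarith.sub_neg_of_lt hε)) (Mathlib.Tactic.Linarith.sub_nonpos_of_le h5)]

/-- The general criterion, in terms of separation and entropy. -/
theorem bern_ac_gen {lam m h : ℝ} (h0 : 0 < lam) (h1 : lam < 1)
    (hsep : ∀ ε > 0, ∀ᶠ n : ℕ in atTop, ∀ e e' : Fin n → Bool, psum lam n e ≠ psum lam n e' →
      exp (-(m + ε) * n) ≤ |psum lam n e - psum lam n e'|)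
    (hsh : ∀ ε > 0, ∀ᶠ n : ℕ in atTop, (h - ε) * n ≤ psumEntropy lam n)
    (hcond : 6 * exp 1 * (-log lam) * (m - h) * m ^ 2 < (1 - lam ^ 2) * (m + log lam) ^ 3) :
    bernConv lam ≪ volume := by
  have hm := le_of_sep h0 hsep
  have hlog : 0 < -log lam := by have := log_neg h0 h1; linarith
  have hlam2 : 0 < 1 - lam ^ 2 := by nlinarith only [h1, h0]
  rcases lt_or_ge m h with hmh | hmh
  · -- the entropy is larger than the separation rate
    set ε := (h - m) / 4 with hε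
    have hε0 : 0 < ε := by rw [hε]; linarith only [hmh]
    refine bern_core (θ := m + 2 * ε) (θ' := m + ε) (δ := 0) h0 h1 (by linarith only [hm, hε0]) le_rfl
      (by linarith only [hε0]) ?_ ?_ ?_
    · have : 0 < m + 2 * ε + log lam := by linarith only [hm, hε0]
      have h3 : 0 < (1 - lam ^ 2) * (m + 2 * ε + log lam) ^ 3 := by (clear * - hlam2 this; positivity)
      linarith only [h3]
    · filter_upwards [hsep ε hε0] with n hn e e' hee
      exact hn e e' hee
    · filter_upwards [hsh ε hε0] with n hn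
      refine le_trans ?_ hn
      have h3 : (0 : ℝ) ≤ n := Nat.cast_nonneg n
      have h4 : m + 2 * ε - 0 ≤ h - ε := by rw [hε]; linarith only [hmh]
      exact mul_le_mul_of_nonneg_right h4 h3
  · -- the main case
    have hcont : Continuous fun ε : ℝ => (1 - lam ^ 2) * (m + 2 * ε + log lam) ^ 3 -
        6 * exp 1 * (-log lam) * (m - h + 3 * ε) * (m + 2 * ε) ^ 2 := by (clear * -; fun_prop)
    have hpos : 0 < (fun ε : ℝ => (1 - lam ^ 2) * (m + 2 * ε + log lam) ^ 3 -
        6 * exp 1 * (-log lam) * (m - h + 3 * ε) * (m + 2 * ε) ^ 2) 0 := by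
      simp only [mul_zero, add_zero]
      linarith only [hcond]
    have hev := (hcont.tendsto 0).eventually (lt_mem_nhds hpos)
    have hev2 : ∀ᶠ ε in 𝓝[>] (0 : ℝ), 0 < (1 - lam ^ 2) * (m + 2 * ε + log lam) ^ 3 -
        6 * exp 1 * (-log lam) * (m - h + 3 * ε) * (m + 2 * ε) ^ 2 :=
      hev.filter_mono nhdsWithin_le_nhds
    obtain ⟨ε, hε1, hε0⟩ := (hev2.and self_mem_nhdsWithin).exists
    have hε0 : 0 < ε := hε0
    refine bern_core (θ := m + 2 * ε) (θ' := m + ε) (δ := m - h + 3 * ε) h0 h1 (by (clear h h1 hsh hcond hlog hlam2 hmh hcont hpos hev hev2 hε1 hε0; linarith))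
      (by (clear lam h0 h1 hsep hsh hcond hm hlog hlam2 hcont hpos hev hev2 hε1 hε0; linarith)) (by linarith) (by linarith only [hε1]) ?_ ?_
    · filter_upwards [hsep ε hε0] with n hn e e' hee
      exact hn e e' hee
    · filter_upwards [hsh ε hε0] with n hn
      refine le_trans (le_of_eq ?_) hn
      ring

end Vale.Agent.P105
end
end

section

section

open MeasureTheory Real Filter Topology
open scoped ENNReal

namespace Vale.Agent.P105

section
variable {ι : Type*} [Fintype ι] [Nonempty ι]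

lemma coinc_pos (X : ι → ℝ) : 0 < coinc X := by
  unfold coinc
  obtain ⟨s⟩ := (inferInstance : Nonempty ι)
  refine Finset.sum_pos (fun s _ => ?_) ⟨s, Finset.mem_univ _⟩
  exact Finset.card_pos.mpr ⟨s, by simp⟩

/-- Shannon entropy is at least collision entropy -/
lemma shannon_ge (X : ι → ℝ) :
    -log ((coinc X : ℝ) / (Fintype.card ι : ℝ) ^ 2) ≤ shannon X := by
  set N : ℝ := (Fintype.card ι : ℝ) with hN
  have hN0 : 0 < N := by rw [hN]; exact_mod_cast Fintype.card_pos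
  have hc0 : (0 : ℝ) < coinc X := by exact_mod_cast coinc_pos X
  set c : ι → ℝ := fun s => ((Finset.univ.filter fun s' => X s' = X s).card : ℝ) with hc
  have hc1 : ∀ s, 0 < c s := by
    intro s
    have : 0 < (Finset.univ.filter fun s' => X s' = X s).card :=
      Finset.card_pos.mpr ⟨s, by simp⟩
    exact Nat.cast_pos.mpr this
  have hsum : ∑ s, c s = coinc X := by
    unfold coinc
    push_cast
    rfl
  unfold shannon
  rw [neg_le_neg_iff]
  set b : ℝ := (coinc X : ℝ) / N ^ 2 with hb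
  have hb0 : 0 < b := by (clear hN hN0 c hc hc1 hsum hb; positivity)
  calc N⁻¹ * ∑ s, log (c s / N) ≤ N⁻¹ * ∑ s, ((c s / N) / b - 1 + log b) := by
        gcongr with s _
        exact log_le_tangent (div_pos (hc1 s) hN0) hb0
    _ = N⁻¹ * ((∑ s, c s) / N / b - N + N * log b) := by
        congr 1
        rw [Finset.sum_add_distrib, Finset.sum_sub_distrib, Finset.sum_const, Finset.sum_const,
          Finset.card_univ, nsmul_eq_mul, nsmul_eq_mul, mul_one, ← hN, Finset.sum_div,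
          Finset.sum_div]
    _ = log b := by
        rw [hsum]
        have e1 : (coinc X : ℝ) / N / b = N := by
          rw [hb]
          (clear * - hc0 hN0; field_simp)
        rw [e1]
        field_simp
        ring

end

/-- number of coinciding pairs of words of length `n` -/
noncomputable def coll (lam : ℝ) (n : ℕ) : ℕ := coinc (psum lam n)

/-- number of pairs of words whose partial sums differ by `c` -/
noncomputable def collAt (lam : ℝ) (n : ℕ) (c : ℝ) : ℕ :=
  ∑ e : Fin n → Bool, (Finset.univ.filter fun e' => psum lam n e' - psum lam n e = c).card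

lemma collAt_zero (lam : ℝ) (n : ℕ) : collAt lam n 0 = coll lam n := by
  unfold collAt coll coinc
  simp_rw [sub_eq_zero]

lemma psumEntropy_ge_coll (lam : ℝ) (n : ℕ) :
    n * log 4 - log (coll lam n) ≤ psumEntropy lam n := by
  rw [psumEntropy_eq]
  have h := shannon_ge (psum lam n)
  have hcard : (Fintype.card (Fin n → Bool) : ℝ) = 2 ^ n := by simp only [Fintype.card_pi, Fintype.card_bool, Finset.prod_const, Finset.card_univ, Fintype.card_fin, Nat.cast_pow, Nat.cast_ofNat]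
  rw [hcard] at h
  have hc0 : (0 : ℝ) < coll lam n := by exact_mod_cast coinc_pos (psum lam n)
  rw [show (coinc (psum lam n) : ℝ) = coll lam n from rfl, log_div hc0.ne' (by positivity)] at h
  have e : log (((2 : ℝ) ^ n) ^ 2) = n * log 4 := by
    rw [← pow_mul, mul_comm n 2, pow_mul, log_pow]
    norm_num
  rw [e] at h
  linarith only [h]

/-- recursion for the number of pairs with given difference -/
lemma collAt_succ (lam : ℝ) (n : ℕ) (c : ℝ) : collAt lam (n + 1) c =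
    2 * collAt lam n c + collAt lam n (c - 2 * lam ^ n) + collAt lam n (c + 2 * lam ^ n) := by
  classical
  unfold collAt
  have e1 : ∀ e : Fin (n + 1) → Bool,
      (Finset.univ.filter fun e' => psum lam (n + 1) e' - psum lam (n + 1) e = c).card =
      ∑ e' : Fin (n + 1) → Bool, if psum lam (n + 1) e' - psum lam (n + 1) e = c then 1 else 0 := by
    intro e
    rw [Finset.card_filter]
  have e1' : ∀ (c : ℝ) (e : Fin n → Bool),
      (Finset.univ.filter fun e' => psum lam n e' - psum lam n e = c).card =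
      ∑ e' : Fin n → Bool, if psum lam n e' - psum lam n e = c then 1 else 0 := by
    intro c e
    rw [Finset.card_filter]
  simp_rw [e1, e1']
  rw [← (Fin.snocEquiv (fun _ : Fin (n + 1) => Bool)).sum_comp, Fintype.sum_prod_type]
  have e2 : ∀ (b : Bool) (e : Fin n → Bool),
      (Fin.snocEquiv (fun _ : Fin (n + 1) => Bool)) (b, e) = (Fin.snoc e b : Fin (n + 1) → Bool) := by
    intro b e; rfl
  have e3 : ∀ F : (Fin (n + 1) → Bool) → ℕ, ∑ e', F e' =
      ∑ e' : Fin n → Bool, F (Fin.snoc e' true) + ∑ e' : Fin n → Bool, F (Fin.snoc e' false) := by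
    intro F
    rw [← (Fin.snocEquiv (fun _ : Fin (n + 1) => Bool)).sum_comp, Fintype.sum_prod_type]
    simp only [Fintype.univ_bool, e2]
    rw [Finset.sum_pair (by simp)]
  simp only [Fintype.univ_bool, e2, psum_snoc, e3]
  rw [Finset.sum_pair (by simp)]
  have s1 : sgn true = 1 := by simp [sgn]
  have s2 : sgn false = -1 := by simp [sgn]
  rw [s1, s2]
  have t1 : ∀ x y : ℝ, (x + 1 * lam ^ n - (y + 1 * lam ^ n) = c) ↔ x - y = c := by
    intro x y; constructor <;> intro h <;> linarith only [h]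
  have t2 : ∀ x y : ℝ, (x + -1 * lam ^ n - (y + -1 * lam ^ n) = c) ↔ x - y = c := by
    intro x y; constructor <;> intro h <;> linarith only [h]
  have t3 : ∀ x y : ℝ, (x + -1 * lam ^ n - (y + 1 * lam ^ n) = c) ↔ x - y = c + 2 * lam ^ n := by
    intro x y; constructor <;> intro h <;> linarith only [h]
  have t4 : ∀ x y : ℝ, (x + 1 * lam ^ n - (y + -1 * lam ^ n) = c) ↔ x - y = c - 2 * lam ^ n := by
    intro x y; constructor <;> intro h <;> linarith only [h]
  simp_rw [t1, t2, t3, t4, Finset.sum_add_distrib]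
  ring

/-- the number of pairs with a given difference is at most the number of coinciding pairs -/
lemma collAt_le (lam : ℝ) (n : ℕ) (c : ℝ) : collAt lam n c ≤ coll lam n := by
  classical
  -- number of words with given sum
  set f : ℝ → ℕ := fun x => (Finset.univ.filter fun e : Fin n → Bool => psum lam n e = x).card
    with hf
  set X := psum lam n with hX
  have h1 : ∀ c, collAt lam n c = ∑ e : Fin n → Bool, f (X e + c) := by
    intro c
    unfold collAt
    refine Finset.sum_congr rfl fun e _ => ?_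
    rw [hf]
    simp only
    congr 1
    apply Finset.filter_congr
    intro e' _
    constructor <;> intro h <;> linarith only [h]
  -- both are sums over values
  have h2 : ∀ g : ℝ → ℕ, ∑ e : Fin n → Bool, g (X e) =
      ∑ x ∈ Finset.univ.image X, f x * g x := by
    intro g
    rw [Finset.sum_comp (s := (Finset.univ : Finset (Fin n → Bool))) g X]
    refine Finset.sum_congr rfl fun x _ => ?_
    rw [smul_eq_mul]
  rw [← collAt_zero, h1, h1, h2 (fun x => f (x + c)), h2 (fun x => f (x + 0))]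
  simp only [add_zero]
  have h3 : 2 * ∑ x ∈ Finset.univ.image X, f x * f (x + c) ≤
      ∑ x ∈ Finset.univ.image X, f x * f x + ∑ x ∈ Finset.univ.image X, f (x + c) * f (x + c) := by
    rw [← Finset.sum_add_distrib, Finset.mul_sum]
    refine Finset.sum_le_sum fun x _ => ?_
    have := two_mul_le_add_sq (f x : ℤ) (f (x + c))
    zify
    linarith only [this]
  have h4 : ∑ x ∈ Finset.univ.image X, f (x + c) * f (x + c) ≤
      ∑ x ∈ Finset.univ.image X, f x * f x := by
    have h5 : ∑ x ∈ Finset.univ.image X, f (x + c) * f (x + c) =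
        ∑ y ∈ (Finset.univ.image X).image (fun x => x + c), f y * f y := by
      symm
      apply Finset.sum_image
      intro x _ y _ h
      simpa only [add_left_inj] using h
    rw [h5]
    have h6 : ∀ y ∈ (Finset.univ.image X).image (fun x => x + c), y ∉ Finset.univ.image X →
        f y * f y = 0 := by
      intro y _ hy
      have : f y = 0 := by
        rw [hf]
        simp only
        rw [Finset.card_eq_zero, Finset.filter_eq_empty_iff]
        intro e _ he
        exact hy (Finset.mem_image.mpr ⟨e, Finset.mem_univ _, he⟩)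
      rw [this]
    calc ∑ y ∈ (Finset.univ.image X).image (fun x => x + c), f y * f y
        = ∑ y ∈ (Finset.univ.image X).image (fun x => x + c) ∩ Finset.univ.image X, f y * f y := by
          symm
          apply Finset.sum_subset Finset.inter_subset_left
          intro y hy hy2
          apply h6 y hy
          intro hy3
          exact hy2 (Finset.mem_inter.mpr ⟨hy, hy3⟩)
      _ ≤ _ := Finset.sum_le_sum_of_subset Finset.inter_subset_right
  omega

lemma coll_succ_le (lam : ℝ) (n : ℕ) : coll lam (n + 1) ≤ 4 * coll lam n := by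
  rw [← collAt_zero, collAt_succ]
  have h1 := collAt_le lam n 0
  have h2 := collAt_le lam n (0 - 2 * lam ^ n)
  have h3 := collAt_le lam n (0 + 2 * lam ^ n)
  omega

lemma coll_add_le (lam : ℝ) (n r : ℕ) : coll lam (n + r) ≤ 4 ^ r * coll lam n := by
  induction r with
  | zero => simp
  | succ r ih =>
    calc coll lam (n + (r + 1)) ≤ 4 * coll lam (n + r) := coll_succ_le lam (n + r)
      _ ≤ 4 * (4 ^ r * coll lam n) := by gcongr
      _ = _ := by ring

end Vale.Agent.P105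
end
end

section

section

open Polynomial

namespace Vale.Agent.P105

lemma mahler_mul (P Q : ℤ[X]) : mahler (P * Q) = mahler P * mahler Q := by
  unfold mahler
  rw [Polynomial.map_mul, mahlerMeasure_mul]

lemma one_le_mahler {P : ℤ[X]} (h : P ≠ 0) : 1 ≤ mahler P :=
  one_le_mahlerMeasure_of_ne_zero h

lemma mahler_le_of_dvd {P Q : ℤ[X]} (h : P ∣ Q) (hQ : Q ≠ 0) : mahler P ≤ mahler Q := by
  obtain ⟨R, rfl⟩ := h
  rw [mahler_mul]
  have hR : R ≠ 0 := right_ne_zero_of_mul hQ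
  have hP : P ≠ 0 := left_ne_zero_of_mul hQ
  have h1 := one_le_mahler hR
  have h2 := one_le_mahler hP
  linarith only [h1, mul_nonneg_of_nonpos_of_nonpos (Mathlib.Tactic.Linarith.sub_nonpos_of_le h1) (Mathlib.Tactic.Linarith.sub_nonpos_of_le h2)]

/-- bound for the values of a polynomial with coefficients of modulus at most one -/
lemma norm_eval_le {Q : ℤ[X]} {N : ℕ} (hN : Q.natDegree ≤ N) (hc : ∀ i, |Q.coeff i| ≤ 1) (z : ℂ) :
    ‖(Q.map (Int.castRingHom ℂ)).eval z‖ ≤ (N + 1) * (max 1 ‖z‖) ^ N := by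
  have h1 : (Q.map (Int.castRingHom ℂ)).natDegree < N + 1 :=
    Nat.lt_succ_of_le (natDegree_map_le.trans hN)
  rw [eval_eq_sum_range' h1]
  refine (norm_sum_le _ _).trans ?_
  calc ∑ i ∈ Finset.range (N + 1), ‖(Q.map (Int.castRingHom ℂ)).coeff i * z ^ i‖
      ≤ ∑ i ∈ Finset.range (N + 1), (max 1 ‖z‖) ^ N := by
        apply Finset.sum_le_sum
        intro i hi
        have hi' : i ≤ N := Nat.lt_succ_iff.mp (Finset.mem_range.mp hi)
        rw [norm_mul, norm_pow, coeff_map]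
        have h2 : ‖(Int.castRingHom ℂ) (Q.coeff i)‖ ≤ 1 := by
          rw [eq_intCast, Complex.norm_intCast]
          exact_mod_cast hc i
        calc ‖(Int.castRingHom ℂ) (Q.coeff i)‖ * ‖z‖ ^ i ≤ 1 * (max 1 ‖z‖) ^ i := by
              gcongr
              exact le_max_right _ _
          _ ≤ (max 1 ‖z‖) ^ N := by
              rw [one_mul]
              exact pow_le_pow_right₀ (le_max_left _ _) hi'
    _ = (N + 1) * (max 1 ‖z‖) ^ N := by
        rw [Finset.sum_const, Finset.card_range, nsmul_eq_mul]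
        push_cast
        ring

/-- if the irreducible `P` vanishes at `lam` and `Q` does not, then `Q` vanishes at no root -/
lemma eval_ne_zero {P Q : ℤ[X]} (hP : Irreducible P) {lam : ℝ} (hlam : aeval lam P = 0)
    (hQ : aeval lam Q ≠ 0) {z : ℂ} (hz : aeval z P = 0) : aeval z Q ≠ 0 := by
  intro hzQ
  apply hQ
  have hdeg : P.natDegree ≠ 0 := by
    intro h0
    rw [natDegree_eq_zero] at h0
    obtain ⟨c, rfl⟩ := h0
    rw [aeval_C] at hlam
    have hc0 : c = 0 := by simpa using hlam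
    rw [hc0] at hP
    simp at hP
  have hprim : P.IsPrimitive := hP.isPrimitive hdeg
  have hirr : Irreducible (P.map (Int.castRingHom ℚ)) :=
    (IsPrimitive.Int.irreducible_iff_irreducible_map_cast hprim).mp hP
  have key : ∀ {A : Type} [inst : CommRing A] [Algebra ℚ A] [Nontrivial A] (x : A) (R : ℤ[X]),
      aeval x (R.map (Int.castRingHom ℚ)) = aeval x R := by
    intro A _ _ _ x R
    rw [show Int.castRingHom ℚ = algebraMap ℤ ℚ from rfl, aeval_map_algebraMap]
  have h1 : aeval z (P.map (Int.castRingHom ℚ)) = 0 := by rw [key, hz]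
  have h2 := minpoly.eq_of_irreducible hirr h1
  have h3 : minpoly ℚ z ∣ Q.map (Int.castRingHom ℚ) := by
    apply minpoly.dvd
    rw [key, hzQ]
  rw [← h2] at h3
  have h4 : P.map (Int.castRingHom ℚ) ∣ Q.map (Int.castRingHom ℚ) :=
    (Dvd.intro _ rfl).trans h3
  rw [← key]
  have h5 : aeval lam (P.map (Int.castRingHom ℚ)) = 0 := by rw [key, hlam]
  exact eval₂_eq_zero_of_dvd_of_eval₂_eq_zero _ _ h4 h5

lemma sep_irreducible {P Q : ℤ[X]} (hP : Irreducible P) {lam : ℝ} (hlam : aeval lam P = 0)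
    (hQ : aeval lam Q ≠ 0) {N : ℕ} (hN : Q.natDegree ≤ N)
    (hc : ∀ i, |Q.coeff i| ≤ 1) :
    1 ≤ |aeval lam Q| * (N + 1 : ℝ) ^ P.natDegree * mahler P ^ N := by
  classical
  set f := P.map (Int.castRingHom ℂ) with hf
  set g := Q.map (Int.castRingHom ℂ) with hg
  have hinj : Function.Injective (Int.castRingHom ℂ) := (Int.castRingHom ℂ).injective_int
  have hP0 : P ≠ 0 := hP.ne_zero
  have hf0 : f ≠ 0 := (Polynomial.map_ne_zero_iff hinj).mpr hP0
  have hdeg : f.natDegree = P.natDegree := natDegree_map_eq_of_injective hinj _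
  have hgN : g.natDegree ≤ N := natDegree_map_le.trans hN
  have hsplit : f.Splits := IsAlgClosed.splits f
  have hres := resultant_eq_prod_eval f g N hgN hsplit
  have hres2 : resultant f g f.natDegree N = ((resultant P Q f.natDegree N : ℤ) : ℂ) := by
    rw [hf, hg, resultant_map_map]; rfl
  have hlead : f.leadingCoeff ≠ 0 := leadingCoeff_ne_zero.mpr hf0
  have hroot : ∀ z ∈ f.roots, g.eval z ≠ 0 := by
    intro z hz
    have hz' : aeval z P = 0 := by
      have := (mem_roots hf0).mp hz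
      rwa [hf, IsRoot.def, eval_map, ← algebraMap_int_eq, ← aeval_def] at this
    have := eval_ne_zero hP hlam hQ hz'
    rwa [hg, eval_map, ← algebraMap_int_eq, ← aeval_def]
  have hne : resultant P Q f.natDegree N ≠ 0 := by
    intro h0
    rw [h0, Int.cast_zero] at hres2
    rw [hres2] at hres
    have := mul_ne_zero (pow_ne_zero N hlead) (Multiset.prod_ne_zero (s := f.roots.map g.eval)
      (by
        intro h
        obtain ⟨z, hz, hz2⟩ := Multiset.mem_map.mp h
        exact hroot z hz hz2))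
    exact this hres.symm
  have h1 : (1 : ℝ) ≤ ‖resultant f g f.natDegree N‖ := by
    rw [hres2, Complex.norm_intCast]
    exact_mod_cast Int.one_le_abs hne
  have hlamroot : (lam : ℂ) ∈ f.roots := by
    rw [mem_roots hf0, hf, IsRoot.def, eval_map, ← algebraMap_int_eq, ← aeval_def]
    have : aeval ((algebraMap ℝ ℂ) lam) P = algebraMap ℝ ℂ (aeval lam P) :=
      aeval_algebraMap_apply ℂ lam P
    rw [show (lam : ℂ) = algebraMap ℝ ℂ lam from rfl, this, hlam, map_zero]
  have hgl : ‖g.eval (lam : ℂ)‖ = |aeval lam Q| := by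
    have : aeval ((algebraMap ℝ ℂ) lam) Q = algebraMap ℝ ℂ (aeval lam Q) :=
      aeval_algebraMap_apply ℂ lam Q
    rw [hg, eval_map, ← algebraMap_int_eq, ← aeval_def,
      show (lam : ℂ) = algebraMap ℝ ℂ lam from rfl, this]
    simp only [Complex.coe_algebraMap, Complex.norm_real, Real.norm_eq_abs]
  rw [hres, norm_mul, norm_pow] at h1
  obtain ⟨t, ht⟩ := Multiset.exists_cons_of_mem hlamroot
  have hprod : ‖(f.roots.map g.eval).prod‖ ≤
      |aeval lam Q| * ((N + 1 : ℝ) ^ P.natDegree * ((f.roots.map (fun a ↦ max 1 ‖a‖)).prod) ^ N) := by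
    have hcard : Multiset.card f.roots = P.natDegree := by
      rw [← hdeg]; exact (splits_iff_card_roots.mp hsplit)
    rw [← hcard, ht, Multiset.map_cons, Multiset.prod_cons, norm_mul, hgl, Multiset.card_cons,
      Multiset.map_cons, Multiset.prod_cons]
    gcongr
    have hmain : ∀ s : Multiset ℂ, ‖(s.map g.eval).prod‖ ≤
        (N + 1 : ℝ) ^ (Multiset.card s) * ((s.map (fun a ↦ max 1 ‖a‖)).prod) ^ N := by
      intro s
      induction s using Multiset.induction_on with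
      | empty => simp only [Multiset.map_zero, Multiset.prod_zero, norm_one, Multiset.card_zero, pow_zero, one_pow, mul_one, Std.le_refl]
      | cons a s ih =>
        rw [Multiset.map_cons, Multiset.prod_cons, norm_mul, Multiset.card_cons,
          Multiset.map_cons, Multiset.prod_cons]
        calc ‖g.eval a‖ * ‖(s.map g.eval).prod‖
            ≤ ((N + 1) * (max 1 ‖a‖) ^ N) *
              ((N + 1 : ℝ) ^ (Multiset.card s) * ((s.map (fun a ↦ max 1 ‖a‖)).prod) ^ N) := by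
              gcongr
              exact norm_eval_le hN hc a
          _ = _ := by rw [mul_pow]; ring
    refine (hmain t).trans ?_
    have hpos : 0 ≤ (t.map (fun a ↦ max 1 ‖a‖)).prod := by
      apply Multiset.prod_nonneg
      intro a ha
      obtain ⟨b, _, rfl⟩ := Multiset.mem_map.mp ha
      positivity
    gcongr
    · linarith only []
    · omega
    · exact le_mul_of_one_le_left hpos (le_max_left _ _)
  calc (1 : ℝ) ≤ _ := h1
    _ ≤ ‖f.leadingCoeff‖ ^ N * (|aeval lam Q| *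
        ((N + 1 : ℝ) ^ P.natDegree * ((f.roots.map (fun a ↦ max 1 ‖a‖)).prod) ^ N)) := by
        (clear * - hprod hlead; gcongr)
    _ = _ := by
        unfold mahler
        rw [← hf, mahlerMeasure_eq_leadingCoeff_mul_prod_roots, mul_pow]
        ring

lemma exists_irreducible {P : ℤ[X]} (hP : P ≠ 0) {lam : ℝ} (hlam : aeval lam P = 0) :
    ∃ R : ℤ[X], Irreducible R ∧ R ∣ P ∧ aeval lam R = 0 := by
  induction P using UniqueFactorizationMonoid.induction_on_prime with
  | h₁ => exact absurd rfl hP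
  | h₂ x hx =>
    exfalso
    have h1 : IsUnit (aeval lam x) := hx.map (aeval lam)
    rw [hlam] at h1
    exact not_isUnit_zero h1
  | h₃ a p ha hp ih =>
    rw [map_mul, mul_eq_zero] at hlam
    rcases hlam with h | h
    · exact ⟨p, hp.irreducible, Dvd.intro _ rfl, h⟩
    · obtain ⟨R, h1, h2, h3⟩ := ih ha h
      exact ⟨R, h1, h2.trans (Dvd.intro_left _ rfl), h3⟩

/-- **Garsia's separation bound** -/
lemma separation {P : ℤ[X]} (hP : P ≠ 0) {lam : ℝ} (hlam : aeval lam P = 0) {Q : ℤ[X]}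
    (hQ : aeval lam Q ≠ 0) {N : ℕ} (hN : Q.natDegree ≤ N) (hc : ∀ i, |Q.coeff i| ≤ 1) :
    1 ≤ |aeval lam Q| * (N + 1 : ℝ) ^ P.natDegree * mahler P ^ N := by
  obtain ⟨R, h1, h2, h3⟩ := exists_irreducible hP hlam
  refine (sep_irreducible h1 h3 hQ hN hc).trans ?_
  have h4 : R.natDegree ≤ P.natDegree := natDegree_le_of_dvd h2 hP
  have h5 := mahler_le_of_dvd h2 hP
  have h6 : 0 ≤ mahler R := zero_le_one.trans (one_le_mahler h1.ne_zero)
  gcongr
  linarith only []

end Vale.Agent.P105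
end
end

section

section

open MeasureTheory Real Filter Topology
open scoped ENNReal

namespace Vale.Agent.P105

/-- normalized twisted norm, in logarithmic frequency -/
noncomputable def nt (μ : Measure ℝ) (r z : ℝ) : ℝ≥0∞ := tn μ (exp r) (z * exp (-2 * r))

section
variable {μ ρ : Measure ℝ} [IsProbabilityMeasure μ] [IsProbabilityMeasure ρ]

lemma nt_le_one {z : ℝ} (hz : 0 < z) (r : ℝ) : nt μ r z ≤ 1 :=
  tn_le_one (by positivity) _

lemma nt_conv_le {z z' : ℝ} (hz : 0 < z) (hz' : 0 < z') (r : ℝ) :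
    nt (μ ∗ ρ) r (z + z') ≤ nt μ r z * nt ρ r z' := by
  unfold nt
  rw [add_mul]
  exact tn_conv_le (by positivity) (by positivity) _

lemma nt_conv_le_right {z : ℝ} (hz : 0 < z) (r : ℝ) : nt (μ ∗ ρ) r z ≤ nt ρ r z :=
  tn_conv_le_right (by positivity) _

lemma nt_map {z : ℝ} (hz : 0 < z) (r s : ℝ) :
    nt (μ.map (exp (-s) * ·)) r z = nt μ (r - s) z := by
  unfold nt
  rw [tn_map (by positivity) (exp_pos _)]
  congr 1
  · rw [← exp_add]; congr 1; ring
  · rw [mul_div_assoc, ← exp_nat_mul, ← exp_sub]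
    congr 2
    push_cast
    ring

/-- the gain of one block, in terms of entropy increments -/
lemma nt_gain {R : ℝ} (hR : ∀ᵐ t ∂μ, |t| ≤ R) {l a b : ℝ} (hl : 0 < l) (hb : 0 < b)
    (ha : a = 3 * π ^ 2 / (32 * b)) (r : ℝ) :
    nt μ r a ≤ ENNReal.ofReal (exp (-(3 / (16 * b) * (2 / (exp (2 * l) - 1) *
      ((ent μ (a * exp (-2 * (r + l))) + (r + l)) - (ent μ (a * exp (-2 * r)) + r)) -
        32 * exp (-b))))) := by
  have hpi := pi_pos
  have ha0 : 0 < a := by rw [ha]; (clear * - hb; positivity)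
  set y := a * exp (-2 * r) with hy
  have hy0 : 0 < y := by (clear * - ha0; positivity)
  have hE : 1 < exp (2 * l) := one_lt_exp_iff.mpr (by linarith only [hl])
  set v := a * exp (-2 * (r + l)) with hv
  have hv0 : 0 < v := by (clear * - ha0; positivity)
  have hyv : y = exp (2 * l) * v := by
    rw [hy, hv, mul_left_comm, ← exp_add]
    congr 2
    ring
  have hw0 : 0 < y - v := by rw [hyv]; nlinarith only [hE, hv0]
  have h1 := tn_gain hR (w := exp r) (y := y) (b := b) (exp_pos r) hy0 (by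
    have : exp r ^ 2 * y = a := by
      rw [hy, mul_left_comm, ← exp_nat_mul, ← exp_add]
      have : (((2 : ℕ) : ℝ) * r + -2 * r) = 0 := by push_cast; ring
      rw [this, exp_zero, mul_one]
    rw [this, ha]
    (clear * - hb; field_simp))
  have h2 := ent_rev hR hv0 hw0
  rw [add_sub_cancel] at h2
  have hlog : 1 / 2 * log (v / y) = -l := by
    rw [hyv, div_mul_cancel_right₀ hv0.ne', log_inv, log_exp]
    ring
  rw [hlog] at h2
  have h3 : (y - v) / (2 * v) = (exp (2 * l) - 1) / 2 := by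
    rw [hyv]; (clear * - hv0; field_simp)
  rw [h3] at h2
  have h4 : 2 / (exp (2 * l) - 1) * ((ent μ v + (r + l)) - (ent μ y + r)) ≤ 1 - y * fi μ y := by
    have h5 : 0 < exp (2 * l) - 1 := by linarith only [hE]
    rw [div_mul_eq_mul_div, div_le_iff₀ h5]
    linarith only [h2]
  unfold nt
  refine h1.trans (ENNReal.ofReal_le_ofReal ?_)
  have h6 : 3 / (16 * b) * (2 / (exp (2 * l) - 1) * ((ent μ v + (r + l)) - (ent μ y + r)) -
        32 * exp (-b)) ≤ 3 / (16 * b) * (1 - y * fi μ y - 32 * exp (-b)) := by (clear * - h4 hb; gcongr)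
  have h7 := add_one_le_exp (-(3 / (16 * b) * (2 / (exp (2 * l) - 1) *
    ((ent μ v + (r + l)) - (ent μ y + r)) - 32 * exp (-b))))
  linarith only [h6, h7]

end

section
variable {ν : Measure ℝ} [IsProbabilityMeasure ν] {μ : ℕ → Measure ℝ}
  [∀ n, IsProbabilityMeasure (μ n)]

lemma pow_exp_eq (l : ℝ) (n : ℕ) : exp (-l) ^ n = exp (-(n * l)) := by
  rw [← exp_nat_mul]; congr 1; ring

lemma nt_skip {l : ℝ} (hself : ∀ n, ν = μ n ∗ ν.map (exp (-l) ^ n * ·)) (n : ℕ) {r z : ℝ}
    (hz : 0 < z) : nt ν r z ≤ nt ν (r - n * l) z := by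
  have hp : IsProbabilityMeasure (ν.map (exp (-l) ^ n * ·)) :=
    Measure.isProbabilityMeasure_map (by fun_prop)
  conv_lhs => rw [hself n]
  refine (nt_conv_le_right hz r).trans (le_of_eq ?_)
  rw [pow_exp_eq]
  exact nt_map hz r (n * l)

lemma nt_block {l : ℝ} (hself : ∀ n, ν = μ n ∗ ν.map (exp (-l) ^ n * ·)) (n : ℕ) {r a z : ℝ}
    (ha : 0 < a) (hz : 0 < z) : nt ν r (a + z) ≤ nt (μ n) r a * nt ν (r - n * l) z := by
  have hp : IsProbabilityMeasure (ν.map (exp (-l) ^ n * ·)) :=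
    Measure.isProbabilityMeasure_map (by fun_prop)
  conv_lhs => rw [hself n]
  refine (nt_conv_le ha hz r).trans (le_of_eq ?_)
  rw [pow_exp_eq, nt_map hz r (n * l)]

/-- chain of `J` consecutive blocks of length `m` -/
lemma nt_chain {l : ℝ} (hself : ∀ n, ν = μ n ∗ ν.map (exp (-l) ^ n * ·)) (m : ℕ) {a z : ℝ}
    (ha : 0 < a) (hz : 0 < z) {g : ℝ → ℝ} (hg : ∀ r, nt (μ m) r a ≤ ENNReal.ofReal (exp (-g r)))
    (J : ℕ) (r : ℝ) :
    nt ν r (J * a + z) ≤ ENNReal.ofReal (exp (-∑ i ∈ Finset.range J, g (r - i * (m * l)))) *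
      nt ν (r - J * (m * l)) z := by
  induction J generalizing r with
  | zero => simp only [CharP.cast_eq_zero, zero_mul, zero_add, Finset.range_zero, Finset.sum_empty, neg_zero, exp_zero, ENNReal.ofReal_one, sub_zero, one_mul, Std.le_refl]
  | succ J ih =>
    have h1 : ((J + 1 : ℕ) : ℝ) * a + z = a + (J * a + z) := by push_cast; ring
    have hz' : 0 < (J : ℝ) * a + z := by (clear * - ha hz; (clear * - ha hz; positivity))
    rw [h1]
    refine (nt_block hself m ha hz').trans ?_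
    refine (mul_le_mul' (hg r) (ih (r - m * l))).trans (le_of_eq ?_)
    rw [← mul_assoc, ← ENNReal.ofReal_mul (exp_pos _).le, ← exp_add, Finset.sum_range_succ']
    have h2 : ∀ i : ℕ, r - m * l - i * (m * l) = r - ((i + 1 : ℕ) : ℝ) * (m * l) := by
      intro i; push_cast; ring
    simp only [h2]
    congr 3
    · simp only [Nat.cast_zero, zero_mul, sub_zero]
      ring

end

/-- sum over residue classes -/
lemma sum_range_mul' (f : ℕ → ℝ) (m J : ℕ) :
    ∑ k ∈ Finset.range (m * J), f k = ∑ b ∈ Finset.range m, ∑ i ∈ Finset.range J, f (b + i * m) := by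
  induction J with
  | zero => simp only [mul_zero, Finset.range_zero, Finset.sum_empty, Finset.sum_const_zero]
  | succ J ih =>
    rw [Nat.mul_succ, Finset.sum_range_add, ih, ← Finset.sum_add_distrib]
    refine Finset.sum_congr rfl fun b _ => ?_
    rw [Finset.sum_range_succ]
    congr 2
    ring

lemma exists_offset {f : ℕ → ℝ} {m J : ℕ} (hm : 0 < m) {V : ℝ}
    (h : m * V ≤ ∑ k ∈ Finset.range (m * J), f k) :
    ∃ b < m, V ≤ ∑ i ∈ Finset.range J, f (b + i * m) := by
  by_contra hcon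
  push Not at hcon
  have h1 : ∑ k ∈ Finset.range (m * J), f k < ∑ _b ∈ Finset.range m, V := by
    rw [sum_range_mul']
    apply Finset.sum_lt_sum_of_nonempty
    · exact Finset.nonempty_range_iff.mpr hm.ne'
    · intro b hb
      exact hcon b (Finset.mem_range.mp hb)
  rw [Finset.sum_const, Finset.card_range, nsmul_eq_mul] at h1
  linarith only [h, h1]

lemma tele (Φ : ℝ → ℝ) (c L q r l : ℝ) (K : ℕ) :
    ∑ k ∈ Finset.range K, c * (L * (Φ (r - k * l + l) - Φ (r - k * l)) - q) =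
      c * (L * (Φ (r + l) - Φ (r + l - K * l)) - q * K) := by
  induction K with
  | zero => simp only [Finset.range_zero, Finset.sum_empty, CharP.cast_eq_zero, zero_mul, sub_zero, sub_self, mul_zero]
  | succ K ih =>
    rw [Finset.sum_range_succ, ih]
    have e1 : r - K * l + l = r + l - K * l := by ring
    have e2 : r - K * l = r + l - ((K + 1 : ℕ) : ℝ) * l := by push_cast; ring
    rw [e1, e2]
    push_cast
    ring

lemma low_aux {c L q h θ1 l m J V C0 A r p1 p2 : ℝ} (hc : 0 < c) (hL : 0 < L)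
    (h1 : h * m + A ≤ p1) (h2 : p2 ≤ C0 + (r + l - m * J * l)) (hr : r < (m + 1) * θ1)
    (hV : c * (L * |C0 + θ1 + l - A|) ≤ (c * (L * (h - (θ1 - J * l)) - q * J) - V) * m) :
    m * V ≤ c * (L * (p1 - p2) - q * (m * J)) := by
  have h3 : (h - (θ1 - J * l)) * m - |C0 + θ1 + l - A| ≤ p1 - p2 := by
    have h4 := le_abs_self (C0 + θ1 + l - A)
    linarith
  have h5 : c * (L * ((h - (θ1 - J * l)) * m - |C0 + θ1 + l - A|) - q * (m * J)) ≤
      c * (L * (p1 - p2) - q * (m * J)) := by gcongr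
  refine le_trans ?_ h5
  linarith only [hV]

section
variable {ν : Measure ℝ} [IsProbabilityMeasure ν] {μ : ℕ → Measure ℝ}
  [∀ n, IsProbabilityMeasure (μ n)]

/-- one round -/
lemma round_step {l a b R h θ θ1 V κ : ℝ} {J : ℕ} (hl : 0 < l) (hb : 0 < b)
    (ha : a = 3 * π ^ 2 / (32 * b)) (hR : ∀ n, ∀ᵐ t ∂(μ n), |t| ≤ R)
    (hself : ∀ n, ν = μ n ∗ ν.map (exp (-l) ^ n * ·))
    (hθ : θ < θ1) (hθ0 : 0 < θ) (hκ0 : 0 < κ)
    (hH : ∀ᶠ n : ℕ in atTop, ∀ v : ℝ, 0 < v → v ≤ exp (-2 * θ * n) →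
      h * n ≤ ent (μ n) v - 1 / 2 * log v)
    (hκ : κ * θ1 < θ1 - (J + 1) * l)
    (hV : V < 3 / (16 * b) * (2 / (exp (2 * l) - 1) * (h - (θ1 - J * l)) - 32 * exp (-b) * J)) :
    ∃ r0 : ℝ, ∀ r ≥ r0, ∀ z > 0, ∃ r' ≥ κ * r, nt ν r (J * a + z) ≤
      ENNReal.ofReal (exp (-V)) * nt ν r' z := by
  have hpi := pi_pos
  have ha0 : 0 < a := by rw [ha]; positivity
  have hE : 1 < exp (2 * l) := one_lt_exp_iff.mpr (by linarith only [hl])
  set Lc := 2 / (exp (2 * l) - 1) with hLc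
  have hLc0 : 0 < Lc := by rw [hLc]; apply div_pos (by norm_num); linarith only [hE]
  have hθ10 : 0 < θ1 := hθ0.trans hθ
  set C0 := log (√(2 * π)) + 1 + R ^ 2 with hC0
  -- constant error
  set D := C0 + θ1 + l - 1 / 2 * log a with hD
  set W := 3 / (16 * b) * (Lc * (h - (θ1 - J * l)) - 32 * exp (-b) * J) with hW
  -- eventual conditions on m
  have ev1 : ∀ᶠ m : ℕ in atTop, a * exp (-2 * l) * exp (-2 * θ1 * m) ≤ exp (-2 * θ * m) := by
    have h1 : Tendsto (fun m : ℕ => (m : ℝ) * (2 * (θ1 - θ))) atTop atTop :=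
      tendsto_natCast_atTop_atTop.atTop_mul_const (by linarith only [hθ])
    filter_upwards [h1.eventually_ge_atTop (log a)] with m hm
    rw [mul_assoc, ← exp_add]
    have h2 : a = exp (log a) := (exp_log ha0).symm
    rw [h2, ← exp_add]
    apply exp_le_exp.mpr
    linarith only [hl, hm]
  have ev2 : ∀ᶠ m : ℕ in atTop, 3 / (16 * b) * (Lc * |D|) ≤ (W - V) * m := by
    have h1 : Tendsto (fun m : ℕ => (W - V) * (m : ℝ)) atTop atTop :=
      tendsto_natCast_atTop_atTop.const_mul_atTop (by linarith only [hV])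
    exact h1.eventually_ge_atTop _
  have hgap : 0 < θ1 - (J + 1) * l := by
    have : 0 < κ * θ1 := by (clear * - hκ0 hθ10; positivity)
    linarith only [hκ, this]
  have ev3 : ∀ᶠ m : ℕ in atTop, 1 / 2 * log a ≤ m * (θ1 - (J + 1) * l) := by
    have h1 : Tendsto (fun m : ℕ => (m : ℝ) * (θ1 - (J + 1) * l)) atTop atTop :=
      tendsto_natCast_atTop_atTop.atTop_mul_const hgap
    exact h1.eventually_ge_atTop _
  have ev4 : ∀ᶠ m : ℕ in atTop, κ * θ1 ≤ (θ1 - (J + 1) * l - κ * θ1) * m := by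
    have h1 : Tendsto (fun m : ℕ => (θ1 - (J + 1) * l - κ * θ1) * (m : ℝ)) atTop atTop :=
      tendsto_natCast_atTop_atTop.const_mul_atTop (by linarith only [hκ])
    exact h1.eventually_ge_atTop _
  obtain ⟨m0, hm0⟩ := eventually_atTop.mp
    (hH.and (ev1.and (ev2.and (ev3.and (ev4.and (eventually_gt_atTop 0))))))
  refine ⟨(m0 + 1) * θ1, fun r hr z hz => ?_⟩
  have hr0 : 0 ≤ r := by
    refine le_trans ?_ hr
    (clear * - hθ10; positivity)
  set m := ⌊r / θ1⌋₊ with hm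
  have hm1 : (m : ℝ) * θ1 ≤ r := by
    have := Nat.floor_le (div_nonneg hr0 hθ10.le)
    rw [le_div_iff₀ hθ10] at this
    exact this
  have hm2 : r < (m + 1) * θ1 := by
    have := Nat.lt_floor_add_one (r / θ1)
    rw [div_lt_iff₀ hθ10] at this
    exact this
  have hmm0 : m0 ≤ m := by
    apply Nat.le_floor
    rw [le_div_iff₀ hθ10]
    linarith only [hθ, hθ0, hr]
  obtain ⟨c1, c2, c3, c4, c5, c6⟩ := hm0 m hmm0
  have hmpos : (0 : ℝ) < m := by exact_mod_cast c6
  -- the potential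
  set Φ : ℝ → ℝ := fun s => ent (μ m) (a * exp (-2 * s)) + s with hΦ
  set g : ℝ → ℝ := fun s => 3 / (16 * b) * (Lc * (Φ (s + l) - Φ s) - 32 * exp (-b)) with hg
  have hgain : ∀ s, nt (μ m) s a ≤ ENNReal.ofReal (exp (-g s)) := by
    intro s
    exact nt_gain (hR m) hl hb ha s
  -- top
  have htop : h * m + 1 / 2 * log a ≤ Φ (r + l) := by
    have h1 := c1 (a * exp (-2 * (r + l))) (by positivity) (by
      refine le_trans ?_ c2
      rw [mul_assoc, ← exp_add]
      gcongr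
      linarith only [hm1])
    rw [log_mul ha0.ne' (exp_pos _).ne', log_exp] at h1
    simp only [hΦ]
    linarith only [h1]
  -- bottom
  have hbot : Φ (r + l - (m * J : ℕ) * l) ≤ C0 + (r + l - (m * J : ℕ) * l) := by
    simp only [hΦ]
    gcongr
    apply ent_le (hR m) (by positivity)
    have h2 : a = exp (log a) := (exp_log ha0).symm
    rw [h2, ← exp_add, Real.exp_le_one_iff]
    push_cast
    have h3 : 1 / 2 * log a + m * J * l ≤ m * θ1 - m * l := by linarith only [c4]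
    have h4 : 0 ≤ (m : ℝ) * l := by (clear * - c6 hl; positivity)
    linarith only [hl, hm1, c4, h4]
  -- telescoping
  have hsum : ∑ k ∈ Finset.range (m * J), g (r - k * l) =
      3 / (16 * b) * (Lc * (Φ (r + l) - Φ (r + l - (m * J : ℕ) * l)) -
        32 * exp (-b) * (m * J : ℕ)) := tele Φ _ _ _ r l (m * J)
  have hlow : m * V ≤ ∑ k ∈ Finset.range (m * J), g (r - k * l) := by
    rw [hsum]
    push_cast at hbot ⊢
    exact low_aux (by positivity) hLc0 htop hbot hm2 c3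
  obtain ⟨b0, hb0, hb1⟩ := exists_offset c6 hlow
  refine ⟨r - b0 * l - J * (m * l), ?_, ?_⟩
  · have hb2 : (b0 : ℝ) ≤ m := by exact_mod_cast hb0.le
    have h1 : (b0 : ℝ) * l ≤ m * l := by (clear * - hb2 hl; gcongr)
    have h2 : κ * r ≤ κ * ((m + 1) * θ1) := by (clear * - hm2 hκ0; gcongr)
    have h3 : κ * ((m + 1) * θ1) = κ * θ1 * m + κ * θ1 := by ring
    have h4 : (θ1 - (J + 1) * l - κ * θ1) * m = m * θ1 - J * (m * l) - m * l - κ * θ1 * m := by ring
    rw [h3] at h2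
    rw [h4] at c5
    show κ * r ≤ r - b0 * l - J * (m * l)
    clear hm0 c1 c2 c3 c4 hΦ hg htop hbot hsum hlow hb1 hV hD hW hC0 hLc
    linarith only [hm1, c5, h1, h2]
  · have hz' : 0 < (J : ℝ) * a + z := by (clear * - ha0 hz; (clear * - ha0 hz; positivity))
    refine (nt_skip hself b0 hz').trans ?_
    refine (nt_chain hself m ha0 hz hgain J (r - b0 * l)).trans ?_
    gcongr
    refine hb1.trans (le_of_eq (Finset.sum_congr rfl fun i _ => ?_))
    congr 1
    push_cast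
    ring

/-- iteration of the rounds -/
lemma rounds {a V κ : ℝ} {J : ℕ} (hκ0 : 0 < κ) (hκ1 : κ ≤ 1)
    (hround : ∃ r0 : ℝ, ∀ r ≥ r0, ∀ z > 0, ∃ r' ≥ κ * r, nt ν r (J * a + z) ≤
      ENNReal.ofReal (exp (-V)) * nt ν r' z) (ha : 0 < a) :
    ∃ r0 > 0, ∀ j : ℕ, ∀ r : ℝ, r0 ≤ κ ^ j * r →
      nt ν r (j * (J * a) + 1) ≤ ENNReal.ofReal (exp (-(V * j))) := by
  obtain ⟨r1, hr1⟩ := hround
  refine ⟨max r1 1, by positivity, fun j => ?_⟩
  induction j with
  | zero =>
    intro r _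
    simp only [Nat.cast_zero, zero_mul, zero_add, mul_zero, neg_zero, exp_zero, ENNReal.ofReal_one]
    exact nt_le_one one_pos r
  | succ j ih =>
    intro r hr
    have hr0 : 0 < κ ^ (j + 1) * r := lt_of_lt_of_le (by positivity) hr
    have hrpos : 0 < r := by
      by_contra hcon
      push Not at hcon
      have : κ ^ (j + 1) * r ≤ 0 := mul_nonpos_of_nonneg_of_nonpos (by positivity) hcon
      linarith
    have h1 : r1 ≤ r := by
      refine (le_max_left r1 1).trans (hr.trans ?_)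
      calc κ ^ (j + 1) * r ≤ 1 * r := by
            gcongr
            exact pow_le_one₀ hκ0.le hκ1
        _ = r := one_mul r
    have hz : 0 < (j : ℝ) * (J * a) + 1 := by (clear * - ha; (clear * - ha; positivity))
    obtain ⟨r', hr', hle⟩ := hr1 r h1 _ hz
    have h2 : ((j + 1 : ℕ) : ℝ) * (J * a) + 1 = J * a + ((j : ℝ) * (J * a) + 1) := by
      push_cast; ring
    rw [h2]
    refine hle.trans ?_
    have h3 : max r1 1 ≤ κ ^ j * r' := by
      refine hr.trans ?_
      rw [pow_succ, mul_assoc]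
      (clear * - hr' hκ0; gcongr)
    refine (mul_le_mul' le_rfl (ih r' h3)).trans (le_of_eq ?_)
    rw [← ENNReal.ofReal_mul (exp_pos _).le, ← exp_add]
    congr 2
    push_cast
    ring

end

end Vale.Agent.P105
end
end

section

section

open MeasureTheory Real Filter Topology
open scoped ENNReal

namespace Vale.Agent.P105

/-- characteristic function of the Gaussian -/
lemma charG {s : ℝ} (hs : 0 < s) (z : ℝ) :
    ∫ u : ℝ, (G s u : ℂ) * Complex.exp (-(u * z : ℝ) * Complex.I) =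
      ((exp (-s * z ^ 2 / 2) : ℝ) : ℂ) := by
  have hb : 0 < ((1 / (2 * s) : ℝ) : ℂ).re := by
    rw [Complex.ofReal_re]; positivity
  have h := fourierIntegral_gaussian hb (-(z : ℂ))
  have e1 : ∀ u : ℝ, (G s u : ℂ) * Complex.exp (-(u * z : ℝ) * Complex.I) =
      (((√(2 * π * s))⁻¹ : ℝ) : ℂ) * (Complex.exp (Complex.I * -(z : ℂ) * u) *
        Complex.exp (-((1 / (2 * s) : ℝ) : ℂ) * (u : ℂ) ^ 2)) := by
    intro u
    unfold G
    push_cast
    rw [mul_assoc, ← Complex.exp_add, ← Complex.exp_add]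
    congr 2
    field_simp
    ring
  simp_rw [e1]
  rw [integral_const_mul, h]
  have e2 : ((π : ℂ) / ((1 / (2 * s) : ℝ) : ℂ)) ^ (1 / 2 : ℂ) = ((√(2 * π * s) : ℝ) : ℂ) := by
    have : ((π : ℂ) / ((1 / (2 * s) : ℝ) : ℂ)) = ((2 * π * s : ℝ) : ℂ) := by
      push_cast
      (clear * -; field_simp)
    rw [this, Real.sqrt_eq_rpow, Complex.ofReal_cpow (by positivity)]
    push_cast
    rfl
  rw [e2, ← mul_assoc, ← Complex.ofReal_mul, inv_mul_cancel₀ (by positivity), Complex.ofReal_one,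
    one_mul]
  push_cast
  congr 1
  field_simp
  ring

/-- the frequency weight -/
noncomputable def kap (w Y u : ℝ) : ℝ := √(Y / w) * G (1 / w - 1 / Y) u

lemma kap_aux {w Y : ℝ} (hw : 0 < w) (hY : w < Y) : 0 < 1 / w - 1 / Y := by
  have := one_div_lt_one_div_of_lt hw hY
  linarith only [this]

lemma kap_nonneg (w Y u : ℝ) : 0 ≤ kap w Y u :=
  mul_nonneg (Real.sqrt_nonneg _) (G_nonneg _ _)

lemma continuous_kap (w Y : ℝ) : Continuous (kap w Y) := by
  have := continuous_G (1 / w - 1 / Y)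
  unfold kap
  fun_prop

lemma integrable_kap {w Y : ℝ} (hw : 0 < w) (hY : w < Y) : Integrable (kap w Y) :=
  (integrable_G (kap_aux hw hY)).const_mul _

lemma integral_kap {w Y : ℝ} (hw : 0 < w) (hY : w < Y) : ∫ u, kap w Y u = √(Y / w) := by
  unfold kap
  rw [integral_const_mul, integral_G (kap_aux hw hY), mul_one]

/-- spectral representation of a narrow Gaussian by modulated wide Gaussians -/
lemma rep_G {w Y : ℝ} (hw : 0 < w) (hY : w < Y) (z : ℝ) :
    ∫ u : ℝ, (kap w Y u : ℂ) * twK u Y z = (G w z : ℂ) := by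
  have hY0 : 0 < Y := hw.trans hY
  have e1 : ∀ u : ℝ, (kap w Y u : ℂ) * twK u Y z = ((√(Y / w) * G Y z : ℝ) : ℂ) *
      ((G (1 / w - 1 / Y) u : ℂ) * Complex.exp (-(u * z : ℝ) * Complex.I)) := by
    intro u
    unfold kap twK
    push_cast
    ring
  simp_rw [e1]
  rw [integral_const_mul, charG (kap_aux hw hY), ← Complex.ofReal_mul]
  congr 1
  unfold G
  have e2 : √(Y / w) * (√(2 * π * Y))⁻¹ = (√(2 * π * w))⁻¹ := by
    rw [Real.sqrt_div hY0.le, Real.sqrt_mul (by positivity) Y, Real.sqrt_mul (by positivity) w]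
    (clear * - hY0 hw; field_simp)
  have e3 : exp (-z ^ 2 / (2 * Y)) * exp (-(1 / w - 1 / Y) * z ^ 2 / 2) =
      exp (-z ^ 2 / (2 * w)) := by
    rw [← exp_add]
    congr 1
    field_simp
    ring
  rw [← e2, ← e3]
  ring

lemma rep_sm {ν : Measure ℝ} [IsProbabilityMeasure ν] {w Y : ℝ} (hw : 0 < w) (hY : w < Y)
    (x : ℝ) : ∫ u : ℝ, (kap w Y u : ℂ) * smC ν (twK u Y) x = (sm ν (G w) x : ℂ) := by
  have hY0 : 0 < Y := hw.trans hY
  unfold smC sm
  rw [← integral_complex_ofReal]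
  simp_rw [← rep_G hw hY, ← integral_const_mul]
  have hG := continuous_G Y
  have hk := continuous_kap w Y
  obtain ⟨C, hC⟩ := bdd_G' hY0
  refine integral_integral_swap ?_
  have hdom : Integrable (fun p : ℝ × ℝ => kap w Y p.1 * C) (volume.prod ν) :=
    (integrable_kap hw hY).mul_prod (integrable_const C)
  refine hdom.mono' ?_ (ae_of_all _ fun p => ?_)
  · have hc : Continuous (Function.uncurry fun (u t : ℝ) => (kap w Y u : ℂ) * twK u Y (x - t)) := by
      unfold twK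
      simp only [Function.uncurry_def]
      (clear * - hk hG; fun_prop)
    exact hc.aestronglyMeasurable
  · simp only [Function.uncurry]
    rw [norm_mul, norm_twK, Complex.norm_real, Real.norm_of_nonneg (kap_nonneg _ _ _)]
    exact mul_le_mul_of_nonneg_left ((le_abs_self _).trans (hC _)) (kap_nonneg _ _ _)

lemma continuous_smC_freq {ν : Measure ℝ} [IsProbabilityMeasure ν] {Y : ℝ} (hY : 0 < Y) :
    Continuous (fun p : ℝ × ℝ => smC ν (twK p.2 Y) p.1) := by
  obtain ⟨C, hC⟩ := bdd_G' hY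
  have hG := continuous_G Y
  unfold smC
  refine continuous_of_dominated (bound := fun _ => C) ?_ ?_ (integrable_const _) ?_
  · intro p
    have := continuous_twK p.2 Y
    exact (by fun_prop : Continuous fun t => twK p.2 Y (p.1 - t)).aestronglyMeasurable
  · intro p
    refine ae_of_all _ fun t => ?_
    rw [norm_twK]
    exact (le_abs_self _).trans (hC _)
  · refine ae_of_all _ fun t => ?_
    unfold twK
    (clear * - hG; fun_prop)

lemma continuous_smC_u {ν : Measure ℝ} [IsProbabilityMeasure ν] {Y : ℝ} (hY : 0 < Y) (x : ℝ) :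
    Continuous (fun u : ℝ => smC ν (twK u Y) x) := by
  have h := (continuous_smC_freq (ν := ν) hY).comp
    (by fun_prop : Continuous fun u : ℝ => ((x, u) : ℝ × ℝ))
  exact h

lemma norm_smC_le_const {ν : Measure ℝ} [IsProbabilityMeasure ν] {Y C : ℝ} (hY : 0 < Y)
    (hC : ∀ x, |G Y x| ≤ C) (u x : ℝ) : ‖smC ν (twK u Y) x‖ ≤ C := by
  unfold smC
  refine (norm_integral_le_integral_norm _).trans ?_
  calc ∫ t, ‖twK u Y (x - t)‖ ∂ν ≤ ∫ _t, C ∂ν := by
        apply integral_mono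
        · exact (integrable_kernelC (continuous_twK u Y) (bdd_twK hY u) x).norm
        · exact integrable_const _
        · intro t
          simp only [norm_twK]
          exact (le_abs_self _).trans (hC _)
    _ = C := by simp

lemma integrable_kap_smC {ν : Measure ℝ} [IsProbabilityMeasure ν] {a Y : ℝ} (ha : 0 < a)
    (haY : a < Y) (x : ℝ) :
    Integrable (fun u : ℝ => (kap a Y u : ℂ) * smC ν (twK u Y) x) := by
  have hY0 : 0 < Y := ha.trans haY
  obtain ⟨C, hC⟩ := bdd_G' hY0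
  have hka := continuous_kap a Y
  have h1 := continuous_smC_u (ν := ν) hY0 x
  refine ((integrable_kap ha haY).mul_const C).mono'
    (Continuous.aestronglyMeasurable (by fun_prop)) (ae_of_all _ fun u => ?_)
  rw [norm_mul, Complex.norm_real, Real.norm_of_nonneg (kap_nonneg _ _ _)]
  exact mul_le_mul_of_nonneg_left (norm_smC_le_const hY0 hC u x) (kap_nonneg _ _ _)

/-- L1 distance of two smoothings in terms of twisted norms -/
lemma dist_le_tn {ν : Measure ℝ} [IsProbabilityMeasure ν] {w w' Y : ℝ} (hw : 0 < w) (hY : w < Y)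
    (hw' : 0 < w') (hY' : w' < Y) :
    ∫⁻ x, ‖sm ν (G w) x - sm ν (G w') x‖ₑ ≤
      ∫⁻ u, ENNReal.ofReal |kap w Y u - kap w' Y u| * tn ν u Y := by
  have hY0 : 0 < Y := hw.trans hY
  have hcs := continuous_smC_freq (ν := ν) hY0
  have hk := continuous_kap w Y
  have hk' := continuous_kap w' Y
  have hpt : ∀ x, ‖sm ν (G w) x - sm ν (G w') x‖ₑ ≤
      ∫⁻ u, ENNReal.ofReal |kap w Y u - kap w' Y u| * ‖smC ν (twK u Y) x‖ₑ := by
    intro x
    have h1 : ‖sm ν (G w) x - sm ν (G w') x‖ₑ =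
        ‖((sm ν (G w) x : ℂ)) - (sm ν (G w') x : ℂ)‖ₑ := by
      rw [← Complex.ofReal_sub, ← ofReal_norm, ← ofReal_norm, Complex.norm_real]
    rw [h1, ← rep_sm hw hY, ← rep_sm hw' hY',
      ← integral_sub (integrable_kap_smC hw hY x) (integrable_kap_smC hw' hY' x)]
    refine (enorm_integral_le_lintegral_enorm _).trans (le_of_eq ?_)
    refine lintegral_congr fun u => ?_
    have h2 : ‖((kap w Y u - kap w' Y u : ℝ) : ℂ)‖ₑ =
        ENNReal.ofReal |kap w Y u - kap w' Y u| := by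
      rw [← ofReal_norm, Complex.norm_real, Real.norm_eq_abs]
    rw [← sub_mul, enorm_mul, ← Complex.ofReal_sub, h2]
  refine (lintegral_mono hpt).trans ?_
  rw [lintegral_lintegral_swap]
  · refine le_of_eq (lintegral_congr fun u => ?_)
    rw [lintegral_const_mul]
    · rfl
    · have h1 := continuous_smC (μ := ν) (continuous_twK u Y) (bdd_twK hY0 u)
      exact (by fun_prop : Continuous fun x : ℝ => ‖smC ν (twK u Y) x‖ₑ).measurable
  · apply Measurable.aemeasurable
    have m1 : Continuous fun p : ℝ × ℝ => |kap w Y p.2 - kap w' Y p.2| := by fun_prop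
    have m2 : Measurable fun p : ℝ × ℝ => ‖smC ν (twK p.2 Y) p.1‖ₑ :=
      (by fun_prop : Continuous fun p : ℝ × ℝ => ‖smC ν (twK p.2 Y) p.1‖ₑ).measurable
    exact m1.measurable.ennreal_ofReal.mul m2

/-- the conversion inequality -/
lemma dist_le {ν : Measure ℝ} [IsProbabilityMeasure ν] {w w' Y U B η : ℝ} (hw : 0 < w)
    (hY : w < Y) (hw' : 0 < w') (hY' : w' < Y) (hU : 0 ≤ U) (hB : 0 ≤ B) (hη : 0 ≤ η)
    (hlow : ∀ u, |u| < U → |kap w Y u - kap w' Y u| ≤ B)
    (hhigh : ∀ u, U ≤ u → 0 < u → tn ν u Y ≤ ENNReal.ofReal η) (hU0 : 0 < U) :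
    ∫⁻ x, ‖sm ν (G w) x - sm ν (G w') x‖ₑ ≤
      ENNReal.ofReal (2 * U * B + η * (√(Y / w) + √(Y / w'))) := by
  have hY0 : 0 < Y := hw.trans hY
  refine (dist_le_tn hw hY hw' hY').trans ?_
  have hpt : ∀ u, ENNReal.ofReal |kap w Y u - kap w' Y u| * tn ν u Y ≤
      (Set.Ioo (-U) U).indicator (fun _ => ENNReal.ofReal B) u +
        ENNReal.ofReal (η * (kap w Y u + kap w' Y u)) := by
    intro u
    by_cases hu : |u| < U
    · have hmem : u ∈ Set.Ioo (-U) U := abs_lt.mp hu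
      rw [Set.indicator_of_mem hmem]
      refine le_trans ?_ le_self_add
      calc ENNReal.ofReal |kap w Y u - kap w' Y u| * tn ν u Y ≤ ENNReal.ofReal B * 1 := by
            gcongr
            · exact hlow u hu
            · exact tn_le_one hY0 u
        _ = _ := mul_one _
    · push Not at hu
      refine le_trans ?_ le_add_self
      have h1 : tn ν u Y ≤ ENNReal.ofReal η := by
        rcases le_total 0 u with h | h
        · rw [abs_of_nonneg h] at hu
          exact hhigh u hu (lt_of_lt_of_le hU0 hu)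
        · rw [abs_of_nonpos h] at hu
          rw [← tn_neg]
          exact hhigh (-u) hu (lt_of_lt_of_le hU0 hu)
      have h2 : |kap w Y u - kap w' Y u| ≤ kap w Y u + kap w' Y u := by
        have h3 := kap_nonneg w Y u
        have h4 := kap_nonneg w' Y u
        rw [abs_le]
        constructor <;> linarith
      calc ENNReal.ofReal |kap w Y u - kap w' Y u| * tn ν u Y
          ≤ ENNReal.ofReal (kap w Y u + kap w' Y u) * ENNReal.ofReal η := by (clear * - h2 h1; (clear * - h2 h1; gcongr))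
        _ = _ := by
            rw [← ENNReal.ofReal_mul (add_nonneg (kap_nonneg _ _ _) (kap_nonneg _ _ _)), mul_comm]
  refine (lintegral_mono hpt).trans ?_
  have hi : Integrable fun u => η * (kap w Y u + kap w' Y u) :=
    ((integrable_kap hw hY).add (integrable_kap hw' hY')).const_mul η
  rw [lintegral_add_left (measurable_const.indicator measurableSet_Ioo),
    lintegral_indicator measurableSet_Ioo, setLIntegral_const, Real.volume_Ioo,
    ← ofReal_integral_eq_lintegral_ofReal hi (ae_of_all _ fun u =>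
      mul_nonneg hη (add_nonneg (kap_nonneg _ _ _) (kap_nonneg _ _ _))),
    integral_const_mul, integral_add (integrable_kap hw hY) (integrable_kap hw' hY'),
    integral_kap hw hY, integral_kap hw' hY', ← ENNReal.ofReal_mul hB,
    ← ENNReal.ofReal_add (by nlinarith only [hU, hB]) (by (clear * - hη hY0 hw hw'; (clear * - hη hY0 hw hw'; positivity)))]
  apply ENNReal.ofReal_le_ofReal
  linarith only []

/-- low frequency bound for the weight -/
lemma kap_low {w Y u : ℝ} (hw : 0 < w) (hY : 2 * w ≤ Y) :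
    √(Y / (2 * π)) * (1 - w * u ^ 2) ≤ kap w Y u ∧
      kap w Y u ≤ √(Y / (2 * π)) * (1 + w / Y) := by
  have hY0 : 0 < Y := by linarith
  have hs : 0 < 1 / w - 1 / Y := kap_aux hw (by linarith)
  have hwY : w / Y ≤ 1 / 2 := by rw [div_le_iff₀ hY0]; linarith only [hY]
  have hwY0 : 0 < w / Y := by positivity
  have hpi := pi_pos
  -- value at zero
  have e1 : √(Y / w) * (√(2 * π * (1 / w - 1 / Y)))⁻¹ =
      √(Y / (2 * π)) * √(1 / (1 - w / Y)) := by
    rw [← Real.sqrt_inv, ← Real.sqrt_mul (by positivity), ← Real.sqrt_mul (by positivity)]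
    congr 1
    have h1 : Y - w ≠ 0 := by linarith only [hw, hY]
    have h2 : 1 - w / Y ≠ 0 := by linarith only [hwY]
    have h3 : 1 / w - 1 / Y ≠ 0 := hs.ne'
    have e2 : 1 - w / Y = (Y - w) / Y := by field_simp
    have e3 : 1 / w - 1 / Y = (Y - w) / (w * Y) := by field_simp
    rw [e2, e3]
    field_simp
  have h1 : 1 ≤ √(1 / (1 - w / Y)) := by
    rw [Real.one_le_sqrt, one_div]
    exact (one_le_inv₀ (by linarith only [hwY])).mpr (by linarith only [hwY0])
  have h2 : √(1 / (1 - w / Y)) ≤ 1 + w / Y := by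
    rw [Real.sqrt_le_left (by linarith only [hwY0]), div_le_iff₀ (by linarith only [hwY])]
    set s := w / Y
    have h0 : 0 ≤ s * (1 - s - s ^ 2) := by
      apply mul_nonneg hwY0.le
      nlinarith only [hwY, hwY0]
    linarith only [h0]
  have hS : 0 ≤ √(Y / (2 * π)) := Real.sqrt_nonneg _
  have hk : kap w Y u = √(Y / (2 * π)) * √(1 / (1 - w / Y)) *
      exp (-u ^ 2 / (2 * (1 / w - 1 / Y))) := by
    unfold kap G
    rw [← mul_assoc, e1]
  have h3 : exp (-u ^ 2 / (2 * (1 / w - 1 / Y))) ≤ 1 := by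
    rw [Real.exp_le_one_iff]
    apply div_nonpos_of_nonpos_of_nonneg
    · have := sq_nonneg u; linarith only [this]
    · positivity
  have h4 : 1 - w * u ^ 2 ≤ exp (-u ^ 2 / (2 * (1 / w - 1 / Y))) := by
    refine le_trans ?_ (add_one_le_exp _)
    have h5 : u ^ 2 / (2 * (1 / w - 1 / Y)) ≤ w * u ^ 2 := by
      rw [div_le_iff₀ (by positivity)]
      have h6 : 1 ≤ w * (2 * (1 / w - 1 / Y)) := by
        have : w * (2 * (1 / w - 1 / Y)) = 2 - 2 * (w / Y) := by (clear * - hY0 hw; field_simp)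
        rw [this]
        linarith only [hwY]
      have := mul_le_mul_of_nonneg_left h6 (sq_nonneg u)
      linarith only [this]
    have h7 : -u ^ 2 / (2 * (1 / w - 1 / Y)) = -(u ^ 2 / (2 * (1 / w - 1 / Y))) := by ring
    rw [h7]
    linarith only [h5]
  have h8 : 0 < exp (-u ^ 2 / (2 * (1 / w - 1 / Y))) := exp_pos _
  rw [hk]
  constructor
  · rw [mul_assoc]
    refine mul_le_mul_of_nonneg_left ?_ hS
    refine h4.trans ?_
    nlinarith only [h1, h8]
  · rw [mul_assoc]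
    refine mul_le_mul_of_nonneg_left ?_ hS
    calc √(1 / (1 - w / Y)) * exp (-u ^ 2 / (2 * (1 / w - 1 / Y))) ≤ (1 + w / Y) * 1 := by
          (clear * - h2 h3 hw hY0; gcongr)
      _ = _ := mul_one _

lemma kap_diff {w w' Y U u : ℝ} (hw : 0 < w) (hY : 2 * w ≤ Y) (hw' : 0 < w') (hw'w : w' ≤ w)
    (hu : |u| < U) :
    |kap w Y u - kap w' Y u| ≤ √(Y / (2 * π)) * (w / Y + w * U ^ 2) := by
  have hY0 : 0 < Y := by linarith only [hw, hY]
  obtain ⟨h1, h2⟩ := kap_low (u := u) hw hY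
  obtain ⟨h3, h4⟩ := kap_low (u := u) hw' (by linarith only [hY, hw'w] : 2 * w' ≤ Y)
  have hS : 0 ≤ √(Y / (2 * π)) := Real.sqrt_nonneg _
  have hu2 : u ^ 2 ≤ U ^ 2 := by
    rw [← sq_abs u]
    exact pow_le_pow_left₀ (abs_nonneg u) hu.le 2
  have h5 : w' / Y ≤ w / Y := by (clear * - hw'w hY0; gcongr)
  have h6 : w * u ^ 2 ≤ w * U ^ 2 := by (clear * - hu2 hw; gcongr)
  have h7 : w' * u ^ 2 ≤ w * U ^ 2 := by
    have := sq_nonneg u
    exact mul_le_mul hw'w hu2 (sq_nonneg u) hw.le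
  rw [abs_le]
  constructor
  · have h8 : √(Y / (2 * π)) * ((1 - w * u ^ 2) - (1 + w' / Y)) ≥
        √(Y / (2 * π)) * (-(w / Y + w * U ^ 2)) := by
      apply mul_le_mul_of_nonneg_left _ hS
      linarith only [h5, h6]
    linarith only [h1, h4, h8]
  · have h8 : √(Y / (2 * π)) * ((1 + w / Y) - (1 - w' * u ^ 2)) ≤
        √(Y / (2 * π)) * (w / Y + w * U ^ 2) := by
      apply mul_le_mul_of_nonneg_left _ hS
      linarith only [h7]
    linarith only [h2, h3, h8]

end Vale.Agent.P105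
end
end

section

section

open MeasureTheory Real Filter Topology
open scoped ENNReal

namespace Vale.Agent.P105

section
variable {ν : Measure ℝ} [IsProbabilityMeasure ν]

/-- the L1 distance between consecutive smoothings -/
lemma dist_step {x η Z : ℝ} (hx : 2 ≤ x) (hη : 0 ≤ η) (hZ0 : 0 < Z) (hZ : Z ≤ x ^ (1 / 2 : ℝ))
    (h : ∀ r, x / 2 ≤ r → nt ν r Z ≤ ENNReal.ofReal η) (hlog : 3 / 4 * log x ≤ x / 2) :
    ∫⁻ t, ‖sm ν (G (exp (-2 * x))) t - sm ν (G (exp (-2 * (x + 1)))) t‖ₑ ≤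
      ENNReal.ofReal (2 * x ^ (-(5 / 4) : ℝ) + 4 * (x * η)) := by
  have hx0 : 0 < x := by linarith only [hx]
  set w := exp (-2 * x) with hw
  set w' := exp (-2 * (x + 1)) with hw'
  set Y := x ^ 2 * w with hY
  set U := x ^ (-(3 / 4) : ℝ) * exp x with hU
  set B := x ^ (-(1 / 2) : ℝ) * exp (-x) with hB
  have hw0 : 0 < w := exp_pos _
  have hw'0 : 0 < w' := exp_pos _
  have hU0 : 0 < U := by positivity
  have hww' : w' ≤ w := by
    rw [hw, hw']
    apply exp_le_exp.mpr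
    linarith only []
  have hY2 : 2 * w ≤ Y := by rw [hY]; gcongr; nlinarith only [hx]
  have hU2 : w * U ^ 2 = x ^ (-(3 / 2) : ℝ) := by
    rw [hU, mul_pow, ← rpow_natCast (x ^ (-(3 / 4) : ℝ)) 2, ← rpow_mul hx0.le, ← exp_nat_mul, hw,
      mul_left_comm, ← exp_add]
    norm_num
  have hlow : ∀ u, |u| < U → |kap w Y u - kap w' Y u| ≤ B := by
    intro u hu
    refine (kap_diff hw0 hY2 hw'0 hww' hu).trans ?_
    have h1 : w / Y = x ^ (-(2 : ℝ)) := by
      rw [hY, rpow_neg hx0.le, rpow_two]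
      (clear * - hw0 hx; field_simp)
    have h2 : x ^ (-(2 : ℝ)) ≤ x ^ (-(3 / 2) : ℝ) :=
      rpow_le_rpow_of_exponent_le (by linarith only [hx]) (by norm_num)
    have h3 : √(Y / (2 * π)) ≤ x * exp (-x) / 2 := by
      apply Real.sqrt_le_iff.mpr
      refine ⟨by positivity, ?_⟩
      rw [div_le_iff₀ (by positivity), hY, hw]
      have h4 : (x * exp (-x) / 2) ^ 2 * (2 * π) = x ^ 2 * exp (-2 * x) * (π / 2) := by
        have : exp (-2 * x) = exp (-x) ^ 2 := by rw [← exp_nat_mul]; congr 1; push_cast; ring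
        rw [this]
        ring
      rw [h4]
      have := pi_gt_three
      have h5 : 0 < x ^ 2 * exp (-2 * x) := by positivity
      nlinarith only [hw0, hY2, this]
    rw [h1, hU2]
    calc √(Y / (2 * π)) * (x ^ (-(2 : ℝ)) + x ^ (-(3 / 2) : ℝ))
        ≤ (x * exp (-x) / 2) * (x ^ (-(3 / 2) : ℝ) + x ^ (-(3 / 2) : ℝ)) := by (clear * - h3 h2 hx; gcongr)
      _ = (x ^ (1 : ℝ) * x ^ (-(3 / 2) : ℝ)) * exp (-x) := by rw [rpow_one]; ring
      _ = B := by rw [← rpow_add hx0, hB]; norm_num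
  have hhigh : ∀ u, U ≤ u → 0 < u → tn ν u Y ≤ ENNReal.ofReal η := by
    intro u hu hu0
    have h1 : x / 2 ≤ log u := by
      have h2 : log U ≤ log u := log_le_log hU0 hu
      rw [hU, log_mul (by positivity) (exp_pos _).ne', log_exp, log_rpow hx0] at h2
      linarith only [hlog, h2]
    refine le_trans ?_ (h (log u) h1)
    unfold nt
    rw [exp_log hu0]
    apply tn_anti (by positivity)
    have h3 : exp (-2 * log u) = (u ^ 2)⁻¹ := by
      have : -2 * log u = -(log (u ^ 2)) := by rw [log_pow]; push_cast; ring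
      rw [this, exp_neg, exp_log (by (clear * - hu0; positivity))]
    rw [h3, ← div_eq_mul_inv, div_le_iff₀ (by (clear * - hu0; positivity))]
    have h4 : U ^ 2 ≤ u ^ 2 := by (clear * - hx hu; gcongr)
    calc Z ≤ x ^ (1 / 2 : ℝ) := hZ
      _ = x ^ (2 : ℝ) * x ^ (-(3 / 2) : ℝ) := by rw [← rpow_add hx0]; norm_num
      _ = Y * U ^ 2 := by rw [← hU2, hY, rpow_two]; ring
      _ ≤ Y * u ^ 2 := by
          have : 0 ≤ Y := by positivity
          (clear * - h4 hx; gcongr)
  have key := dist_le (ν := ν) (w := w) (w' := w') (Y := Y) (U := U) (B := B) (η := η) hw0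
    (by linarith only [hw0, hY2]) hw'0 (by linarith only [hw0, hww', hY2]) hU0.le (by positivity) hη hlow hhigh hU0
  refine key.trans (ENNReal.ofReal_le_ofReal ?_)
  have e1 : 2 * U * B = 2 * x ^ (-(5 / 4) : ℝ) := by
    rw [hU, hB]
    have : exp x * exp (-x) = 1 := by rw [← exp_add, add_neg_cancel, exp_zero]
    calc 2 * (x ^ (-(3 / 4) : ℝ) * exp x) * (x ^ (-(1 / 2) : ℝ) * exp (-x))
        = 2 * (x ^ (-(3 / 4) : ℝ) * x ^ (-(1 / 2) : ℝ)) * (exp x * exp (-x)) := by ring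
      _ = _ := by rw [this, ← rpow_add hx0]; norm_num
  have e2 : √(Y / w) = x := by
    rw [hY, mul_div_assoc, div_self hw0.ne', mul_one, Real.sqrt_sq hx0.le]
  have e3 : √(Y / w') = x * exp 1 := by
    have : Y / w' = (x * exp 1) ^ 2 := by
      rw [hY, hw, hw', mul_div_assoc, ← exp_sub, mul_pow, ← exp_nat_mul]
      congr 2
      push_cast
      ring
    rw [this, Real.sqrt_sq (by positivity)]
  rw [e1, e2, e3]
  have h5 := exp_one_lt_d9
  have h6 : x * exp 1 ≤ 3 * x := by nlinarith only [hx, h5]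
  have h7 : η * (x + x * exp 1) ≤ η * (4 * x) := by
    apply mul_le_mul_of_nonneg_left _ hη
    linarith only [h6]
  linarith only [h7]

/-- Absolute continuity from the decay of the normalized twisted norms. -/
theorem near_ac {κ V β q : ℝ} (hκ0 : 0 < κ) (hκ1 : κ < 1) (hβ : 2 < β) (hV : β * (-log κ) ≤ V)
    (hq : 0 ≤ q)
    (h : ∃ r0 > 0, ∀ j : ℕ, ∀ r : ℝ, r0 ≤ κ ^ j * r →
      nt ν r (j * q + 1) ≤ ENNReal.ofReal (exp (-(V * j)))) : ν ≪ volume := by
  obtain ⟨r0, hr0, h⟩ := h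
  set K := -log κ with hK
  have hK0 : 0 < K := by rw [hK]; have := log_neg hκ0 hκ1; linarith
  have hV0 : 0 < V := by nlinarith only [hV, hK0, hβ]
  set C := exp V * (2 * r0) ^ β with hC
  have hC0 : 0 < C := by positivity
  -- eventual facts
  have ev1 : ∀ᶠ x : ℝ in atTop, (log (x / (2 * r0)) / K) * q + 1 ≤ x ^ (1 / 2 : ℝ) := by
    have h1 := isLittleO_log_rpow_atTop (show (0 : ℝ) < 1 / 2 by norm_num)
    have h2 : Tendsto (fun x : ℝ => x ^ (1 / 2 : ℝ)) atTop atTop :=
      tendsto_rpow_atTop (by norm_num)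
    have h3 := h1.bound (show (0 : ℝ) < K / (2 * (q + 1)) by (clear * - hK0 hq; positivity))
    filter_upwards [h3, h2.eventually_ge_atTop (2 * (|log (2 * r0)| / K * q + 1)),
      eventually_ge_atTop 1] with x hx1 hx2 hx3
    have hx0 : 0 < x := by linarith only [hx3]
    rw [Real.norm_of_nonneg (log_nonneg hx3), Real.norm_of_nonneg (by (clear * - hx3; positivity))] at hx1
    rw [log_div hx0.ne' (by positivity)]
    have h4 : -log (2 * r0) ≤ |log (2 * r0)| := neg_le_abs _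
    have h5 : (log x - log (2 * r0)) / K ≤ (log x + |log (2 * r0)|) / K := by
      gcongr
      linarith only [h4]
    have h6 : (log x + |log (2 * r0)|) / K * q ≤ log x / K * (q + 1) + |log (2 * r0)| / K * q := by
      rw [add_div, add_mul]
      have : 0 ≤ log x / K := div_nonneg (log_nonneg hx3) hK0.le
      linarith only [this]
    have h7 : log x / K * (q + 1) ≤ x ^ (1 / 2 : ℝ) / 2 := by
      calc log x / K * (q + 1) ≤ (K / (2 * (q + 1)) * x ^ (1 / 2 : ℝ)) / K * (q + 1) := by (clear * - hx1 hK0 hq; gcongr)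
        _ = _ := by (clear * - hK0 hq hx3; field_simp)
    have h8 : (log x - log (2 * r0)) / K * q ≤ (log x + |log (2 * r0)|) / K * q := by (clear * - h5 hq; (clear * - h5 hq; gcongr))
    linarith only [hx2, h6, h7, h8]
  have ev2 : ∀ᶠ x : ℝ in atTop, 3 / 4 * log x ≤ x / 2 := by
    have h1 := isLittleO_log_id_atTop.bound (show (0 : ℝ) < 2 / 3 by norm_num)
    filter_upwards [h1, eventually_ge_atTop 1] with x hx hx1
    rw [Real.norm_of_nonneg (log_nonneg hx1), id, Real.norm_of_nonneg (by linarith only [hx1])] at hx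
    linarith
  have ev := (ev1.and (ev2.and ((eventually_ge_atTop 2).and (eventually_ge_atTop (2 * r0)))))
  obtain ⟨m0, hm0⟩ := eventually_atTop.mp (tendsto_natCast_atTop_atTop.eventually ev)
  refine ac_of_summable (y := fun i : ℕ => exp (-2 * (i : ℝ)))
    (b := fun i : ℕ => 2 * (i : ℝ) ^ (-(5 / 4) : ℝ) + 4 * (C * (i : ℝ) ^ (1 - β))) (m0 := m0)
    (fun _ => exp_pos _) ?_ (fun i => by (clear * - hr0; (clear * - hr0; positivity))) ?_ ?_
  · have h1 : Tendsto (fun i : ℕ => -2 * (i : ℝ)) atTop atBot :=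
      (tendsto_natCast_atTop_atTop (R := ℝ)).const_mul_atTop_of_neg (by (clear * -; norm_num))
    exact tendsto_exp_atBot.comp h1
  · apply Summable.add
    · exact (Real.summable_nat_rpow.mpr (by norm_num)).mul_left _
    · exact ((Real.summable_nat_rpow.mpr (by linarith)).mul_left _).mul_left _
  · intro i hi
    obtain ⟨h1, h2, h3, h4⟩ := hm0 i hi
    set x := (i : ℝ) with hx
    have hx0 : 0 < x := by linarith only [h3]
    have hlog0 : 0 ≤ log (x / (2 * r0)) := by
      apply log_nonneg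
      rw [le_div_iff₀ (by positivity)]
      linarith only [h4]
    set j := ⌊log (x / (2 * r0)) / K⌋₊ with hj
    have hj1 : (j : ℝ) ≤ log (x / (2 * r0)) / K := Nat.floor_le (div_nonneg hlog0 hK0.le)
    have hj2 : log (x / (2 * r0)) / K < j + 1 := Nat.lt_floor_add_one _
    have hκj : r0 ≤ κ ^ j * (x / 2) := by
      have e1 : κ ^ j = exp (-(j * K)) := by
        rw [hK, ← exp_log (pow_pos hκ0 j), log_pow]
        congr 1
        ring
      have e2 : (j : ℝ) * K ≤ log (x / (2 * r0)) := by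
        rw [le_div_iff₀ hK0] at hj1
        exact hj1
      have e3 : (x / (2 * r0))⁻¹ ≤ κ ^ j := by
        rw [e1, ← exp_log (show 0 < (x / (2 * r0))⁻¹ by (clear * - h3 hr0; positivity)), log_inv]
        (clear * - e2; gcongr)
      calc r0 = (x / (2 * r0))⁻¹ * (x / 2) := by (clear * - h3 hr0; field_simp)
        _ ≤ κ ^ j * (x / 2) := by (clear * - e3 h3; gcongr)
    have hdec : ∀ r, x / 2 ≤ r → nt ν r (j * q + 1) ≤ ENNReal.ofReal (exp (-(V * j))) := by
      intro r hr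
      apply h
      refine hκj.trans ?_
      (clear * - hr hκ0; gcongr)
    have hη : x * exp (-(V * j)) ≤ C * x ^ (1 - β) := by
      have e1 : exp (-(V * j)) ≤ exp V * (x / (2 * r0)) ^ (-β) := by
        rw [rpow_def_of_pos (by (clear * - h3 hr0; positivity)), ← exp_add]
        apply exp_le_exp.mpr
        have e2 : log (x / (2 * r0)) < (j + 1) * K := by
          rw [div_lt_iff₀ hK0] at hj2
          exact hj2
        have e3 : log (x / (2 * r0)) * β ≤ (j + 1) * K * β := by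
          have : 0 < β := by linarith only [hβ]
          (clear * - e2 hβ; gcongr)
        have e4 : (j + 1) * K * β ≤ (j + 1) * V := by
          have : (j + 1) * K * β = (j + 1) * (β * K) := by ring
          rw [this]
          (clear * - hV; gcongr)
        linarith only [e3, e4]
      have e5 : (x / (2 * r0)) ^ (-β) = (2 * r0) ^ β * x ^ (-β) := by
        rw [div_rpow hx0.le (by positivity), rpow_neg (by positivity) (x := 2 * r0)]
        (clear * - hr0 h3; field_simp)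
      rw [e5] at e1
      calc x * exp (-(V * j)) ≤ x * (exp V * ((2 * r0) ^ β * x ^ (-β))) := by (clear * - e1 h3; (clear * - e1 h3; gcongr))
        _ = C * (x ^ (1 : ℝ) * x ^ (-β)) := by rw [hC, rpow_one]; ring
        _ = C * x ^ (1 - β) := by rw [← rpow_add hx0]; congr 2
    have key := dist_step (ν := ν) (x := x) (η := exp (-(V * j))) (Z := j * q + 1) h3 (exp_pos _).le
      (by (clear * - hq; positivity)) (by
        refine le_trans ?_ h1
        (clear * - hj1 hq; gcongr)) hdec h2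
    have e6 : ((i + 1 : ℕ) : ℝ) = x + 1 := by push_cast; ring
    rw [e6]
    refine key.trans (ENNReal.ofReal_le_ofReal ?_)
    linarith only [hη]

end

end Vale.Agent.P105
end
end

section

section

open MeasureTheory Real Filter Topology Polynomial
open scoped ENNReal

namespace Vale.Agent.P105

/-- the polynomial of the difference of two words, halved -/
noncomputable def dpoly {n : ℕ} (e e' : Fin n → Bool) : ℤ[X] :=
  ∑ i : Fin n, C ((if e i then (1 : ℤ) else 0) - (if e' i then 1 else 0)) * X ^ (i : ℕ)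

lemma dpoly_natDegree {n : ℕ} (e e' : Fin n → Bool) : (dpoly e e').natDegree ≤ n := by
  unfold dpoly
  refine natDegree_sum_le_of_forall_le _ _ fun i _ => ?_
  exact (natDegree_C_mul_X_pow_le _ _).trans i.2.le

lemma dpoly_coeff {n : ℕ} (e e' : Fin n → Bool) (j : ℕ) : |(dpoly e e').coeff j| ≤ 1 := by
  unfold dpoly
  rw [finsetSum_coeff]
  simp_rw [coeff_C_mul, coeff_X_pow, mul_ite, mul_one, mul_zero]
  by_cases hj : j < n
  · rw [Finset.sum_eq_single (⟨j, hj⟩ : Fin n)]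
    · simp only [if_true]
      split_ifs <;> simp
    · intro b _ hb
      rw [if_neg]
      intro h
      apply hb
      exact Fin.ext h.symm
    · intro h; exact absurd (Finset.mem_univ _) h
  · rw [Finset.sum_eq_zero]
    · simp only [abs_zero, zero_le_one]
    · intro i _
      rw [if_neg]
      have := i.2
      omega

lemma aeval_dpoly {n : ℕ} (e e' : Fin n → Bool) (lam : ℝ) :
    2 * aeval lam (dpoly e e') = psum lam n e - psum lam n e' := by
  unfold dpoly psum
  rw [map_sum, ← Finset.sum_sub_distrib, Finset.mul_sum]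
  refine Finset.sum_congr rfl fun i _ => ?_
  rw [map_mul, aeval_C, map_pow, aeval_X]
  unfold sgn
  rcases e i with _ | _ <;> rcases e' i with _ | _ <;> simp <;> ring

/-- separation of the partial sums for algebraic parameters -/
lemma sep_mahler {P : ℤ[X]} (hP : P ≠ 0) {lam : ℝ} (hlam : aeval lam P = 0) {ε : ℝ} (hε : 0 < ε) :
    ∀ᶠ n : ℕ in atTop, ∀ e e' : Fin n → Bool, psum lam n e ≠ psum lam n e' →
      exp (-(log (mahler P) + ε) * n) ≤ |psum lam n e - psum lam n e'| := by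
  have hgrow : ∀ᶠ n : ℕ in atTop, ((n : ℝ) + 1) ^ P.natDegree ≤ exp (ε * n) := by
    have h2 : Tendsto (fun n : ℕ => (n : ℝ) + 1) atTop atTop :=
      tendsto_atTop_add_const_right _ _ tendsto_natCast_atTop_atTop
    have h3 := (isLittleO_pow_exp_pos_mul_atTop P.natDegree hε).comp_tendsto h2
    have h4 := h3.bound (exp_pos (-ε))
    filter_upwards [h4] with n hn
    simp only [Function.comp_apply, norm_eq_abs, abs_exp] at hn
    have h5 : (0 : ℝ) ≤ (n : ℝ) + 1 := by (clear * - ; positivity)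
    rw [abs_of_nonneg (by (clear * - ; positivity)), ← exp_add] at hn
    refine hn.trans (exp_le_exp.mpr (by linarith))
  filter_upwards [hgrow] with n hn e e' hee
  have hM := one_le_mahler hP
  have hQ : aeval lam (dpoly e e') ≠ 0 := by
    intro h
    have := aeval_dpoly e e' lam
    rw [h, mul_zero] at this
    exact hee (sub_eq_zero.mp this.symm)
  have h1 := separation hP hlam hQ (dpoly_natDegree e e') (dpoly_coeff e e')
  rw [← aeval_dpoly, abs_mul, abs_two]
  set q := |aeval lam (dpoly e e')| with hq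
  have hq0 : 0 < q := abs_pos.mpr hQ
  have h2 : 1 ≤ q * exp (ε * n) * exp (log (mahler P) * n) := by
    calc (1 : ℝ) ≤ q * ((n : ℝ) + 1) ^ P.natDegree * mahler P ^ n := h1
      _ ≤ q * exp (ε * n) * mahler P ^ n := by (clear * - hn hQ hM; gcongr)
      _ = q * exp (ε * n) * exp (log (mahler P) * n) := by
        rw [exp_mul (log (mahler P)), exp_log (by linarith only [hM]), rpow_natCast]
  rw [mul_assoc, ← exp_add] at h2
  have e1 : -(log (mahler P) + ε) * n = -(ε * n + log (mahler P) * n) := by ring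
  rw [e1, exp_neg, inv_le_iff_one_le_mul₀ (exp_pos _)]
  linarith only [h2]

lemma entropy_ev (lam : ℝ) {ε : ℝ} (hε : 0 < ε) :
    ∀ᶠ n : ℕ in atTop, (garsiaEntropy lam - ε) * n ≤ psumEntropy lam n := by
  have hb : IsBoundedUnder (· ≥ ·) atTop (fun n : ℕ => psumEntropy lam n / n) := by
    refine ⟨0, ?_⟩
    rw [eventually_map]
    exact Eventually.of_forall fun n => div_nonneg (psumEntropy_nonneg lam n) (Nat.cast_nonneg n)
  have h1 : garsiaEntropy lam - ε < liminf (fun n : ℕ => psumEntropy lam n / n) atTop := by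
    unfold garsiaEntropy
    linarith
  filter_upwards [eventually_lt_of_lt_liminf h1 hb, eventually_gt_atTop 0] with n hn hn0
  have hn0' : (0 : ℝ) < n := by exact_mod_cast hn0
  rw [lt_div_iff₀ hn0'] at hn
  exact hn.le

/-- no coincidences: the entropy is `n log 2` -/
lemma psumEntropy_of_inj {lam : ℝ} {n : ℕ} (h : Function.Injective (psum lam n)) :
    psumEntropy lam n = n * log 2 := by
  classical
  rw [psumEntropy_eq]
  unfold shannon
  have hc : ∀ s : Fin n → Bool,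
      ((Finset.univ.filter fun s' => psum lam n s' = psum lam n s).card : ℝ) = 1 := by
    intro s
    have : (Finset.univ.filter fun s' => psum lam n s' = psum lam n s) = {s} := by
      ext s'
      simp only [Finset.mem_filter, Finset.mem_univ, true_and, Finset.mem_singleton]
      exact ⟨fun h' => h h', fun h' => by rw [h']⟩
    rw [this]; simp only [Finset.card_singleton, Nat.cast_one]
  simp_rw [hc]
  have hcard : (Fintype.card (Fin n → Bool) : ℝ) = 2 ^ n := by simp only [Fintype.card_pi, Fintype.card_bool, Finset.prod_const, Finset.card_univ, Fintype.card_fin, Nat.cast_pow, Nat.cast_ofNat]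
  rw [Finset.sum_const, Finset.card_univ, nsmul_eq_mul, hcard, one_div, log_inv, log_pow]
  field_simp

lemma psum_inj {lam : ℝ} (hno : ∀ Q : ℤ[X], Q ≠ 0 → (∀ i, |Q.coeff i| ≤ 1) → aeval lam Q ≠ 0)
    (n : ℕ) : Function.Injective (psum lam n) := by
  intro e e' hee
  by_contra hne
  have h1 := aeval_dpoly e e' lam
  rw [hee, sub_self] at h1
  have h2 : aeval lam (dpoly e e') = 0 := by linarith only [h1]
  refine hno (dpoly e e') ?_ (dpoly_coeff e e') h2
  intro h0
  apply hne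
  ext i
  have h3 : (dpoly e e').coeff i = 0 := by rw [h0, coeff_zero]
  unfold dpoly at h3
  rw [finsetSum_coeff] at h3
  simp_rw [coeff_C_mul, coeff_X_pow, mul_ite, mul_one, mul_zero] at h3
  rw [Finset.sum_eq_single i] at h3
  · simp only [if_true] at h3
    rcases he : e i with _ | _ <;> rcases he' : e' i with _ | _ <;> simp_all
  · intro b _ hb
    rw [if_neg]
    intro h
    exact hb (Fin.ext h.symm)
  · intro h; exact absurd (Finset.mem_univ _) h

end Vale.Agent.P105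
end
end

section

section

open MeasureTheory Real Filter Topology Polynomial
open scoped ENNReal

namespace Vale.Agent.P105

/-- if `P` is irreducible and `Q` vanishes at one real root of `P` then it vanishes at all -/
lemma eval_eq_zero_of {P Q : ℤ[X]} (hP : Irreducible P) {lam : ℝ} (hlam : aeval lam P = 0)
    (hQ : aeval lam Q = 0) {z : ℂ} (hz : aeval z P = 0) : aeval z Q = 0 := by
  have hdeg : P.natDegree ≠ 0 := by
    intro h0
    rw [natDegree_eq_zero] at h0
    obtain ⟨c, rfl⟩ := h0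
    rw [aeval_C] at hlam
    have hc0 : c = 0 := by simpa using hlam
    rw [hc0] at hP
    simp at hP
  have hprim : P.IsPrimitive := hP.isPrimitive hdeg
  have hirr : Irreducible (P.map (Int.castRingHom ℚ)) :=
    (IsPrimitive.Int.irreducible_iff_irreducible_map_cast hprim).mp hP
  have key : ∀ {A : Type} [inst : CommRing A] [Algebra ℚ A] [Nontrivial A] (x : A) (R : ℤ[X]),
      aeval x (R.map (Int.castRingHom ℚ)) = aeval x R := by
    intro A _ _ _ x R
    rw [show Int.castRingHom ℚ = algebraMap ℤ ℚ from rfl, aeval_map_algebraMap]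
  have h1 : aeval lam (P.map (Int.castRingHom ℚ)) = 0 := by rw [key, hlam]
  have h2 := minpoly.eq_of_irreducible hirr h1
  have h3 : minpoly ℚ lam ∣ Q.map (Int.castRingHom ℚ) := by
    apply minpoly.dvd
    rw [key, hQ]
  rw [← h2] at h3
  have h4 : P.map (Int.castRingHom ℚ) ∣ Q.map (Int.castRingHom ℚ) :=
    (Dvd.intro _ rfl).trans h3
  rw [← key]
  have h5 : aeval z (P.map (Int.castRingHom ℚ)) = 0 := by rw [key, hz]
  exact eval₂_eq_zero_of_dvd_of_eval₂_eq_zero _ _ h4 h5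

/-- the `r`-th residue class of a word -/
def cls {m k : ℕ} (e : Fin (m * k) → Bool) (r : Fin k) : Fin m → Bool :=
  fun j => e (finProdFinEquiv (j, r))

lemma class_split {P : ℤ[X]} {k : ℕ} (hk : 0 < k) (hirr : Irreducible (expand ℤ k P)) {lam : ℝ}
    (hlam0 : lam ≠ 0) (hlam : aeval (lam ^ k) P = 0) {m : ℕ} {e e' : Fin (m * k) → Bool}
    (h : psum lam (m * k) e = psum lam (m * k) e') (r : Fin k) :
    psum (lam ^ k) m (cls e r) = psum (lam ^ k) m (cls e' r) := by
  classical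
  set D := dpoly e e' with hD
  have hD0 : aeval lam D = 0 := by
    have := aeval_dpoly e e' lam
    rw [h, sub_self] at this
    linarith only [this]
  have hPl : aeval lam (expand ℤ k P) = 0 := by rw [expand_aeval, hlam]
  -- the coefficients of the class polynomial
  set c : Fin k → ℝ := fun r => lam ^ (r : ℕ) *
    (psum (lam ^ k) m (cls e r) - psum (lam ^ k) m (cls e' r)) with hc
  set E : ℂ[X] := ∑ r : Fin k, C ((c r : ℝ) : ℂ) * X ^ (r : ℕ) with hE
  have hEdeg : E.natDegree < k := by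
    have : E.natDegree ≤ k - 1 := by
      rw [hE]
      refine natDegree_sum_le_of_forall_le _ _ fun i _ => ?_
      refine (natDegree_C_mul_X_pow_le _ _).trans ?_
      have := i.2
      omega
    omega
  have hEval : ∀ ζ ∈ nthRootsFinset k (1 : ℂ), E.eval ζ = 0 := by
    intro ζ hζ
    rw [mem_nthRootsFinset hk] at hζ
    set z : ℂ := (lam : ℂ) * ζ with hz
    have hz1 : aeval z (expand ℤ k P) = 0 := by
      rw [expand_aeval, hz, mul_pow, hζ, mul_one]
      have h1 : aeval ((algebraMap ℝ ℂ) (lam ^ k)) P = algebraMap ℝ ℂ (aeval (lam ^ k) P) :=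
        aeval_algebraMap_apply ℂ (lam ^ k) P
      rw [hlam, map_zero] at h1
      simpa only [Complex.coe_algebraMap, Complex.ofReal_pow] using h1
    have hz2 := eval_eq_zero_of hirr hPl hD0 hz1
    -- compute D at z
    have h2 : 2 * aeval z D = E.eval ζ := by
      rw [hD, hE, eval_finsetSum]
      unfold dpoly
      rw [map_sum, Finset.mul_sum, ← finProdFinEquiv.sum_comp, Fintype.sum_prod_type,
        Finset.sum_comm]
      refine Finset.sum_congr rfl fun r _ => ?_
      rw [eval_mul, eval_C, eval_pow, eval_X, hc]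
      simp only
      unfold psum
      rw [← Finset.sum_sub_distrib]
      push_cast
      rw [Finset.mul_sum, Finset.sum_mul]
      refine Finset.sum_congr rfl fun j _ => ?_
      have e1 : ((finProdFinEquiv (j, r) : Fin (m * k)) : ℕ) = r + k * j := rfl
      have e2 : ζ ^ ((r : ℕ) + k * j) = ζ ^ (r : ℕ) := by
        rw [pow_add, pow_mul, hζ, one_pow, mul_one]
      rw [map_mul, aeval_C, map_pow, aeval_X, e1, hz, mul_pow, e2]
      unfold cls sgn
      rw [pow_add, pow_mul]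
      rcases e (finProdFinEquiv (j, r)) with _ | _ <;>
        rcases e' (finProdFinEquiv (j, r)) with _ | _ <;> simp <;> ring
    rw [← h2, hz2, mul_zero]
  have hcard : (nthRootsFinset k (1 : ℂ)).card = k :=
    (Complex.isPrimitiveRoot_exp k hk.ne').card_nthRootsFinset
  have hE0 : E = 0 :=
    eq_zero_of_natDegree_lt_card_of_eval_eq_zero' E _ hEval (by rw [hcard]; exact hEdeg)
  have hcr : c r = 0 := by
    have h3 : E.coeff r = ((c r : ℝ) : ℂ) := by
      rw [hE, finsetSum_coeff]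
      simp_rw [coeff_C_mul, coeff_X_pow, mul_ite, mul_one, mul_zero]
      rw [Finset.sum_eq_single r]
      · simp
      · intro b _ hb
        rw [if_neg]
        intro h
        exact hb (Fin.ext h.symm)
      · intro h; exact absurd (Finset.mem_univ _) h
    rw [hE0, coeff_zero] at h3
    exact_mod_cast h3.symm
  have h4 : lam ^ (r : ℕ) ≠ 0 := pow_ne_zero _ hlam0
  rw [hc] at hcr
  simp only [mul_eq_zero, h4, false_or] at hcr
  exact sub_eq_zero.mp hcr

lemma coinc_eq_card {ι : Type*} [Fintype ι] (X : ι → ℝ) :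
    coinc X = (Finset.univ.filter fun p : ι × ι => X p.2 = X p.1).card := by
  classical
  rw [Finset.card_filter, Fintype.sum_prod_type]
  unfold coinc
  refine Finset.sum_congr rfl fun s _ => ?_
  rw [Finset.card_filter]

lemma coll_power_le {P : ℤ[X]} {k : ℕ} (hk : 0 < k) (hirr : Irreducible (expand ℤ k P)) {lam : ℝ}
    (hlam0 : lam ≠ 0) (hlam : aeval (lam ^ k) P = 0) (m : ℕ) :
    coll lam (m * k) ≤ (coll (lam ^ k) m) ^ k := by
  classical
  unfold coll
  rw [coinc_eq_card, coinc_eq_card]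
  set S := Finset.univ.filter fun p : (Fin m → Bool) × (Fin m → Bool) =>
    psum (lam ^ k) m p.2 = psum (lam ^ k) m p.1 with hS
  have h1 : S.card ^ k = (Fintype.piFinset (fun _ : Fin k => S)).card := by
    rw [Fintype.card_piFinset]
    simp only [Finset.prod_const, Finset.card_univ, Fintype.card_fin]
  rw [h1]
  refine Finset.card_le_card_of_injOn
    (fun p r => (cls p.1 r, cls p.2 r)) ?_ ?_
  · intro p hp
    rw [Finset.mem_coe, Finset.mem_filter] at hp
    rw [Finset.mem_coe, Fintype.mem_piFinset]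
    intro r
    rw [hS, Finset.mem_filter]
    exact ⟨Finset.mem_univ _, class_split hk hirr hlam0 hlam hp.2 r⟩
  · rintro ⟨a, b⟩ _ ⟨a', b'⟩ _ h
    have h2 : ∀ r j, a (finProdFinEquiv (j, r)) = a' (finProdFinEquiv (j, r)) ∧
        b (finProdFinEquiv (j, r)) = b' (finProdFinEquiv (j, r)) := by
      intro r j
      have h3 := congrFun h r
      simp only [Prod.mk.injEq] at h3
      exact ⟨congrFun h3.1 j, congrFun h3.2 j⟩
    rw [Prod.mk.injEq]
    constructor
    · ext i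
      obtain ⟨⟨j, r⟩, rfl⟩ := finProdFinEquiv.surjective i
      rw [(h2 r j).1]
    · ext i
      obtain ⟨⟨j, r⟩, rfl⟩ := finProdFinEquiv.surjective i
      rw [(h2 r j).2]

/-- collision rate of `lam` from that of `lam ^ k` -/
lemma coll_power_bound {P : ℤ[X]} {k : ℕ} (hk : 0 < k) (hirr : Irreducible (expand ℤ k P))
    {lam : ℝ} (hlam0 : lam ≠ 0) (hlam : aeval (lam ^ k) P = 0) {A ρ : ℝ} (hA : 1 ≤ A) (hρ : 1 ≤ ρ)
    (h : ∀ m, (coll (lam ^ k) m : ℝ) ≤ A * ρ ^ m) (n : ℕ) :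
    (coll lam n : ℝ) ≤ (4 * A) ^ k * ρ ^ n := by
  have hn : n = n / k * k + n % k := (Nat.div_add_mod' n k).symm
  have h1 : coll lam n ≤ 4 ^ (n % k) * (coll (lam ^ k) (n / k)) ^ k := by
    conv_lhs => rw [hn]
    refine (coll_add_le lam _ _).trans ?_
    exact Nat.mul_le_mul_left _ (coll_power_le hk hirr hlam0 hlam _)
  have h2 : (coll lam n : ℝ) ≤ 4 ^ (n % k) * ((coll (lam ^ k) (n / k) : ℕ) : ℝ) ^ k := by
    exact_mod_cast h1
  calc (coll lam n : ℝ) ≤ 4 ^ (n % k) * ((coll (lam ^ k) (n / k) : ℕ) : ℝ) ^ k := h2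
    _ ≤ 4 ^ k * (A * ρ ^ (n / k)) ^ k := by
        gcongr
        · norm_num
        · exact (Nat.mod_lt n hk).le
        · exact h _
    _ = (4 * A) ^ k * ρ ^ (n / k * k) := by
        rw [mul_pow, mul_pow, ← pow_mul, mul_assoc]
    _ ≤ (4 * A) ^ k * ρ ^ n :=
        mul_le_mul_of_nonneg_left (pow_le_pow_right₀ hρ (Nat.div_mul_le_self n k)) (by (clear * - hA; positivity))

/-- absolute continuity from a collision rate and a polynomial -/
theorem bern_ac_coll {lam ρ C₀ : ℝ} (h0 : 0 < lam) (h1 : lam < 1) {P : ℤ[X]} (hP : P ≠ 0)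
    (hlam : aeval lam P = 0) (hρ : 0 < ρ) (hC : 0 < C₀) (h : ∀ n, (coll lam n : ℝ) ≤ C₀ * ρ ^ n)
    (hcond : 6 * exp 1 * (-log lam) * (log (mahler P) - log (4 / ρ)) * log (mahler P) ^ 2 <
      (1 - lam ^ 2) * (log (mahler P) + log lam) ^ 3) :
    bernConv lam ≪ volume := by
  refine bern_ac_gen h0 h1 (fun _ hε => sep_mahler hP hlam hε) (fun ε hε => ?_) hcond
  have hev : ∀ᶠ n : ℕ in atTop, log C₀ ≤ ε * n := by
    have : Tendsto (fun n : ℕ => ε * (n : ℝ)) atTop atTop :=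
      tendsto_natCast_atTop_atTop.const_mul_atTop hε
    exact this.eventually_ge_atTop _
  filter_upwards [hev] with n hn
  refine le_trans ?_ (psumEntropy_ge_coll lam n)
  have hc0 : (0 : ℝ) < coll lam n := by exact_mod_cast coinc_pos (psum lam n)
  have h2 := log_le_log hc0 (h n)
  rw [log_mul hC.ne' (by (clear * - hρ; positivity)), log_pow] at h2
  rw [log_div (by norm_num) hρ.ne']
  linarith only [hn, h2]

end Vale.Agent.P105
end
end

section

section

open MeasureTheory Real Filter Topology Polynomial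
open scoped ENNReal

namespace Vale.Agent.P105

lemma circleMap_pow (θ : ℝ) (k : ℕ) : (circleMap 0 1 θ) ^ k = circleMap 0 1 (k * θ) := by
  simp only [circleMap, Complex.ofReal_one, one_mul, zero_add]
  rw [← Complex.exp_nat_mul]
  congr 1
  push_cast
  ring

lemma mahlerMeasure_expand (p : ℂ[X]) {k : ℕ} (hk : 0 < k) :
    (expand ℂ k p).mahlerMeasure = p.mahlerMeasure := by
  by_cases hp : p = 0
  · simp [hp]
  have hp' : expand ℂ k p ≠ 0 := (expand_ne_zero hk).mpr hp
  rw [mahlerMeasure_def_of_ne_zero hp, mahlerMeasure_def_of_ne_zero hp']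
  congr 2
  set f : ℝ → ℝ := fun x => log ‖eval (circleMap 0 1 x) p‖ with hf
  have hper : Function.Periodic f (2 * π) := by
    intro x
    rw [hf]
    simp only
    rw [periodic_circleMap 0 1 x]
  have hint : ∀ t₁ t₂, IntervalIntegrable f volume t₁ t₂ :=
    fun t₁ t₂ => hper.intervalIntegrable₀ (by positivity) (intervalIntegrable_mahlerMeasure p) t₁ t₂
  have h1 : ∀ x : ℝ, log ‖eval (circleMap 0 1 x) (expand ℂ k p)‖ = f (k * x) := by
    intro x
    rw [expand_eval, circleMap_pow]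
  simp_rw [h1]
  have hk0 : (k : ℝ) ≠ 0 := by positivity
  rw [intervalIntegral.integral_comp_mul_left f hk0]
  have h2 := hper.intervalIntegral_add_zsmul_eq (k : ℤ) 0 hint
  simp only [zero_add, zsmul_eq_mul, Int.cast_natCast] at h2
  rw [mul_zero, h2, smul_eq_mul, ← mul_assoc, inv_mul_cancel₀ hk0, one_mul]

lemma mahler_expand (P : ℤ[X]) {k : ℕ} (hk : 0 < k) : mahler (expand ℤ k P) = mahler P := by
  unfold mahler
  rw [map_expand, mahlerMeasure_expand _ hk]

end Vale.Agent.P105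
end
end

section

section

open MeasureTheory Real Filter Topology Polynomial
open scoped ENNReal goldenRatio

namespace Vale.Agent.P105

/-- transfer recursion for the differences in the golden mean ring -/
def gF : ℕ → ℤ → ℤ → ℕ
  | 0, A, B => if A = 0 ∧ B = 0 then 1 else 0
  | n + 1, A, B => 2 * gF n (B - A) A + gF n (B - A - 1) A + gF n (B - A + 1) A

lemma gF_zero (A B : ℤ) : gF 0 A B = if A = 0 ∧ B = 0 then 1 else 0 := rfl

lemma gF_succ (n : ℕ) (A B : ℤ) :
    gF (n + 1) A B = 2 * gF n (B - A) A + gF n (B - A - 1) A + gF n (B - A + 1) A := rfl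

lemma golden_inv_mul (A B : ℤ) :
    φ⁻¹ * (A + B * φ) = ((B - A : ℤ) : ℝ) + A * φ := by
  rw [inv_goldenRatio]
  have h1 := goldenRatio_add_goldenConj
  have h2 := goldenRatio_mul_goldenConj
  have h3 : ψ = 1 - φ := by linarith only [h1]
  rw [h3] at h2 ⊢
  push_cast
  linear_combination (-(B : ℝ)) * h2

lemma golden_eq_zero {A B : ℤ} (h : (A : ℝ) + B * φ = 0) : A = 0 ∧ B = 0 := by
  by_cases hB : B = 0
  · rw [hB] at h ⊢
    simp only [Int.cast_zero, zero_mul, add_zero, Int.cast_eq_zero] at h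
    exact ⟨h, rfl⟩
  · exfalso
    have hB' : (B : ℝ) ≠ 0 := by exact_mod_cast hB
    have h1 : φ = ((-A / B : ℚ) : ℝ) := by
      push_cast
      rw [eq_div_iff hB']
      linarith only [h]
    exact goldenRatio_irrational ⟨_, h1.symm⟩

lemma collAt_golden (n : ℕ) : ∀ A B : ℤ,
    collAt (φ⁻¹) n (2 * (φ⁻¹) ^ n * (A + B * φ)) = gF n A B := by
  induction n with
  | zero =>
    intro A B
    rw [gF_zero]
    unfold collAt psum
    by_cases h : A = 0 ∧ B = 0
    · rw [if_pos h, h.1, h.2]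
      simp only [Finset.univ_unique, Finset.univ_eq_empty, inv_div, Finset.sum_empty, sub_self, pow_zero, mul_one, Int.cast_zero, zero_mul, add_zero, mul_zero, Finset.filter_true, Finset.card_singleton, Finset.sum_const, smul_eq_mul]
    · rw [if_neg h]
      have h2 : (A : ℝ) + B * φ ≠ 0 := fun h3 => h (golden_eq_zero h3)
      simp only [Finset.univ_unique, Finset.univ_eq_empty, inv_div, Finset.sum_empty, sub_self, pow_zero, mul_one, zero_eq_mul, OfNat.ofNat_ne_zero, false_or, Finset.filter_const, Finset.sum_const, Finset.card_singleton, smul_eq_mul, one_mul, Finset.card_eq_zero, ite_eq_right_iff, Finset.singleton_ne_empty, imp_false, ne_eq]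
      exact h2
  | succ n ih =>
    intro A B
    rw [collAt_succ, gF_succ]
    have e1 : 2 * (φ⁻¹) ^ (n + 1) * (A + B * φ) =
        2 * (φ⁻¹) ^ n * (((B - A : ℤ) : ℝ) + (A : ℤ) * φ) := by
      rw [pow_succ, ← golden_inv_mul]; ring
    have e2 : 2 * (φ⁻¹) ^ (n + 1) * (A + B * φ) - 2 * (φ⁻¹) ^ n =
        2 * (φ⁻¹) ^ n * (((B - A - 1 : ℤ) : ℝ) + (A : ℤ) * φ) := by
      rw [e1]; push_cast; ring
    have e3 : 2 * (φ⁻¹) ^ (n + 1) * (A + B * φ) + 2 * (φ⁻¹) ^ n =
        2 * (φ⁻¹) ^ n * (((B - A + 1 : ℤ) : ℝ) + (A : ℤ) * φ) := by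
      rw [e1]; push_cast; ring
    rw [e2, e3, e1, ih, ih, ih]

lemma gF_conj {n : ℕ} : ∀ {A B : ℤ}, gF n A B ≠ 0 → |(A : ℝ) + B * ψ| < φ := by
  have h1 := goldenRatio_add_goldenConj
  have h2 := goldenRatio_mul_goldenConj
  have h3 := goldenRatio_pos
  have h4 := goldenConj_neg
  induction n with
  | zero =>
    intro A B h
    rw [gF_zero] at h
    by_cases h' : A = 0 ∧ B = 0
    · rw [h'.1, h'.2]
      simpa only [Int.cast_zero, zero_mul, add_zero, abs_zero, Nat.ofNat_pos, div_pos_iff_of_pos_right] using h3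
    · rw [if_neg h'] at h
      exact absurd rfl h
  | succ n ih =>
    intro A B h
    rw [gF_succ] at h
    have key : ∀ j : ℤ, |(j : ℝ)| ≤ 1 → gF n (B - A + j) A ≠ 0 → |(A : ℝ) + B * ψ| < φ := by
      intro j hj hne
      have h5 := ih hne
      push_cast at h5
      have e1 : (A : ℝ) + B * ψ = ψ * (((B : ℝ) - A + j + A * ψ) - j) := by
        have h6 : ψ ^ 2 = ψ + 1 := goldenConj_sq
        have : ψ * (((B : ℝ) - A + j + A * ψ) - j) = B * ψ - A * ψ + A * ψ ^ 2 := by ring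
        rw [this, h6]; ring
      rw [e1, abs_mul]
      have h7 : |((B : ℝ) - A + j + A * ψ) - j| < φ + 1 := by
        calc |((B : ℝ) - A + j + A * ψ) - j| ≤ |((B : ℝ) - A + j + A * ψ)| + |(j : ℝ)| :=
              abs_sub _ _
          _ < φ + 1 := by linarith only [hj, h5]
      have h8 : |ψ| = -ψ := abs_of_neg h4
      rw [h8]
      calc -ψ * |((B : ℝ) - A + j + A * ψ) - j| < -ψ * (φ + 1) := by
            apply mul_lt_mul_of_pos_left h7; linarith only [h4]
        _ = φ := by linarith only [h1, h2]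
    have h9 : gF n (B - A) A ≠ 0 ∨ gF n (B - A - 1) A ≠ 0 ∨ gF n (B - A + 1) A ≠ 0 := by
      by_contra hcon
      push Not at hcon
      apply h
      rw [hcon.1, hcon.2.1, hcon.2.2]
    rcases h9 with h9 | h9 | h9
    · exact key 0 (by simp only [Int.cast_zero, abs_zero, zero_le_one]) (by simpa using h9)
    · exact key (-1) (by simp only [Int.reduceNeg, Int.cast_neg, Int.cast_one, abs_neg, abs_one, Std.le_refl]) (by simpa only [sub_eq_add_neg, Int.reduceNeg, ne_eq] using h9)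
    · exact key 1 (by simp only [Int.cast_one, abs_one, Std.le_refl]) h9

lemma gF_eq_zero {n : ℕ} {A B : ℤ} (h : φ ≤ |(A : ℝ) + B * ψ|) : gF n A B = 0 := by
  by_contra hne
  exact absurd (gF_conj hne) (not_lt.mpr h)

lemma psi_bounds : -0.6181 < ψ ∧ ψ < -0.6180 := by
  have h5 : √5 < 2.2361 := by
    rw [sqrt_lt' (by norm_num1)]; norm_num1
  have h6 : 2.2360 < √5 := by
    rw [lt_sqrt (by norm_num)]; norm_num
  unfold goldenConj
  constructor <;> linarith only [h5, h6]

lemma phi_bounds : 1.6180 < φ ∧ φ < 1.61804 := by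
  have h5 : √5 < 2.23607 := by
    rw [sqrt_lt' (by norm_num1)]; norm_num1
  have h6 : 2.2360 < √5 := by
    rw [lt_sqrt (by norm_num)]; norm_num
  unfold goldenRatio
  constructor <;> linarith only [h5, h6]

lemma gF_bound (n : ℕ) : (gF n 0 0 : ℝ) ≤ 83 / 20 * (497 / 200) ^ n ∧
    (gF n 0 1 : ℝ) ≤ 497 / 200 * (497 / 200) ^ n ∧ (gF n 0 (-1) : ℝ) ≤ 497 / 200 * (497 / 200) ^ n ∧
    (gF n 1 0 : ℝ) ≤ (497 / 200) ^ n ∧ (gF n (-1) 0 : ℝ) ≤ (497 / 200) ^ n := by
  obtain ⟨p1, p2⟩ := psi_bounds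
  obtain ⟨q1, q2⟩ := phi_bounds
  have hadd := goldenRatio_add_goldenConj
  induction n with
  | zero => simp only [gF_zero, and_self, ↓reduceIte, Nat.cast_one, pow_zero, mul_one, one_ne_zero, and_false, CharP.cast_eq_zero, Int.reduceNeg, neg_eq_zero, and_true, zero_le_one]; norm_num
  | succ n ih =>
    obtain ⟨i1, i2, i3, i4, i5⟩ := ih
    have z1 : gF n 2 0 = 0 := gF_eq_zero (by
      simp only [Int.cast_zero, zero_mul, add_zero]; norm_num1; linarith only [q2])
    have z2 : gF n (-2) 0 = 0 := gF_eq_zero (by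
      simp only [Int.cast_zero, zero_mul, add_zero]; norm_num1; linarith only [q2])
    have z3 : gF n (-1) 1 = 0 := gF_eq_zero (by
      push_cast
      rw [abs_of_neg (by linarith only [p2])]
      linarith only [hadd])
    have z4 : gF n (-2) 1 = 0 := gF_eq_zero (by
      push_cast
      rw [abs_of_neg (by linarith only [p2])]
      linarith only [p2, q2])
    have z5 : gF n 1 (-1) = 0 := gF_eq_zero (by
      push_cast
      rw [abs_of_pos (by linarith only [p2])]
      linarith only [hadd])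
    have z6 : gF n 2 (-1) = 0 := gF_eq_zero (by
      push_cast
      rw [abs_of_pos (by linarith only [p2])]
      linarith only [p2, q2])
    have hp : (0 : ℝ) < (497 / 200) ^ n := by positivity
    refine ⟨?_, ?_, ?_, ?_, ?_⟩
    · rw [gF_succ]
      norm_num
      rw [pow_succ]
      linarith only [i1, i4, i5]
    · rw [gF_succ]
      norm_num
      rw [z1, pow_succ]
      push_cast
      linarith only [i1, i4]
    · rw [gF_succ]
      norm_num
      rw [z2, pow_succ]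
      push_cast
      linarith only [i1, i5]
    · rw [gF_succ]
      norm_num
      rw [z3, z4, pow_succ]
      push_cast
      linarith only [i2]
    · rw [gF_succ]
      norm_num
      rw [z5, z6, pow_succ]
      push_cast
      linarith only [i3]

lemma coll_golden (n : ℕ) : (coll (φ⁻¹) n : ℝ) ≤ 83 / 20 * (497 / 200) ^ n := by
  have h := collAt_golden n 0 0
  simp only [Int.cast_zero, zero_mul, add_zero, mul_zero] at h
  rw [← collAt_zero, h]
  exact (gF_bound n).1

end Vale.Agent.P105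
end
end

section

section

open MeasureTheory Real Filter Topology Polynomial
open scoped ENNReal goldenRatio

namespace Vale.Agent.P105

/-- the minimal polynomial of the inverse golden ratio -/
noncomputable def goldP : ℤ[X] := X ^ 2 + X - 1

lemma goldP_map : goldP.map (Int.castRingHom ℂ) =
    (X - C ((φ⁻¹ : ℝ) : ℂ)) * (X + C ((φ : ℝ) : ℂ)) := by
  have h1 : (φ : ℂ) - ((φ⁻¹ : ℝ) : ℂ) = 1 := by
    rw [inv_goldenRatio]
    have := goldenRatio_add_goldenConj
    rw [← Complex.ofReal_sub]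
    norm_cast
    linarith only [this]
  have h2 : ((φ⁻¹ : ℝ) : ℂ) * (φ : ℂ) = 1 := by
    rw [← Complex.ofReal_mul, inv_mul_cancel₀ goldenRatio_ne_zero, Complex.ofReal_one]
  have e1 : C ((φ : ℝ) : ℂ) - C ((φ⁻¹ : ℝ) : ℂ) = (1 : ℂ[X]) := by
    rw [← C_sub, h1, C_1]
  have e2 : C ((φ⁻¹ : ℝ) : ℂ) * C ((φ : ℝ) : ℂ) = (1 : ℂ[X]) := by
    rw [← C_mul, h2, C_1]
  unfold goldP
  rw [Polynomial.map_sub, Polynomial.map_add, Polynomial.map_pow, Polynomial.map_X,
    Polynomial.map_one]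
  linear_combination (-X) * e1 + e2

lemma mahler_goldP : mahler goldP = φ := by
  unfold mahler
  rw [goldP_map, mahlerMeasure_mul, mahlerMeasure_X_sub_C, mahlerMeasure_X_add_C]
  have h1 := one_lt_goldenRatio
  rw [Complex.norm_real, Complex.norm_real, norm_of_nonneg (by positivity),
    norm_of_nonneg (by positivity), max_eq_left (inv_le_one_of_one_le₀ h1.le), max_eq_right h1.le,
    one_mul]

lemma goldP_expand (k : ℕ) : expand ℤ k goldP = trinomial 0 k (2 * k) (-1) 1 1 := by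
  unfold goldP
  rw [trinomial_def]
  simp only [map_sub, map_add, map_pow, expand_X, map_one, pow_zero, mul_one, C_neg, one_mul]
  rw [← pow_mul]
  ring_nf

lemma irreducible_goldP_expand {k : ℕ} (hk : 0 < k) : Irreducible (expand ℤ k goldP) := by
  rw [goldP_expand]
  have h1 : k < 2 * k := by omega
  apply IsUnitTrinomial.irreducible_of_coprime' ⟨0, k, 2 * k, hk, h1, -1, 1, 1, rfl⟩
  rintro z ⟨h2, h3⟩
  rw [trinomial_mirror hk h1 (-1 : ℤˣ).ne_zero (1 : ℤˣ).ne_zero] at h3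
  simp_rw [trinomial, aeval_add, aeval_mul, aeval_X_pow, aeval_C] at h2 h3
  have e1 : 2 * k - k + 0 = k := by omega
  rw [e1] at h3
  simp only [Units.val_neg, Units.val_one, map_neg, map_one, pow_zero, mul_one, one_mul] at h2 h3
  have h4 : z ^ k = 0 := by linear_combination (1 / 2 : ℂ) * h2 + (1 / 2 : ℂ) * h3
  rw [h4] at h2
  have h5 : z ^ (2 * k) = 0 := by rw [mul_comm, pow_mul, h4]; ring
  rw [h5] at h2
  norm_num at h2

/-- **Roots of the inverse golden ratio.** -/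
theorem golden_root_ac {k : ℕ} (hk : 2 ≤ k) : bernConv (φ⁻¹ ^ (1 / k : ℝ)) ≪ volume := by
  set lam : ℝ := φ⁻¹ ^ (1 / k : ℝ) with hlam
  have hφ1 := one_lt_goldenRatio
  have hφ0 : 0 < φ := goldenRatio_pos
  have hk0 : (0 : ℝ) < k := by positivity
  have hinv0 : 0 < φ⁻¹ := by positivity
  have hinv1 : φ⁻¹ < 1 := inv_lt_one_of_one_lt₀ hφ1
  have h0 : 0 < lam := rpow_pos_of_pos hinv0 _
  have h1 : lam < 1 := rpow_lt_one hinv0.le hinv1 (by positivity)
  have hpow : lam ^ k = φ⁻¹ := by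
    rw [hlam, ← rpow_natCast, ← rpow_mul hinv0.le, one_div, inv_mul_cancel₀ hk0.ne', rpow_one]
  have hroot : aeval (lam ^ k) goldP = 0 := by
    rw [hpow, inv_goldenRatio]
    unfold goldP
    simp only [map_sub, map_add, map_pow, aeval_X, map_one]
    have := goldenConj_sq
    linear_combination this
  have hroot' : aeval lam (expand ℤ k goldP) = 0 := by rw [expand_aeval, hroot]
  have hirr := irreducible_goldP_expand (k := k) (by omega)
  have hcoll := coll_power_bound (P := goldP) (k := k) (by omega) hirr h0.ne' hroot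
    (A := 83 / 20) (ρ := 497 / 200) (by norm_num) (by norm_num) (by
      intro m
      rw [hpow]
      exact coll_golden m)
  refine bern_ac_coll h0 h1 hirr.ne_zero hroot' (by norm_num) (by positivity) hcoll ?_
  rw [mahler_expand _ (by omega), mahler_goldP]
  set L := log φ with hL
  have hL0 : 0 < L := log_pos hφ1
  set x : ℝ := 1 / k with hx
  have hx0 : 0 < x := by positivity
  have hx1 : x ≤ 1 / 2 := by
    rw [hx]
    have : (2 : ℝ) ≤ k := by exact_mod_cast hk
    exact one_div_le_one_div_of_le (by norm_num) this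
  have hloglam : log lam = -(x * L) := by
    rw [hlam, log_rpow hinv0, log_inv]; ring
  rw [hloglam, neg_neg]
  have hδ : L - log (4 / (497 / 200)) ≤ 0.0053 := by
    rw [hL, ← log_div hφ0.ne' (by norm_num1)]
    have := log_le_sub_one_of_pos (show 0 < φ / (4 / (497 / 200)) by positivity)
    have h2 := phi_bounds.2
    linarith only [this, h2]
  have hlam2 : 2 * x * (1 - φ⁻¹) ≤ 1 - lam ^ 2 := by
    have e1 : lam ^ 2 = (1 + (φ⁻¹ - 1)) ^ (2 * x) := by
      rw [hlam, ← rpow_natCast, ← rpow_mul hinv0.le]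
      congr 1
      · ring
      · push_cast; ring
    have h2 := rpow_one_add_le_one_add_mul_self (s := φ⁻¹ - 1) (p := 2 * x)
      (by linarith only [hinv0]) (by positivity) (by linarith only [hx1])
    rw [e1]
    linarith only [h2]
  have hphi : 0.38 ≤ 1 - φ⁻¹ := by
    rw [inv_goldenRatio]
    have := psi_bounds.1
    linarith only [this]
  have he := exp_one_lt_d9
  have he0 := exp_pos (1 : ℝ)
  have hcube : (1 / 8 : ℝ) ≤ (1 - x) ^ 3 := by
    have : (1 / 2 : ℝ) ≤ 1 - x := by linarith only [hx1]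
    calc (1 / 8 : ℝ) = (1 / 2) ^ 3 := by norm_num
      _ ≤ _ := by (clear * - this; gcongr)
  have hxL : 0 < x * L ^ 3 := by (clear * - hk hL0; (clear * - hk hL0; positivity))
  calc 6 * exp 1 * (x * L) * (L - log (4 / (497 / 200))) * L ^ 2
      = (6 * exp 1) * (L - log (4 / (497 / 200))) * (x * L ^ 3) := by ring
    _ ≤ (6 * 2.7182818286) * 0.0053 * (x * L ^ 3) := by
        apply mul_le_mul_of_nonneg_right _ hxL.le
        by_cases hneg : L - log (4 / (497 / 200)) ≤ 0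
        · nlinarith only [he, hδ, he0]
        · push Not at hneg
          (clear * - he hδ hneg; gcongr)
    _ < (2 * 0.38 * (1 / 8)) * (x * L ^ 3) := by
        apply mul_lt_mul_of_pos_right _ hxL
        norm_num1
    _ ≤ (2 * (1 - φ⁻¹) * (1 - x) ^ 3) * (x * L ^ 3) := by
        (clear * - hphi hcube hinv1 hk hL0; gcongr)
    _ = (2 * x * (1 - φ⁻¹)) * (L + -(x * L)) ^ 3 := by ring
    _ ≤ (1 - lam ^ 2) * (L + -(x * L)) ^ 3 := by
        apply mul_le_mul_of_nonneg_right hlam2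
        have : 0 ≤ L + -(x * L) := by nlinarith only [hL0, hx1]
        (clear * - this; positivity)

end Vale.Agent.P105
end
end

section

section

open MeasureTheory Real Filter Topology Polynomial
open scoped ENNReal

namespace Vale.Agent.P105

/-- the threshold function is positive -/
lemma Phi_pos {s : ℝ} (hs : 0 < s) (hs1 : s < 1) : 0 < 1 - s ^ 2 + 2 * s * log s := by
  have ht : 0 < -log s := by have := log_neg hs hs1; linarith
  have h := self_lt_sinh_iff.mpr ht
  rw [sinh_eq, neg_neg, exp_neg, exp_log hs] at h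
  have h2 := mul_lt_mul_of_pos_left h (show (0 : ℝ) < 2 * s by positivity)
  have h3 : 2 * s * ((s⁻¹ - s) / 2) = 1 - s ^ 2 := by
    (clear * - hs; field_simp)
  rw [h3] at h2
  linarith only [h2]

lemma bern_core2 {lam θ θ' δ : ℝ} (h0 : 0 < lam) (h1 : lam < 1) (hθ : -log lam < θ) (hδ : 0 ≤ δ)
    (hθ' : θ' < θ)
    (hcond : 2 * exp 1 * (-log lam) * δ / ((1 - lam ^ 2) * θ) <
      1 - (-log lam / θ) ^ 2 + 2 * (-log lam / θ) * log (-log lam / θ))
    (hsep : ∀ᶠ n : ℕ in atTop, ∀ e e' : Fin n → Bool, psum lam n e ≠ psum lam n e' →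
      exp (-θ' * n) ≤ |psum lam n e - psum lam n e'|)
    (hsh : ∀ᶠ n : ℕ in atTop, (θ - δ) * n ≤ psumEntropy lam n) : bernConv lam ≪ volume := by
  have := isProbabilityMeasure_bernConv h0 h1
  exact core2 h0 h1 (ae_pm h0 h1) (bernConv_self h0 h1) hθ hδ hcond (ent_pm_ge h0 h1 hθ' hsep hsh)

/-- The general criterion, in terms of separation and entropy (sharp form). -/
theorem bern_ac_gen2 {lam m h : ℝ} (h0 : 0 < lam) (h1 : lam < 1)
    (hsep : ∀ ε > 0, ∀ᶠ n : ℕ in atTop, ∀ e e' : Fin n → Bool, psum lam n e ≠ psum lam n e' →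
      exp (-(m + ε) * n) ≤ |psum lam n e - psum lam n e'|)
    (hsh : ∀ ε > 0, ∀ᶠ n : ℕ in atTop, (h - ε) * n ≤ psumEntropy lam n)
    (hcond : 2 * exp 1 * (-log lam) * (m - h) / ((1 - lam ^ 2) * m) <
      1 - (-log lam / m) ^ 2 + 2 * (-log lam / m) * log (-log lam / m)) :
    bernConv lam ≪ volume := by
  have hm := le_of_sep h0 hsep
  have hlog : 0 < -log lam := by have := log_neg h0 h1; linarith only [this]
  have hm0 : 0 < m := hlog.trans_le hm
  have hlam2 : 0 < 1 - lam ^ 2 := by nlinarith only [h1, h0]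
  rcases lt_or_ge m h with hmh | hmh
  · -- the entropy is larger than the separation rate
    set ε := (h - m) / 4 with hε
    have hε0 : 0 < ε := by rw [hε]; linarith only [hmh]
    refine bern_core2 (θ := m + 2 * ε) (θ' := m + ε) (δ := 0) h0 h1 (by linarith only [hm, hε0]) le_rfl
      (by linarith only [hε0]) ?_ ?_ ?_
    · rw [mul_zero, zero_div]
      apply Phi_pos
      · apply div_pos hlog; linarith only [hm, hlog, hε0]
      · rw [div_lt_one (by linarith only [hm, hlog, hε0])]; linarith only [hm, hε0]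
    · filter_upwards [hsep ε hε0] with n hn e e' hee
      exact hn e e' hee
    · filter_upwards [hsh ε hε0] with n hn
      refine le_trans ?_ hn
      have h3 : (0 : ℝ) ≤ n := Nat.cast_nonneg n
      have h4 : m + 2 * ε - 0 ≤ h - ε := by rw [hε]; linarith only [hmh]
      exact mul_le_mul_of_nonneg_right h4 h3
  · -- the main case
    have hcont : ContinuousAt (fun ε : ℝ => (1 - (-log lam / (m + 2 * ε)) ^ 2 +
        2 * (-log lam / (m + 2 * ε)) * log (-log lam / (m + 2 * ε))) -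
        2 * exp 1 * (-log lam) * (m - h + 3 * ε) / ((1 - lam ^ 2) * (m + 2 * ε))) 0 := by
      have e1 : m + 2 * 0 ≠ 0 := by rw [mul_zero, add_zero]; exact hm0.ne'
      have e2 : (1 - lam ^ 2) * (m + 2 * 0) ≠ 0 := mul_ne_zero hlam2.ne' e1
      have e3 : -log lam / (m + 2 * 0) ≠ 0 := div_ne_zero hlog.ne' e1
      (clear * - e1 e3 e2; fun_prop (disch := assumption))
    have hpos : 0 < (fun ε : ℝ => (1 - (-log lam / (m + 2 * ε)) ^ 2 +
        2 * (-log lam / (m + 2 * ε)) * log (-log lam / (m + 2 * ε))) -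
        2 * exp 1 * (-log lam) * (m - h + 3 * ε) / ((1 - lam ^ 2) * (m + 2 * ε))) 0 := by
      simp only [mul_zero, add_zero]
      linarith
    have hev := hcont.tendsto.eventually (lt_mem_nhds hpos)
    have hev2 := hev.filter_mono (nhdsWithin_le_nhds (s := Set.Ioi 0))
    obtain ⟨ε, hε1, hε0⟩ := (hev2.and self_mem_nhdsWithin).exists
    have hε0 : 0 < ε := hε0
    refine bern_core2 (θ := m + 2 * ε) (θ' := m + ε) (δ := m - h + 3 * ε) h0 h1 (by (clear h h1 hsh hcond hlog hm0 hlam2 hmh hcont hpos hev hev2 hε1 hε0; linarith))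
      (by (clear lam h0 h1 hsep hsh hcond hm hlog hm0 hlam2 hcont hpos hev hev2 hε1 hε0; linarith)) (by (clear lam h h0 h1 hsep hsh hcond hm hlog hm0 hlam2 hmh hcont hpos hev hev2 hε1 hε0; linarith)) (by linarith only [hε1]) ?_ ?_
    · filter_upwards [hsep ε hε0] with n hn e e' hee
      exact hn e e' hee
    · filter_upwards [hsh ε hε0] with n hn
      refine le_trans (le_of_eq ?_) hn
      ring

/-- entropy from collisions -/
lemma entropy_ev_coll {lam ρ C₀ : ℝ} (hρ : 0 < ρ) (hC : 0 < C₀)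
    (h : ∀ n, (coll lam n : ℝ) ≤ C₀ * ρ ^ n) {ε : ℝ} (hε : 0 < ε) :
    ∀ᶠ n : ℕ in atTop, (log (4 / ρ) - ε) * n ≤ psumEntropy lam n := by
  have hev : ∀ᶠ n : ℕ in atTop, log C₀ ≤ ε * n := by
    have : Tendsto (fun n : ℕ => ε * (n : ℝ)) atTop atTop :=
      tendsto_natCast_atTop_atTop.const_mul_atTop hε
    exact this.eventually_ge_atTop _
  filter_upwards [hev] with n hn
  refine le_trans ?_ (psumEntropy_ge_coll lam n)
  have hc0 : (0 : ℝ) < coll lam n := by exact_mod_cast coinc_pos (psum lam n)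
  have h2 := log_le_log hc0 (h n)
  rw [log_mul hC.ne' (by positivity), log_pow] at h2
  rw [log_div (by norm_num) hρ.ne']
  linarith only [hn, h2]

end Vale.Agent.P105
end
end

section

section

open Real Polynomial Filter Topology

namespace Vale.Agent.P105

/-- output polynomial of the elementary lossless system with pole `μ` -/
noncomputable def outP (μ : ℂ) (D : ℂ[X]) : ℂ[X] :=
  (C ((starRingEnd ℂ) μ) * X - 1) * (D /ₘ (X - C μ)) + C ((starRingEnd ℂ) μ * D.eval μ)

/-- energy of the state of the cascade -/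
noncomputable def enQ : List ℂ → ℂ[X] → ℝ
  | [], _ => 0
  | μ :: L, D => (‖μ‖ ^ 2 - 1) * ‖D.eval μ‖ ^ 2 + enQ L (outP μ D)

/-- output of the cascade with zero input -/
noncomputable def outF : List ℂ → ℂ[X] → ℂ
  | [], _ => 0
  | μ :: L, D => outF L (outP μ D) +
      (L.map (starRingEnd ℂ)).prod * ((((‖μ‖ ^ 2 - 1 : ℝ) : ℂ)) * D.eval μ)

lemma divX (μ x : ℂ) (D : ℂ[X]) :
    (X * D + C x) /ₘ (X - C μ) = X * (D /ₘ (X - C μ)) + C (D.eval μ) := by
  have hD : D = (X - C μ) * (D /ₘ (X - C μ)) + C (D.eval μ) := by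
    conv_lhs => rw [← modByMonic_add_div D (X - C μ), modByMonic_X_sub_C_eq_C_eval]
    ring
  have h := div_modByMonic_unique (f := X * D + C x) (g := X - C μ)
    (X * (D /ₘ (X - C μ)) + C (D.eval μ)) (C (μ * D.eval μ + x)) (monic_X_sub_C μ)
    ⟨by
      conv_rhs => rw [hD]
      simp only [C_add, C_mul]
      ring, by
      rw [degree_X_sub_C]
      exact lt_of_le_of_lt degree_C_le (by norm_num1)⟩
  exact h.1

lemma outP_step (μ x : ℂ) (D : ℂ[X]) :
    outP μ (X * D + C x) = X * outP μ D +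
      C ((((‖μ‖ ^ 2 - 1 : ℝ) : ℂ)) * D.eval μ + (starRingEnd ℂ) μ * x) := by
  unfold outP
  rw [divX]
  have h : (((‖μ‖ ^ 2 - 1 : ℝ) : ℂ)) = (starRingEnd ℂ) μ * μ - 1 := by
    push_cast
    rw [← Complex.conj_mul']
  rw [h]
  simp only [eval_add, eval_mul, eval_X, eval_C, C_add, C_mul, C_sub, C_1]
  ring

lemma norm_identity (μ Y x : ℂ) :
    (‖μ‖ ^ 2 - 1) * ‖μ * Y + x‖ ^ 2 + ‖x‖ ^ 2 =
      (‖μ‖ ^ 2 - 1) * ‖Y‖ ^ 2 + ‖(((‖μ‖ ^ 2 - 1 : ℝ) : ℂ)) * Y + (starRingEnd ℂ) μ * x‖ ^ 2 := by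
  have h : (((‖μ‖ ^ 2 - 1 : ℝ) : ℂ)) = ((μ.re * μ.re + μ.im * μ.im - 1 : ℝ) : ℂ) := by
    rw [Complex.sq_norm, Complex.normSq_apply]
  rw [h]
  simp only [Complex.sq_norm, Complex.normSq_apply, Complex.add_re, Complex.add_im, Complex.mul_re,
    Complex.mul_im, Complex.ofReal_re, Complex.ofReal_im, Complex.conj_re, Complex.conj_im]
  ring

/-- the energy identity -/
lemma enQ_step (L : List ℂ) (x : ℂ) (D : ℂ[X]) :
    enQ L (X * D + C x) + ‖x‖ ^ 2 =
      enQ L D + ‖outF L D + (L.map (starRingEnd ℂ)).prod * x‖ ^ 2 := by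
  induction L generalizing x D with
  | nil => simp only [enQ, zero_add, outF, List.map_nil, List.prod_nil, one_mul]
  | cons μ L ih =>
    simp only [enQ, outF, List.map_cons, List.prod_cons]
    rw [outP_step]
    have h1 := ih ((((‖μ‖ ^ 2 - 1 : ℝ) : ℂ)) * D.eval μ + (starRingEnd ℂ) μ * x) (outP μ D)
    have h2 := norm_identity μ (D.eval μ) x
    have h3 : (X * D + C x).eval μ = μ * D.eval μ + x := by simp
    rw [h3]
    have h4 : outF L (outP μ D) + (L.map (starRingEnd ℂ)).prod *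
        ((((‖μ‖ ^ 2 - 1 : ℝ) : ℂ)) * D.eval μ) +
        (starRingEnd ℂ) μ * (L.map (starRingEnd ℂ)).prod * x =
        outF L (outP μ D) + (L.map (starRingEnd ℂ)).prod *
        ((((‖μ‖ ^ 2 - 1 : ℝ) : ℂ)) * D.eval μ + (starRingEnd ℂ) μ * x) := by ring
    rw [h4]
    linarith

lemma enQ_zero_of_dvd (L : List ℂ) (D : ℂ[X]) (h : (L.map fun μ => X - C μ).prod ∣ D) :
    enQ L D = 0 := by
  induction L generalizing D with
  | nil => rfl
  | cons μ L ih =>
    obtain ⟨E, hE⟩ := h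
    rw [List.map_cons, List.prod_cons, mul_assoc] at hE
    simp only [enQ]
    have h1 : D.eval μ = 0 := by rw [hE]; simp
    have h2 : D /ₘ (X - C μ) = (L.map fun μ => X - C μ).prod * E := by
      rw [hE]
      exact mul_divByMonic_cancel_left _ (monic_X_sub_C μ)
    have h3 : (L.map fun μ => X - C μ).prod ∣ outP μ D := by
      unfold outP
      rw [h1, h2, mul_zero, C_0, add_zero]
      exact ⟨(C ((starRingEnd ℂ) μ) * X - 1) * E, by ring⟩
    rw [h1, ih _ h3]
    simp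

/-- the scalar inequality -/
lemma scalar_ineq {a t : ℝ} (ha0 : 0 ≤ a) (ha1 : a ≤ 1) :
    1 + a * cosh t ≤ (1 + a) * exp (t ^ 2 / 4) := by
  have h1 : cosh (t / 2) ≤ exp ((t / 2) ^ 2 / 2) := Real.cosh_le_exp_half_sq _
  have h2 : cosh t = 2 * cosh (t / 2) ^ 2 - 1 := by
    have : cosh t = cosh (2 * (t / 2)) := by congr 1; ring
    rw [this, Real.cosh_two_mul, Real.sinh_sq]; ring
  have h3 : cosh (t / 2) ^ 2 ≤ exp (t ^ 2 / 4) := by
    calc cosh (t / 2) ^ 2 ≤ exp ((t / 2) ^ 2 / 2) ^ 2 := by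
          have := (Real.cosh_pos (t / 2)).le
          (clear * - h1; gcongr)
      _ = exp (t ^ 2 / 4) := by rw [← exp_nat_mul]; congr 1; push_cast; ring
  have h4 : 1 ≤ exp (t ^ 2 / 4) := one_le_exp (by (clear * - ; positivity))
  rw [h2]
  linarith only [mul_nonneg_of_nonpos_of_nonpos (Mathlib.Tactic.Linarith.sub_nonpos_of_le ha1) (Mathlib.Tactic.Linarith.sub_nonpos_of_le h4), mul_nonneg_of_nonpos_of_nonpos (Mathlib.Tactic.Linarith.sub_nonpos_of_le ha0) (Mathlib.Tactic.Linarith.sub_nonpos_of_le h3)]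

/-- the contraction factor -/
noncomputable def rhoM (M : ℝ) : ℝ := (1 + exp (-(1 - (M ^ 2)⁻¹))) / 2

/-- one step of the potential method -/
lemma pot_step (L : List ℂ) {M τ a : ℝ} (hM : 1 ≤ M) (hτ : 0 < τ)
    (hLM : ‖(L.map (starRingEnd ℂ)).prod‖ = M) (ha : a = exp (-(τ * (M ^ 2 - 1))))
    (hineq : ∀ t : ℝ, 1 + a * cosh t ≤ (1 + a) * exp (t ^ 2 / (4 * τ * M ^ 2))) (D : ℂ[X]) :
    1 / 2 * exp (-(τ * enQ L (X * D + C 0))) +
      1 / 4 * (exp (-(τ * enQ L (X * D + C 1))) + exp (-(τ * enQ L (X * D + C (-1))))) ≤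
      (1 + a) / 2 * exp (-(τ * enQ L D)) := by
  set m := (L.map (starRingEnd ℂ)).prod with hm
  set W := outF L D with hW
  have hM0 : 0 < M := by linarith
  have ha0 : 0 < a := by rw [ha]; exact exp_pos _
  set u : ℝ := (W * (starRingEnd ℂ) m).re / M with hu
  have hWu : u ^ 2 ≤ ‖W‖ ^ 2 := by
    have h1 : |(W * (starRingEnd ℂ) m).re| ≤ ‖W‖ * M := by
      refine (Complex.abs_re_le_norm _).trans (le_of_eq ?_)
      rw [norm_mul, RCLike.norm_conj, hLM]
    have h2 : |u| ≤ ‖W‖ := by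
      rw [hu, abs_div, abs_of_pos hM0, div_le_iff₀ hM0]
      exact h1
    rw [← sq_abs u]
    exact pow_le_pow_left₀ (abs_nonneg _) h2 2
  -- lower bound for the energies
  have key : ∀ d : ℝ, enQ L D + (u ^ 2 + 2 * u * M * d + (M ^ 2 - 1) * d ^ 2) ≤
      enQ L (X * D + C (d : ℂ)) := by
    intro d
    have h1 := enQ_step L (d : ℂ) D
    rw [← hm, ← hW] at h1
    have h2 : ‖W + m * (d : ℂ)‖ ^ 2 = ‖W‖ ^ 2 + 2 * d * (W * (starRingEnd ℂ) m).re + M ^ 2 * d ^ 2 := by
      rw [← hLM]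
      simp only [Complex.sq_norm, Complex.normSq_apply, Complex.add_re, Complex.add_im,
        Complex.mul_re, Complex.mul_im, Complex.ofReal_re, Complex.ofReal_im, Complex.conj_re,
        Complex.conj_im]
      ring
    have h3 : ‖(d : ℂ)‖ ^ 2 = d ^ 2 := by rw [Complex.norm_real, norm_eq_abs, sq_abs]
    have h4 : (W * (starRingEnd ℂ) m).re = u * M := by rw [hu]; field_simp
    rw [h3, h2, h4] at h1
    linarith only [hWu, h1]
  have k0 := key 0
  have k1 := key 1
  have k2 := key (-1)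
  simp only [Complex.ofReal_zero, Complex.ofReal_one, Complex.ofReal_neg] at k0 k1 k2
  set E := enQ L D with hE
  set T := 2 * τ * M * u with hT
  have e0 : exp (-(τ * enQ L (X * D + C 0))) ≤ exp (-(τ * E)) * exp (-(τ * u ^ 2)) := by
    rw [← exp_add]; apply exp_le_exp.mpr; linarith only [mul_nonneg_of_nonpos_of_nonpos (le_of_lt (Mathlib.Tactic.Linarith.sub_neg_of_lt hτ)) (Mathlib.Tactic.Linarith.sub_nonpos_of_le k0)]
  have e1 : exp (-(τ * enQ L (X * D + C 1))) ≤
      exp (-(τ * E)) * exp (-(τ * u ^ 2)) * a * exp (-T) := by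
    rw [ha, ← exp_add, ← exp_add, ← exp_add]; apply exp_le_exp.mpr
    rw [hT]
    have := mul_le_mul_of_nonneg_left k1 hτ.le
    linarith only [this]
  have e2 : exp (-(τ * enQ L (X * D + C (-1)))) ≤
      exp (-(τ * E)) * exp (-(τ * u ^ 2)) * a * exp T := by
    rw [ha, ← exp_add, ← exp_add, ← exp_add]; apply exp_le_exp.mpr
    rw [hT]
    have := mul_le_mul_of_nonneg_left k2 hτ.le
    linarith only [this]
  have hs := hineq T
  rw [Real.cosh_eq T] at hs
  have hexp : exp (-(τ * u ^ 2)) * exp (T ^ 2 / (4 * τ * M ^ 2)) = 1 := by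
    rw [← exp_add, hT]
    have : -(τ * u ^ 2) + (2 * τ * M * u) ^ 2 / (4 * τ * M ^ 2) = 0 := by
      field_simp
      ring
    rw [this, exp_zero]
  calc _ ≤ 1 / 2 * (exp (-(τ * E)) * exp (-(τ * u ^ 2))) +
        1 / 4 * (exp (-(τ * E)) * exp (-(τ * u ^ 2)) * a * exp (-T) +
        exp (-(τ * E)) * exp (-(τ * u ^ 2)) * a * exp T) := by (clear * - e0 e1 e2; gcongr)
    _ = exp (-(τ * E)) / 2 * (exp (-(τ * u ^ 2)) * (1 + a * ((exp T + exp (-T)) / 2))) := by
        ring
    _ ≤ exp (-(τ * E)) / 2 * (exp (-(τ * u ^ 2)) * ((1 + a) *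
        exp (T ^ 2 / (4 * τ * M ^ 2)))) := by (clear * - hs; gcongr)
    _ = exp (-(τ * E)) / 2 * ((1 + a) * (exp (-(τ * u ^ 2)) * exp (T ^ 2 / (4 * τ * M ^ 2)))) := by
        ring
    _ = _ := by rw [hexp]; ring

/-- the difference polynomial is built from the constant coefficient -/
lemma dpoly_cons {n : ℕ} (b b' : Bool) (e e' : Fin n → Bool) :
    dpoly (Fin.cons b e : Fin (n + 1) → Bool) (Fin.cons b' e' : Fin (n + 1) → Bool) =
      X * dpoly e e' + C ((if b then (1 : ℤ) else 0) - (if b' then 1 else 0)) := by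
  unfold dpoly
  rw [Fin.sum_univ_succ, Finset.mul_sum, add_comm]
  congr 1
  · refine Finset.sum_congr rfl fun i _ => ?_
    simp only [Fin.cons_succ, Fin.val_succ]
    ring
  · simp only [Fin.cons_zero, eq_intCast, Int.cast_sub, Int.cast_ite, Int.cast_one, Int.cast_zero, Fin.coe_ofNat_eq_mod, Nat.zero_mod, pow_zero, mul_one]

/-- the sum of the potential over all pairs of words -/
lemma pot_sum (L : List ℂ) {M τ a : ℝ} (hM : 1 ≤ M) (hτ : 0 < τ)
    (hLM : ‖(L.map (starRingEnd ℂ)).prod‖ = M) (ha : a = exp (-(τ * (M ^ 2 - 1))))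
    (hineq : ∀ t : ℝ, 1 + a * cosh t ≤ (1 + a) * exp (t ^ 2 / (4 * τ * M ^ 2))) (n : ℕ) :
    ∑ e : Fin n → Bool, ∑ e' : Fin n → Bool,
      exp (-(τ * enQ L ((dpoly e e').map (Int.castRingHom ℂ)))) ≤ (2 + 2 * a) ^ n := by
  have ha0 : 0 < a := by rw [ha]; exact exp_pos _
  induction n with
  | zero =>
    have h0 : ∀ e e' : Fin 0 → Bool, (dpoly e e').map (Int.castRingHom ℂ) = 0 := by
      intro e e'
      unfold dpoly
      simp only [Finset.univ_eq_empty, eq_intCast, Int.cast_sub, Int.cast_ite, Int.cast_one, Int.cast_zero, Finset.sum_empty, Polynomial.map_zero]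
    simp only [h0]
    have h1 : enQ L 0 = 0 := enQ_zero_of_dvd L 0 (dvd_zero _)
    rw [h1]
    simp only [Finset.univ_unique, mul_zero, neg_zero, exp_zero, Finset.sum_const, Finset.card_singleton, one_smul, pow_zero, Std.le_refl]
  | succ n ih =>
    have hre : ∀ f : (Fin (n + 1) → Bool) → ℝ, ∑ e, f e =
        ∑ e : Fin n → Bool, (f (Fin.cons true e : Fin (n + 1) → Bool) +
          f (Fin.cons false e : Fin (n + 1) → Bool)) := by
      intro f
      rw [← (Fin.consEquiv (fun _ : Fin (n + 1) => Bool)).sum_comp, Fintype.sum_prod_type]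
      simp only [Fintype.univ_bool]
      rw [Finset.sum_pair (by simp), ← Finset.sum_add_distrib]
      rfl
    rw [hre]
    have hstep : ∀ e e' : Fin n → Bool,
        exp (-(τ * enQ L ((dpoly (Fin.cons true e : Fin (n + 1) → Bool)
          (Fin.cons true e' : Fin (n + 1) → Bool)).map (Int.castRingHom ℂ)))) +
        exp (-(τ * enQ L ((dpoly (Fin.cons true e : Fin (n + 1) → Bool)
          (Fin.cons false e' : Fin (n + 1) → Bool)).map (Int.castRingHom ℂ)))) +
        (exp (-(τ * enQ L ((dpoly (Fin.cons false e : Fin (n + 1) → Bool)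
          (Fin.cons true e' : Fin (n + 1) → Bool)).map (Int.castRingHom ℂ)))) +
        exp (-(τ * enQ L ((dpoly (Fin.cons false e : Fin (n + 1) → Bool)
          (Fin.cons false e' : Fin (n + 1) → Bool)).map (Int.castRingHom ℂ))))) ≤
        (2 + 2 * a) * exp (-(τ * enQ L ((dpoly e e').map (Int.castRingHom ℂ)))) := by
      intro e e'
      have h := pot_step L hM hτ hLM ha hineq ((dpoly e e').map (Int.castRingHom ℂ))
      simp only [dpoly_cons]
      simp only [Polynomial.map_add, Polynomial.map_mul, map_X, if_true, Bool.false_eq_true,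
        if_false, sub_self, sub_zero, zero_sub, map_zero, map_one, map_neg, Polynomial.map_zero,
        Polynomial.map_one, Polynomial.map_neg] at h ⊢
      linarith
    calc _ = ∑ e : Fin n → Bool, ∑ e' : Fin n → Bool,
        (exp (-(τ * enQ L ((dpoly (Fin.cons true e : Fin (n + 1) → Bool)
          (Fin.cons true e' : Fin (n + 1) → Bool)).map (Int.castRingHom ℂ)))) +
        exp (-(τ * enQ L ((dpoly (Fin.cons true e : Fin (n + 1) → Bool)
          (Fin.cons false e' : Fin (n + 1) → Bool)).map (Int.castRingHom ℂ)))) +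
        (exp (-(τ * enQ L ((dpoly (Fin.cons false e : Fin (n + 1) → Bool)
          (Fin.cons true e' : Fin (n + 1) → Bool)).map (Int.castRingHom ℂ)))) +
        exp (-(τ * enQ L ((dpoly (Fin.cons false e : Fin (n + 1) → Bool)
          (Fin.cons false e' : Fin (n + 1) → Bool)).map (Int.castRingHom ℂ)))))) := by
          refine Finset.sum_congr rfl fun e _ => ?_
          rw [hre, hre, ← Finset.sum_add_distrib]
      _ ≤ ∑ e : Fin n → Bool, ∑ e' : Fin n → Bool,
          (2 + 2 * a) * exp (-(τ * enQ L ((dpoly e e').map (Int.castRingHom ℂ)))) :=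
          Finset.sum_le_sum fun e _ => Finset.sum_le_sum fun e' _ => hstep e e'
      _ = (2 + 2 * a) * ∑ e : Fin n → Bool, ∑ e' : Fin n → Bool,
          exp (-(τ * enQ L ((dpoly e e').map (Int.castRingHom ℂ)))) := by
          simp only [Finset.mul_sum]
      _ ≤ (2 + 2 * a) * (2 + 2 * a) ^ n := by (clear * - ih ha0; gcongr)
      _ = _ := by rw [pow_succ]; ring

/-- a common root forces divisibility over the complex numbers -/
lemma map_dvd_map {P Q : ℤ[X]} (hP : Irreducible P) {lam : ℝ} (hlam : aeval lam P = 0)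
    (hQ : aeval lam Q = 0) :
    P.map (Int.castRingHom ℚ) ∣ Q.map (Int.castRingHom ℚ) := by
  have hdeg : P.natDegree ≠ 0 := by
    intro h0
    rw [natDegree_eq_zero] at h0
    obtain ⟨c, rfl⟩ := h0
    rw [aeval_C] at hlam
    have hc0 : c = 0 := by simpa using hlam
    rw [hc0] at hP
    simp at hP
  have hprim : P.IsPrimitive := hP.isPrimitive hdeg
  have hirr : Irreducible (P.map (Int.castRingHom ℚ)) :=
    (IsPrimitive.Int.irreducible_iff_irreducible_map_cast hprim).mp hP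
  have key : ∀ (R : ℤ[X]), aeval lam (R.map (Int.castRingHom ℚ)) = aeval lam R := by
    intro R
    rw [show Int.castRingHom ℚ = algebraMap ℤ ℚ from rfl, aeval_map_algebraMap]
  have h1 : aeval lam (P.map (Int.castRingHom ℚ)) = 0 := by rw [key, hlam]
  have h2 := minpoly.eq_of_irreducible hirr h1
  have h3 : minpoly ℚ lam ∣ Q.map (Int.castRingHom ℚ) := by
    apply minpoly.dvd
    rw [key, hQ]
  rw [← h2] at h3
  exact (Dvd.intro _ rfl).trans h3

lemma map_dvd_mapC {P Q : ℤ[X]} (h : P.map (Int.castRingHom ℚ) ∣ Q.map (Int.castRingHom ℚ)) :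
    P.map (Int.castRingHom ℂ) ∣ Q.map (Int.castRingHom ℂ) := by
  have h1 := Polynomial.map_dvd (algebraMap ℚ ℂ) h
  rw [Polynomial.map_map, Polynomial.map_map] at h1
  have h2 : (algebraMap ℚ ℂ).comp (Int.castRingHom ℚ) = Int.castRingHom ℂ := RingHom.ext_int _ _
  rwa [h2] at h1

lemma prod_max_eq (S : Multiset ℂ) : (S.map fun z => max 1 ‖z‖).prod =
    ((S.filter fun z => 1 < ‖z‖).map fun z => ‖z‖).prod := by
  induction S using Multiset.induction_on with
  | empty => simp only [Multiset.map_zero, Multiset.prod_zero, Multiset.filter_zero]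
  | cons a S ih =>
    by_cases h : 1 < ‖a‖
    · rw [Multiset.filter_cons_of_pos (p := fun z => 1 < ‖z‖) S h, Multiset.map_cons,
        Multiset.map_cons,
        Multiset.prod_cons, Multiset.prod_cons, ih, max_eq_right h.le]
    · rw [Multiset.filter_cons_of_neg (p := fun z => 1 < ‖z‖) S h, Multiset.map_cons, Multiset.prod_cons, ih,
        max_eq_left (not_lt.mp h), one_mul]

lemma norm_prod_conj (L : List ℂ) : ‖(L.map (starRingEnd ℂ)).prod‖ = (L.map fun z => ‖z‖).prod := by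
  induction L with
  | nil => simp only [List.map_nil, List.prod_nil, norm_one]
  | cons a L ih =>
    rw [List.map_cons, List.map_cons, List.prod_cons, List.prod_cons, norm_mul, ih,
      RCLike.norm_conj]

/-- number of coincidences for unit leading coefficient -/
lemma coinc_le {P : ℤ[X]} (hP : Irreducible P) {lam : ℝ} (hlam : aeval lam P = 0)
    (hlc : |P.leadingCoeff| = 1) {τ a : ℝ} (hτ : 0 < τ)
    (ha : a = exp (-(τ * (mahler P ^ 2 - 1))))
    (hineq : ∀ t : ℝ, 1 + a * cosh t ≤ (1 + a) * exp (t ^ 2 / (4 * τ * mahler P ^ 2))) (n : ℕ) :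
    (coll lam n : ℝ) ≤ (2 + 2 * a) ^ n := by
  classical
  set f := P.map (Int.castRingHom ℂ) with hf
  have hinj : Function.Injective (Int.castRingHom ℂ) := (Int.castRingHom ℂ).injective_int
  have hP0 : P ≠ 0 := hP.ne_zero
  have hf0 : f ≠ 0 := (Polynomial.map_ne_zero_iff hinj).mpr hP0
  -- the list of large roots
  set S := f.roots.filter (fun z => 1 < ‖z‖) with hS
  set L := S.toList with hL
  have hLS : (L : Multiset ℂ) = S := Multiset.coe_toList S
  have hlead : ‖f.leadingCoeff‖ = 1 := by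
    rw [hf, leadingCoeff_map_of_injective hinj, eq_intCast, Complex.norm_intCast]
    exact_mod_cast hlc
  have hmahler : ‖(L.map (starRingEnd ℂ)).prod‖ = mahler P := by
    unfold mahler
    rw [← hf, mahlerMeasure_eq_leadingCoeff_mul_prod_roots, hlead, one_mul, prod_max_eq, ← hS,
      norm_prod_conj, ← hLS, Multiset.map_coe, Multiset.prod_coe]
  have hM := one_le_mahler hP0
  have hdvd : (L.map fun μ => X - C μ).prod ∣ f := by
    have h1 : (S.map fun μ => X - C μ).prod ∣ f :=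
      (Multiset.prod_X_sub_C_dvd_iff_le_roots hf0 S).mpr (Multiset.filter_le _ _)
    rwa [← hLS, Multiset.map_coe, Multiset.prod_coe] at h1
  refine le_trans ?_ (pot_sum L hM hτ hmahler ha hineq n)
  unfold coll coinc
  push_cast
  refine Finset.sum_le_sum fun e _ => ?_
  rw [Finset.card_filter]
  push_cast
  refine Finset.sum_le_sum fun e' _ => ?_
  by_cases h : psum lam n e' = psum lam n e
  · rw [if_pos h]
    have h1 := aeval_dpoly e e' lam
    rw [h, sub_self] at h1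
    have h2 : aeval lam (dpoly e e') = 0 := by linarith only [h1]
    have h3 := map_dvd_mapC (map_dvd_map hP hlam h2)
    rw [enQ_zero_of_dvd L _ (hdvd.trans h3)]
    simp
  · rw [if_neg h]
    exact (exp_pos _).le

lemma psumEntropy_le (lam : ℝ) (n : ℕ) : psumEntropy lam n ≤ n * log 2 := by
  classical
  rw [psumEntropy_eq]
  unfold shannon
  have hcard : (Fintype.card (Fin n → Bool) : ℝ) = 2 ^ n := by simp only [Fintype.card_pi, Fintype.card_bool, Finset.prod_const, Finset.card_univ, Fintype.card_fin, Nat.cast_pow, Nat.cast_ofNat]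
  rw [hcard]
  have hpt : ∀ s : Fin n → Bool, -(n * log 2) ≤
      log (((Finset.univ.filter fun s' => psum lam n s' = psum lam n s).card : ℝ) / 2 ^ n) := by
    intro s
    have h0 : 0 < (Finset.univ.filter fun s' => psum lam n s' = psum lam n s).card :=
      Finset.card_pos.mpr ⟨s, by simp only [Finset.mem_filter, Finset.mem_univ, and_self]⟩
    have h1 : (1 : ℝ) ≤ ((Finset.univ.filter fun s' => psum lam n s' = psum lam n s).card : ℝ) := by
      exact_mod_cast h0
    rw [log_div (by (clear * - h0; (clear * - h0; positivity))) (by positivity), log_pow]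
    have := log_nonneg h1
    linarith only [this]
  have h2 : ∑ s : Fin n → Bool, -(n * log 2) ≤ ∑ s : Fin n → Bool,
      log (((Finset.univ.filter fun s' => psum lam n s' = psum lam n s).card : ℝ) / 2 ^ n) :=
    Finset.sum_le_sum fun s _ => hpt s
  rw [Finset.sum_const, Finset.card_univ, nsmul_eq_mul, hcard] at h2
  have h3 : (0 : ℝ) < (2 ^ n)⁻¹ := by positivity
  have h4 := mul_le_mul_of_nonneg_left h2 h3.le
  rw [← mul_assoc, inv_mul_cancel₀ (by positivity), one_mul] at h4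
  linarith only [h4]

lemma entropy_bdd_above (lam : ℝ) :
    IsBoundedUnder (· ≤ ·) atTop (fun n : ℕ => psumEntropy lam n / n) := by
  refine ⟨log 2, ?_⟩
  rw [eventually_map]
  refine Eventually.of_forall fun n => ?_
  rcases Nat.eq_zero_or_pos n with h | h
  · subst h
    simp only [CharP.cast_eq_zero, div_zero]
    exact (log_pos (by norm_num)).le
  · have hn : (0 : ℝ) < n := by exact_mod_cast h
    rw [div_le_iff₀ hn, mul_comm]
    exact psumEntropy_le lam n

lemma le_garsia {lam c : ℝ} (h : ∀ᶠ n : ℕ in atTop, c * n ≤ psumEntropy lam n) :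
    c ≤ garsiaEntropy lam := by
  unfold garsiaEntropy
  apply le_liminf_of_le (entropy_bdd_above lam).isCoboundedUnder_ge
  filter_upwards [h, eventually_gt_atTop 0] with n hn hn0
  have hn0' : (0 : ℝ) < n := by exact_mod_cast hn0
  rwa [le_div_iff₀ hn0']

lemma garsia_le_log_two (lam : ℝ) : garsiaEntropy lam ≤ log 2 := by
  apply le_of_forall_pos_le_add
  intro ε hε
  obtain ⟨n, hn, hn0⟩ := ((entropy_ev lam hε).and (eventually_gt_atTop 0)).exists
  have h1 := psumEntropy_le lam n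
  have hn0' : (0 : ℝ) < n := by exact_mod_cast hn0
  have h2 : (garsiaEntropy lam - ε) * n ≤ log 2 * n := by linarith only [hn, h1]
  have := le_of_mul_le_mul_right h2 hn0'
  linarith only [this]

lemma rhoM_ge (M : ℝ) : 1 / 2 ≤ rhoM M := by
  unfold rhoM
  have := exp_pos (-(1 - (M ^ 2)⁻¹))
  linarith

/-- unit leading coefficient is forced by a coincidence -/
lemma lc_of_coincidence {P Q : ℤ[X]} (hP : Irreducible P) {lam : ℝ} (hlam : aeval lam P = 0)
    (hQ0 : Q ≠ 0) (hc : ∀ i, |Q.coeff i| ≤ 1) (hQ : aeval lam Q = 0) : |P.leadingCoeff| = 1 := by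
  have hdeg : P.natDegree ≠ 0 := by
    intro h0
    rw [natDegree_eq_zero] at h0
    obtain ⟨c, rfl⟩ := h0
    rw [aeval_C] at hlam
    have hc0 : c = 0 := by simpa using hlam
    rw [hc0] at hP
    simp at hP
  have hprim : P.IsPrimitive := hP.isPrimitive hdeg
  have hlcQ : |Q.leadingCoeff| = 1 := by
    have h1 : Q.leadingCoeff ≠ 0 := leadingCoeff_ne_zero.mpr hQ0
    have h2 := hc Q.natDegree
    have h3 := Int.one_le_abs h1
    exact le_antisymm h2 h3
  have h1 : P ∣ Q :=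
    (IsPrimitive.Int.dvd_iff_map_cast_dvd_map_cast P Q hprim).mpr
      (map_dvd_map hP hlam hQ)
  have h2 : P.leadingCoeff ∣ Q.leadingCoeff := leadingCoeff_dvd_leadingCoeff h1
  have h3 : IsUnit Q.leadingCoeff := Int.isUnit_iff_abs_eq.mpr hlcQ
  exact Int.isUnit_iff_abs_eq.mp (isUnit_of_dvd_unit h2 h3)

lemma coll_of_inj {lam : ℝ} {n : ℕ} (h : Function.Injective (psum lam n)) :
    coll lam n = 2 ^ n := by
  classical
  unfold coll coinc
  have hc : ∀ s : Fin n → Bool,
      (Finset.univ.filter fun s' => psum lam n s' = psum lam n s).card = 1 := by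
    intro s
    have : (Finset.univ.filter fun s' => psum lam n s' = psum lam n s) = {s} := by
      ext s'
      simp only [Finset.mem_filter, Finset.mem_univ, true_and, Finset.mem_singleton]
      exact ⟨fun h' => h h', fun h' => by rw [h']⟩
    rw [this]; simp
  simp_rw [hc]
  simp only [Finset.sum_const, Finset.card_univ, Fintype.card_pi, Fintype.card_bool, Finset.prod_const, Fintype.card_fin, smul_eq_mul, mul_one]

/-- **Upper bound for the number of coincidences in terms of the Mahler measure.** -/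
theorem coll_le_of_gauss {P : ℤ[X]} (hP : Irreducible P) {lam : ℝ} (hlam : aeval lam P = 0)
    {c a : ℝ} (hc : 0 < c) (ha : a = exp (-c))
    (hineq : ∀ t : ℝ, 1 + a * cosh t ≤
      (1 + a) * exp ((1 - (mahler P ^ 2)⁻¹) / (4 * c) * t ^ 2)) (n : ℕ) :
    (coll lam n : ℝ) ≤ (2 + 2 * a) ^ n := by
  have ha0 : 0 < a := by rw [ha]; exact exp_pos _
  have hM := one_le_mahler hP.ne_zero
  by_cases hlc : |P.leadingCoeff| = 1
  · rcases hM.eq_or_lt with h1 | h1
    · exfalso
      have h2 := hineq 1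
      rw [← h1] at h2
      have h3 : (1 : ℝ) < cosh 1 := Real.one_lt_cosh.mpr (by norm_num)
      norm_num at h2
      linarith only [mul_pos_of_neg_of_neg (Mathlib.Tactic.Linarith.sub_neg_of_lt ha0) (Mathlib.Tactic.Linarith.sub_neg_of_lt h3), h2]
    · have hM2 : 0 < mahler P ^ 2 - 1 := by linarith only [mul_pos_of_neg_of_neg (Mathlib.Tactic.Linarith.sub_neg_of_lt h1) (Mathlib.Tactic.Linarith.sub_neg_of_lt h1), h1]
      refine coinc_le hP hlam hlc (τ := c / (mahler P ^ 2 - 1)) (by (clear * - hc hM2; positivity)) ?_ ?_ n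
      · rw [ha, div_mul_cancel₀ _ hM2.ne']
      · intro t
        refine (hineq t).trans (le_of_eq ?_)
        congr 2
        have hM0 : mahler P ≠ 0 := by (clear * - hM; positivity)
        (clear * - hM0 hc hM2; field_simp)
  · have h1 := coll_of_inj (psum_inj (lam := lam) (fun Q hQ0 hc hQ =>
      hlc (lc_of_coincidence hP hlam hQ0 hc hQ)) n)
    rw [h1]
    push_cast
    exact pow_le_pow_left₀ (by norm_num) (by linarith only [ha0]) n

/-- **Lower bound for the Garsia entropy in terms of the Mahler measure.** -/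
theorem garsia_ge {P : ℤ[X]} (hP : Irreducible P) {lam : ℝ} (hlam : aeval lam P = 0)
    (hM : 1 < mahler P) : -log (rhoM (mahler P)) ≤ garsiaEntropy lam := by
  apply le_garsia
  have hrho : 0 < rhoM (mahler P) := lt_of_lt_of_le (by norm_num) (rhoM_ge _)
  refine Eventually.of_forall fun n => ?_
  have hs : 0 < 1 - (mahler P ^ 2)⁻¹ := by
    have : (mahler P ^ 2)⁻¹ < 1 := inv_lt_one_of_one_lt₀ (by linarith only [mul_pos_of_neg_of_neg (Mathlib.Tactic.Linarith.sub_neg_of_lt hM) (Mathlib.Tactic.Linarith.sub_neg_of_lt hM), hM])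
    linarith only [this]
  have h := coll_le_of_gauss hP hlam (c := 1 - (mahler P ^ 2)⁻¹) hs rfl (fun t => by
    have h1 : (1 - (mahler P ^ 2)⁻¹) / (4 * (1 - (mahler P ^ 2)⁻¹)) * t ^ 2 = t ^ 2 / 4 := by
      generalize 1 - (mahler P ^ 2)⁻¹ = s at hs
      (clear * - hs; field_simp)
    rw [h1]
    exact scalar_ineq (exp_pos _).le (by rw [exp_le_one_iff]; linarith only [hs])) n
  have h2 : 2 + 2 * exp (-(1 - (mahler P ^ 2)⁻¹)) = 4 * rhoM (mahler P) := by
    unfold rhoM; ring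
  rw [h2] at h
  have hc0 : (0 : ℝ) < coll lam n := by exact_mod_cast coinc_pos (psum lam n)
  have h3 := log_le_log hc0 h
  rw [log_pow, log_mul (by norm_num) hrho.ne'] at h3
  have h4 := psumEntropy_ge_coll lam n
  linarith only [h3, h4]

end Vale.Agent.P105
end
end

section

section

open MeasureTheory Real Filter Topology Polynomial
open scoped ENNReal

namespace Vale.Agent.P105

lemma Phi_ge {s s0 : ℝ} (hs : 0 < s) (h : s ≤ s0) (h0 : 2 * s0 ≤ 2 + 2 * -log s0 - 4) :
    1 - s0 ^ 2 + 2 * s0 * log s0 ≤ 1 - s ^ 2 + 2 * s * log s := by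
  have hs0 : 0 < s0 := hs.trans_le h
  have h1 := log_le_sub_one_of_pos (div_pos hs0 hs)
  rw [log_div hs0.ne' hs.ne'] at h1
  have h2 : s * (log s0 - log s) ≤ s0 - s := by
    calc s * (log s0 - log s) ≤ s * (s0 / s - 1) := by gcongr
      _ = s0 - s := by field_simp
  linarith only [mul_nonneg_of_nonpos_of_nonpos (Mathlib.Tactic.Linarith.sub_nonpos_of_le h) (Mathlib.Tactic.Linarith.sub_nonpos_of_le h0), mul_nonneg_of_nonpos_of_nonpos (Mathlib.Tactic.Linarith.sub_nonpos_of_le h) (Mathlib.Tactic.Linarith.sub_nonpos_of_le h), mul_nonneg_of_nonpos_of_nonpos (le_of_lt (Mathlib.Tactic.Linarith.sub_neg_of_lt hs)) (Mathlib.Tactic.Linarith.sub_nonpos_of_le h), h2]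

/-- numerical verification -/
lemma cond_small {lam L : ℝ} (h0 : 0 < lam) (h1 : lam < 1) (hL2 : L ≤ log 2)
    (hl : 8 * -log lam ≤ L) :
    2 * exp 1 * (-log lam) * (L - 27 / 32 * L) / ((1 - lam ^ 2) * L) <
      1 - (-log lam / L) ^ 2 + 2 * (-log lam / L) * log (-log lam / L) := by
  set ℓ := -log lam with hℓd
  have hℓ : 0 < ℓ := by have := log_neg h0 h1; linarith
  have hL : 0 < L := by linarith only [hl, hℓ]
  have hlog2 := log_two_lt_d9
  have hlog2' := log_two_gt_d9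
  have hlam2 : 0 < 1 - lam ^ 2 := by nlinarith only [h1, h0]
  -- lower bound for 1 - lam^2
  set b : ℝ := 2 ^ (-(1 / 4) : ℝ) with hb
  have hb0 : 0 < b := by positivity
  have hb1 : b ≤ 0.8409 := by
    have h2 : b ^ 4 = 1 / 2 := by
      rw [hb, ← rpow_natCast, ← rpow_mul (by norm_num)]
      norm_num
    by_contra hcon
    push Not at hcon
    have : (0.8409 : ℝ) ^ 4 < b ^ 4 := by (clear * - hcon; gcongr)
    rw [h2] at this
    norm_num1 at this
  have hp : 8 * ℓ / log 2 ≤ 1 := by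
    rw [div_le_one (by positivity)]; linarith only [hL2, hl]
  have hlam : lam ^ 2 ≤ 1 + (8 * ℓ / log 2) * (b - 1) := by
    have h2 := rpow_one_add_le_one_add_mul_self (s := b - 1) (p := 8 * ℓ / log 2) (by linarith only [hb0])
      (by positivity) hp
    refine le_trans (le_of_eq ?_) h2
    rw [add_sub_cancel, hb, ← rpow_mul (by norm_num)]
    have e1 : -(1 / 4 : ℝ) * (8 * ℓ / log 2) = -2 * ℓ / log 2 := by ring
    rw [e1, rpow_def_of_pos (by norm_num : (0 : ℝ) < 2), mul_div_cancel₀ _ (by positivity)]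
    rw [← exp_log h0, ← exp_nat_mul, hℓd]
    congr 1
    push_cast
    ring
  have h3 : (8 * ℓ / log 2) * 0.1591 ≤ 1 - lam ^ 2 := by
    have h4 : 0 ≤ 8 * ℓ / log 2 := by positivity
    linarith only [hlam, mul_nonneg_of_nonpos_of_nonpos (Mathlib.Tactic.Linarith.sub_nonpos_of_le hb1) (Mathlib.Tactic.Linarith.sub_nonpos_of_le h4)]
  have hLHS : 2 * exp 1 * ℓ * (L - 27 / 32 * L) / ((1 - lam ^ 2) * L) =
      (5 / 16) * exp 1 * ℓ / (1 - lam ^ 2) := by
    field_simp
    ring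
  rw [hLHS]
  have hlhs : (5 / 16) * exp 1 * ℓ / (1 - lam ^ 2) ≤ 0.46265 := by
    rw [div_le_iff₀ hlam2]
    have he := exp_one_lt_d9
    have h5 : (5 / 16) * exp 1 * ℓ ≤ (5 / 16) * 2.7182818286 * ℓ := by (clear * - he hℓ; gcongr)
    have h6 : (5 / 16) * 2.7182818286 * ℓ ≤ 0.46265 * ((8 * ℓ / log 2) * 0.1591) := by
      have h7 : (8 * ℓ / log 2) * 0.1591 = ℓ * (8 * 0.1591) / log 2 := by ring
      rw [h7, mul_div_assoc', le_div_iff₀ (by positivity)]
      have : (5 / 16) * 2.7182818286 * ℓ * log 2 ≤ (5 / 16) * 2.7182818286 * ℓ * 0.6931471808 := by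
        (clear * - hlog2 hℓ; gcongr)
      refine this.trans ?_
      linarith only [hℓ]
    linarith only [h3, h5, h6]
  refine lt_of_le_of_lt hlhs ?_
  have hs1 : ℓ / L ≤ 1 / 8 := by
    rw [div_le_iff₀ hL]; linarith only [hl]
  have e8 : log (1 / 8 : ℝ) = -3 * log 2 := by
    rw [one_div, log_inv, show (8 : ℝ) = 2 ^ 3 by norm_num, log_pow]
    push_cast
    ring
  have hge := Phi_ge (div_pos hℓ hL) hs1 (by rw [e8]; linarith only [hlog2'])
  rw [e8] at hge
  linarith only [hlog2, hge]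

/-- algebraic parameters with Mahler measure at most two, from the collision bound -/
theorem bern_ac_small {lam : ℝ} (h0 : 0 < lam) (h1 : lam < 1) {P : ℤ[X]} (hP : P ≠ 0)
    (hlam : aeval lam P = 0) (hM : mahler P ≤ 2) (hl : 8 * -log lam ≤ log (mahler P))
    (hcoll : ∀ c, 0 < c → GaussOK (mahler P) c → ∀ n, (coll lam n : ℝ) ≤ (2 + 2 * exp (-c)) ^ n) :
    bernConv lam ≪ volume := by
  have hℓ : 0 < -log lam := by have := log_neg h0 h1; linarith
  have hL0 : 0 < log (mahler P) := by linarith only [hl, hℓ]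
  have hM1 : 1 < mahler P := by
    by_contra hcon
    push Not at hcon
    have := log_nonpos (zero_le_one.trans (one_le_mahler hP)) hcon
    linarith only [hl, hℓ, this]
  obtain ⟨c, hc0, hc1, hc2⟩ := gauss_exists hM1 hM
  have hL2 : log (mahler P) ≤ log 2 := log_le_log (by linarith only [hM1]) hM
  refine bern_ac_gen2 h0 h1 (fun _ hε => sep_mahler hP hlam hε) (h := 27 / 32 * log (mahler P))
    (fun ε hε => ?_) (cond_small h0 h1 hL2 hl)
  have h4 := entropy_ev_coll (lam := lam) (ρ := 2 + 2 * exp (-c)) (C₀ := 1) (by positivity) one_pos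
    (fun n => by rw [one_mul]; exact hcoll c hc0 hc1 n) hε
  filter_upwards [h4] with n hn
  refine le_trans ?_ hn
  have h5 : (4 : ℝ) / (2 + 2 * exp (-c)) = 2 / (1 + exp (-c)) := by
    have := exp_pos (-c)
    field_simp
    ring
  rw [h5]
  have h6 : (0 : ℝ) ≤ n := Nat.cast_nonneg n
  nlinarith only [hc2]

/-- **Every algebraic parameter with Mahler measure at most `2` that is at least
`M ^ (-1 / 8)` gives absolute continuity.** -/
theorem small_mahler {lam : ℝ} (h0 : 0 < lam) (h1 : lam < 1) {P : ℤ[X]} (hP : Irreducible P)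
    (hlam : aeval lam P = 0) (hM : mahler P ≤ 2) (hl : 8 * -log lam ≤ log (mahler P)) :
    bernConv lam ≪ volume := by
  refine bern_ac_small h0 h1 hP.ne_zero hlam hM hl fun c hc hG n => ?_
  have h := coll_le_of_gauss hP hlam hc rfl hG n
  exact h

end Vale.Agent.P105
end
end

section

section

open MeasureTheory Real Filter Topology Polynomial
open scoped ENNReal

namespace Vale.Agent.P105

/-- entropy of the smoothed partial sums at all small scales -/
lemma ent_pm_ge2 {lam θ θ' h : ℝ} (h0 : 0 < lam) (h1 : lam < 1) (hθ' : θ' < θ)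
    (hsep : ∀ᶠ n : ℕ in atTop, ∀ e e' : Fin n → Bool, psum lam n e ≠ psum lam n e' →
      exp (-θ' * n) ≤ |psum lam n e - psum lam n e'|)
    (hsh : ∀ᶠ n : ℕ in atTop, h * n ≤ psumEntropy lam n) :
    ∀ᶠ n : ℕ in atTop, ∀ v : ℝ, 0 < v → v ≤ exp (-2 * θ * n) →
      h * n ≤ ent (pm lam n) v - 1 / 2 * log v := by
  have hgrow : ∀ᶠ n : ℕ in atTop, (n : ℝ) * log 2 + 1 ≤ exp (2 * (θ - θ') * n) / 4 := by
    have h2 : Tendsto (fun n : ℕ => (n : ℝ)) atTop atTop := tendsto_natCast_atTop_atTop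
    have hc : 0 < 2 * (θ - θ') := by linarith
    have h3 := (isLittleO_pow_exp_pos_mul_atTop 1 hc).comp_tendsto h2
    have h4 := h3.bound (show (0 : ℝ) < 1 / 8 by norm_num)
    filter_upwards [h4, eventually_ge_atTop 4] with n hn hn4
    simp only [Function.comp_apply, pow_one, norm_eq_abs, Nat.abs_cast, abs_exp] at hn
    have h5 : (4 : ℝ) ≤ n := by exact_mod_cast hn4
    have h6 : log 2 ≤ 1 := by
      have := log_two_lt_d9; linarith only [this]
    linarith only [h5, hn, mul_nonneg_of_nonpos_of_nonpos (Mathlib.Tactic.Linarith.sub_nonpos_of_le (Mathlib.Tactic.Linarith.natCast_nonneg ℝ n)) (Mathlib.Tactic.Linarith.sub_nonpos_of_le h6)]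
  filter_upwards [hsep, hsh, hgrow] with n hs hh hg v hv hvle
  have key := ent_ge_shannon (μ := pm lam n) (ae_pm h0 h1 n) hv (exp_pos (-θ' * n)).le (psum lam n)
    (fun x => sm_pm lam n (continuous_G _) (bdd_G hv) x) hs
  rw [← psumEntropy_eq] at key
  have hcard : (Fintype.card (Fin n → Bool) : ℝ) = 2 ^ n := by simp only [Fintype.card_pi, Fintype.card_bool, Finset.prod_const, Finset.card_univ, Fintype.card_fin, Nat.cast_pow, Nat.cast_ofNat]
  rw [hcard] at key
  have e1 : exp (2 * (θ - θ') * n) / 4 ≤ exp (-θ' * n) ^ 2 / (4 * v) := by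
    rw [div_le_div_iff₀ (by norm_num) (by (clear * - hv; positivity))]
    have h2 : exp (2 * (θ - θ') * n) * v ≤ exp (-θ' * n) ^ 2 := by
      calc exp (2 * (θ - θ') * n) * v ≤ exp (2 * (θ - θ') * n) * exp (-2 * θ * n) := by (clear * - hvle; gcongr)
        _ = exp (-θ' * n) ^ 2 := by
          rw [← exp_add, ← exp_nat_mul]
          congr 1
          push_cast
          ring
    linarith only [h2]
  have e2 : log (√(2 * π * v)) = log (2 * π) / 2 + 1 / 2 * log v := by
    rw [log_sqrt (by (clear * - hv; positivity)), log_mul (by positivity) hv.ne']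
    ring
  rw [e2] at key
  have e3 : (2 : ℝ) ^ n * exp (-(exp (-θ' * n) ^ 2 / (4 * v))) ≤ exp (-1) := by
    have : (2 : ℝ) ^ n = exp (n * log 2) := by
      rw [mul_comm, exp_mul, exp_log (by norm_num), rpow_natCast]
    rw [this, ← exp_add]
    apply exp_le_exp.mpr
    linarith only [hg, e1]
  have e4 : exp (-1) ≤ log (2 * π) / 2 := by
    have h6 : exp (-1) ≤ 1 / 2 := by
      rw [exp_neg, one_div]
      apply inv_anti₀ (by norm_num)
      have := add_one_le_exp (1 : ℝ)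
      linarith only [this]
    have h7 : (1 : ℝ) ≤ log (2 * π) := by
      rw [le_log_iff_exp_le (by positivity)]
      have := exp_one_lt_d9
      have := pi_gt_three
      (clear θ θ' h hθ' hsep hsh hgrow n hs hh hg v hv hvle key hcard e1 e2 e3 h6; linarith)
    linarith only [h6, h7]
  linarith only [hh, key, e3, e4]

lemma params_num {b K Λ r W : ℝ} (hb0 : 0 < b) (hΛ0 : 0 ≤ Λ)
    (hKle : K ≤ 22 / 10 + Λ) (hble : b ≤ 557 / 100 + Λ) (h6 : 16 * (4 + Λ) ^ 2 ≤ r)
    (h5 : 727 / 1000 * r ≤ W) : 201 / 100 * K < 3 / (16 * b) * W := by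
  have h7 : 3 / (16 * b) * (727 / 1000 * (16 * (4 + Λ) ^ 2)) ≤ 3 / (16 * b) * W := by
    gcongr
    linarith only [h6, h5]
  refine lt_of_lt_of_le ?_ h7
  have h8 : 3 / (16 * b) * (727 / 1000 * (16 * (4 + Λ) ^ 2)) =
      (3 * (727 / 1000) * (4 + Λ) ^ 2) / b := by
    (clear * - hΛ0 hb0; field_simp)
  rw [h8, lt_div_iff₀ hb0]
  calc 201 / 100 * K * b ≤ 201 / 100 * (22 / 10 + Λ) * (557 / 100 + Λ) := by gcongr
    _ < 3 * (727 / 1000) * (4 + Λ) ^ 2 := by nlinarith only []

lemma exp_two_mul_le {l : ℝ} (hl : 0 < l) (hl1 : l ≤ 1 / 360) :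
    358 / 360 / l ≤ 2 / (exp (2 * l) - 1) := by
  have hE : 1 < exp (2 * l) := one_lt_exp_iff.mpr (by linarith only [hl])
  have hLc : (1 - 2 * l) / l ≤ 2 / (exp (2 * l) - 1) := by
    rw [div_le_div_iff₀ hl (by linarith only [hE])]
    have h1 : 1 - 2 * l ≤ exp (-(2 * l)) := by
      have := add_one_le_exp (-(2 * l)); linarith only [this]
    have h2 : exp (-(2 * l)) * exp (2 * l) = 1 := by
      rw [← exp_add, neg_add_cancel, exp_zero]
    linarith only [h2, mul_le_mul_of_nonneg_right h1 (exp_pos (2 * l)).le]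
  refine le_trans ?_ hLc
  gcongr
  linarith only [hl1]

/-- choice of the parameters -/
lemma params {l m h : ℝ} (hl : 0 < l) (hh : 0 < h) (hm : h ≤ m) (hh2 : h ≤ log 2)
    (hc : 16 * l * (4 + log (m / h)) ^ 2 ≤ h) :
    ∃ (J : ℕ) (b κ : ℝ), 0 < b ∧ 0 < κ ∧ κ < 1 ∧
      κ * (51 / 50 * m) < 51 / 50 * m - (J + 1) * l ∧
      201 / 100 * (-log κ) < 3 / (16 * b) * (2 / (exp (2 * l) - 1) *
        (99 / 100 * h - (51 / 50 * m - J * l)) - 32 * exp (-b) * J) := by
  have hm0 : 0 < m := lt_of_lt_of_le hh hm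
  set Λ := log (m / h) with hΛ
  have hΛ0 : 0 ≤ Λ := log_nonneg (by rw [le_div_iff₀ hh]; linarith only [hm])
  set θ1 := 51 / 50 * m with hθ1
  have hθ0 : 0 < θ1 := by positivity
  set Λ1 := log (θ1 / h) with hΛ1
  have hΛ1e : Λ1 = log (51 / 50) + Λ := by
    rw [hΛ1, hθ1, mul_div_assoc, log_mul (by norm_num) (by positivity)]
  have hlog51 : log (51 / 50 : ℝ) ≤ 1 / 50 := by
    have := log_le_sub_one_of_pos (show (0 : ℝ) < 51 / 50 by norm_num)
    linarith only [this]
  have hlog51' : 0 ≤ log (51 / 50 : ℝ) := log_nonneg (by norm_num)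
  have hl2 := log_two_lt_d9
  have hl2' := log_two_gt_d9
  have hlh : l ≤ h / 256 := by
    have : 16 * l * 16 ≤ h := by
      refine le_trans ?_ hc
      gcongr
      nlinarith only [hΛ0]
    linarith only [this]
  have hl1 : l ≤ 1 / 360 := by linarith only [hh2, hl2, hlh]
  set b := 8 * log 2 + Λ1 with hb
  have hb0 : 0 < b := by rw [hb, hΛ1e]; linarith only [hl, hh2, hΛ0, hlog51', hlh]
  set K := 3 * log 2 + Λ1 + 1 / 10 with hK
  have hK0 : 0 < K := by rw [hK, hΛ1e]; linarith only [hl, hh2, hΛ0, hlog51', hlh]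
  set κ := exp (-K) with hκ
  have hexpΛ : exp (-Λ1) = h / θ1 := by
    rw [exp_neg, hΛ1, exp_log (by positivity), inv_div]
  have hexpb : exp (-b) = h / (256 * θ1) := by
    have e1 : exp (-(8 * log 2)) = 1 / 256 := by
      rw [exp_neg, mul_comm, exp_mul, exp_log (by norm_num)]
      norm_num
    rw [hb, neg_add, exp_add, e1, hexpΛ]
    (clear * - hθ0 hh; field_simp)
  have hκθ : κ * θ1 < h / 8 := by
    have e1 : exp (-(3 * log 2)) = 1 / 8 := by
      rw [exp_neg, mul_comm, exp_mul, exp_log (by norm_num)]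
      norm_num
    have e2 : κ = 1 / 8 * (h / θ1) * exp (-(1 / 10)) := by
      rw [hκ, hK, ← e1, ← hexpΛ, ← exp_add, ← exp_add]
      congr 1
      ring
    have e3 : exp (-(1 / 10) : ℝ) < 1 := by
      rw [exp_lt_one_iff]; norm_num
    have e4 : 1 / 8 * (h / θ1) * exp (-(1 / 10)) * θ1 = h / 8 * exp (-(1 / 10)) := by
      (clear * - hθ0 hh; field_simp)
    rw [e2, e4]
    have : 0 < h / 8 := by positivity
    nlinarith only [hh, e3]
  -- the number of blocks
  set N := ⌊(θ1 - h / 8) / l⌋₊ with hN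
  have hx0 : 1 ≤ (θ1 - h / 8) / l := by
    rw [le_div_iff₀ hl]
    have : h ≤ θ1 := by rw [hθ1]; linarith only [hl, hm, hlh]
    linarith only [hl, hm, hθ1, hlh]
  have hN1 : 1 ≤ N := Nat.le_floor (by simpa only [Nat.cast_one] using hx0)
  have hNl : (N : ℝ) * l ≤ θ1 - h / 8 := by
    have := Nat.floor_le (show 0 ≤ (θ1 - h / 8) / l by linarith only [hx0])
    rwa [le_div_iff₀ hl] at this
  have hNu : θ1 - h / 8 < (N + 1) * l := by
    have := Nat.lt_floor_add_one ((θ1 - h / 8) / l)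
    rwa [div_lt_iff₀ hl] at this
  obtain ⟨J, hJ⟩ : ∃ J, N = J + 1 := ⟨N - 1, by omega⟩
  rw [hJ] at hNl hNu
  push_cast at hNl hNu
  refine ⟨J, b, κ, hb0, exp_pos _, ?_, ?_, ?_⟩
  · rw [hκ, exp_lt_one_iff]; linarith only [hl, hh2, hΛ0, hΛ1e, hlog51', hlh, hK]
  · linarith only [hκθ, hNl]
  · rw [hκ, log_exp, neg_neg]
    have hLc2 := exp_two_mul_le hl hl1
    have h3 : 857 / 1000 * h ≤ 99 / 100 * h - (θ1 - J * l) := by linarith only [hl, hlh, hNu]
    have h4 : 32 * exp (-b) * J ≤ 1 / 8 * (h / l) := by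
      rw [hexpb]
      have h5 : (J : ℝ) * l ≤ θ1 := by linarith only [hl, hlh, hNl]
      have h6 : 32 * (h / (256 * θ1)) * J = 1 / 8 * (h / l) * (J * l / θ1) := by
        field_simp
        ring
      rw [h6]
      have h7 : (J : ℝ) * l / θ1 ≤ 1 := by rw [div_le_one hθ0]; exact h5
      have h8 : 0 ≤ 1 / 8 * (h / l) := by positivity
      exact mul_le_of_le_one_right h8 h7
    have h5 : 727 / 1000 * (h / l) ≤ 2 / (exp (2 * l) - 1) * (99 / 100 * h - (θ1 - J * l)) -
        32 * exp (-b) * J := by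
      have h0' : 0 < 2 / (exp (2 * l) - 1) := lt_of_lt_of_le (by positivity) hLc2
      have h6 : 358 / 360 / l * (857 / 1000 * h) ≤
          2 / (exp (2 * l) - 1) * (99 / 100 * h - (θ1 - J * l)) :=
        mul_le_mul hLc2 h3 (by positivity) h0'.le
      have h7 : 358 / 360 / l * (857 / 1000 * h) = 358 / 360 * (857 / 1000) * (h / l) := by
        (clear * - hh hl; field_simp)
      rw [h7] at h6
      have h8 : 0 < h / l := by positivity
      linarith only [h4, h6, h8]
    have h6 : 16 * (4 + Λ) ^ 2 ≤ h / l := by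
      rw [le_div_iff₀ hl]; linarith only [hc]
    exact params_num hb0 hΛ0 (by rw [hK, hΛ1e]; linarith only [hlog51, hl2]) (by rw [hb, hΛ1e]; linarith only [hlog51, hl2]) h6 h5

/-- **Near-one criterion, general parameters.** -/
theorem bern_near {lam m h : ℝ} (h0 : 0 < lam) (h1 : lam < 1)
    (hsep : ∀ ε > 0, ∀ᶠ n : ℕ in atTop, ∀ e e' : Fin n → Bool, psum lam n e ≠ psum lam n e' →
      exp (-(m + ε) * n) ≤ |psum lam n e - psum lam n e'|)
    (hh : 0 < h) (hg : h ≤ garsiaEntropy lam)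
    (hc : 16 * (-log lam) * (4 + log (m / h)) ^ 2 ≤ h) : bernConv lam ≪ volume := by
  have hp := isProbabilityMeasure_bernConv h0 h1
  have hl : 0 < -log lam := by have := log_neg h0 h1; linarith only [this]
  set l := -log lam with hldef
  have hlam : lam = exp (-l) := by rw [hldef, neg_neg, exp_log h0]
  have hlm := le_of_sep h0 hsep
  rcases lt_or_ge m h with hmh | hmh
  · -- more entropy than separation: the first criterion applies
    refine bern_ac_gen h0 h1 hsep (h := h) (fun ε hε => ?_) ?_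
    · filter_upwards [entropy_ev lam hε] with n hn
      refine le_trans ?_ hn
      have : (0 : ℝ) ≤ n := Nat.cast_nonneg n
      nlinarith only [hg]
    · rw [← hldef] at hlm ⊢
      have h2 : 0 ≤ (1 - lam ^ 2) * (m + log lam) ^ 3 := by
        have h3 : 0 ≤ m + log lam := by rw [hldef] at hlm; linarith only [hlm]
        have h4 : 0 ≤ 1 - lam ^ 2 := by nlinarith only [h1, h0]
        (clear * - h4 h3; positivity)
      refine lt_of_lt_of_le ?_ h2
      have h3 : 0 < m := lt_of_lt_of_le hl hlm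
      have h4 : 0 < 6 * exp 1 * l * (h - m) * m ^ 2 := by
        have : 0 < h - m := by linarith only [hmh]
        (clear * - hl hmh h3; positivity)
      linarith only [h4]
  · obtain ⟨J, b, κ, hb, hκ0, hκ1, hk, hV⟩ := params hl hh hmh
      (hg.trans (garsia_le_log_two lam)) hc
    have hm0 : 0 < m := lt_of_lt_of_le hh hmh
    have hH := ent_pm_ge2 (lam := lam) (θ := 101 / 100 * m) (θ' := m + m / 200)
      (h := 99 / 100 * h) h0 h1 (by linarith only [hl, hlm]) (hsep (m / 200) (by positivity)) (by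
        filter_upwards [entropy_ev lam (show 0 < h / 100 by positivity)] with n hn
        refine le_trans ?_ hn
        have : (0 : ℝ) ≤ n := Nat.cast_nonneg n
        linarith only [mul_nonneg_of_nonpos_of_nonpos (Mathlib.Tactic.Linarith.sub_nonpos_of_le (Mathlib.Tactic.Linarith.natCast_nonneg ℝ n)) (Mathlib.Tactic.Linarith.sub_nonpos_of_le hg)])
    have hself := bernConv_self h0 h1
    rw [hlam] at hself hH hp ⊢
    have hround := round_step (μ := pm (exp (-l))) (ν := bernConv (exp (-l))) (l := l)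
      (a := 3 * π ^ 2 / (32 * b)) (b := b) (R := 1 / (1 - lam)) (h := 99 / 100 * h)
      (θ := 101 / 100 * m) (θ1 := 51 / 50 * m) (V := 201 / 100 * (-log κ)) (κ := κ) (J := J)
      hl hb rfl (fun n => by rw [← hlam]; exact ae_pm h0 h1 n) (fun n => hself n)
      (by linarith only [hl, hlm]) (by (clear * - hm0; positivity)) hκ0 hH hk hV
    have hpi := pi_pos
    obtain ⟨r0, hr0, hr⟩ := rounds hκ0 hκ1.le hround (by positivity)
    exact near_ac (κ := κ) (V := 201 / 100 * (-log κ)) (β := 201 / 100)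
      (q := J * (3 * π ^ 2 / (32 * b))) hκ0 hκ1 (by norm_num) le_rfl (by (clear * - hb; positivity))
      ⟨r0, hr0, hr⟩

lemma exp_neg_le_chord {a x : ℝ} (h0 : 0 ≤ x) (h1 : x ≤ 1) :
    exp (-(a * x)) ≤ 1 - (1 - exp (-a)) * x := by
  have h := convexOn_exp.2 (Set.mem_univ (0 : ℝ)) (Set.mem_univ (-a)) (sub_nonneg.mpr h1) h0
    (by ring)
  simp only [smul_eq_mul, mul_zero, zero_add, exp_zero, mul_one] at h
  have e : x * -a = -(a * x) := by ring
  rw [e] at h
  linarith

lemma one_sub_exp_ge {a c t : ℝ} (ha : 0 ≤ a) (hc : c ≤ 1 - exp (-a)) (ht : 0 ≤ t) :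
    c * min 1 t ≤ 1 - exp (-(a * t)) := by
  have h0 : 0 ≤ min 1 t := le_min zero_le_one ht
  have h1 := exp_neg_le_chord (a := a) h0 (min_le_left 1 t)
  have h2 : exp (-(a * t)) ≤ exp (-(a * min 1 t)) := by
    apply exp_le_exp.mpr
    have := mul_le_mul_of_nonneg_left (min_le_right 1 t) ha
    linarith
  have h3 : c * min 1 t ≤ (1 - exp (-a)) * min 1 t := mul_le_mul_of_nonneg_right hc h0
  linarith only [h1, h2, h3]

lemma neg_log_rhoM_ge {M : ℝ} (hM : 1 ≤ M) : 27 / 100 * min 1 (log M) ≤ -log (rhoM M) := by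
  have hM0 : 0 < M := by linarith
  have ht : 0 ≤ log M := log_nonneg hM
  have hrho : 0 < rhoM M := lt_of_lt_of_le (by norm_num) (rhoM_ge M)
  have e1 : (M ^ 2)⁻¹ = exp (-(2 * log M)) := by
    rw [exp_neg, mul_comm, exp_mul, exp_log hM0, rpow_two]
  have hexp2 : exp (-2 : ℝ) ≤ 136 / 1000 := by
    have h1 : exp (-2 : ℝ) = (exp 1 ^ 2)⁻¹ := by
      rw [← exp_nat_mul, ← exp_neg]; norm_num
    rw [h1, inv_le_comm₀ (by positivity) (by norm_num)]
    have := exp_one_gt_d9
    nlinarith only [this]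
  have hexp1 : exp (-1 : ℝ) ≤ 368 / 1000 := by
    rw [exp_neg, inv_le_comm₀ (by positivity) (by norm_num)]
    have := exp_one_gt_d9
    norm_num
    linarith only [this]
  set s := 1 - (M ^ 2)⁻¹ with hs
  have hs1 : 864 / 1000 * min 1 (log M) ≤ s := by
    rw [hs, e1]
    exact one_sub_exp_ge (by norm_num) (by linarith only [hexp2]) ht
  have hs0 : 0 ≤ s := by
    refine le_trans ?_ hs1
    have : 0 ≤ min 1 (log M) := le_min zero_le_one ht
    (clear * - ht; positivity)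
  have hs2 : s ≤ 1 := by rw [hs]; have : 0 < (M ^ 2)⁻¹ := by positivity
                         linarith only [this]
  have h2 : 632 / 1000 * s ≤ 1 - exp (-s) := by
    have := one_sub_exp_ge (a := 1) (c := 632 / 1000) (t := s) (by norm_num)
      (by linarith only [hexp1]) hs0
    rwa [min_eq_right hs2, one_mul] at this
  have h3 : 1 - rhoM M ≤ -log (rhoM M) := by
    have := log_le_sub_one_of_pos hrho
    linarith only [this]
  have h4 : 1 - rhoM M = (1 - exp (-s)) / 2 := by unfold rhoM; rw [← hs]; ring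
  have h5 : 0 ≤ min 1 (log M) := le_min zero_le_one ht
  linarith only [hs1, hs0, h2, h3, h4]

/-- **Near-one criterion in terms of the Mahler measure only.** -/
theorem bern_near_mahler {lam : ℝ} (h0 : 0 < lam) (h1 : lam < 1) {P : ℤ[X]} (hP : Irreducible P)
    (hlam : aeval lam P = 0)
    (hc : 1700 * (-log lam) * (1 + max 0 (log (log (mahler P)))) ^ 2 ≤ min 1 (log (mahler P))) :
    bernConv lam ≪ volume := by
  have hM := one_le_mahler hP.ne_zero
  have hl : 0 < -log lam := by have := log_neg h0 h1; linarith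
  set t := log (mahler P) with ht
  set x := max 0 (log t) with hx
  have hx0 : 0 ≤ x := le_max_left _ _
  have hmin : 0 < min 1 t := by
    refine lt_of_lt_of_le ?_ hc
    (clear * - hl; positivity)
  have ht0 : 0 < t := lt_of_lt_of_le hmin (min_le_right _ _)
  have hh : 0 < 27 / 100 * min 1 t := by (clear * - ht0; positivity)
  refine bern_near (m := t) (h := 27 / 100 * min 1 t) h0 h1
    (fun _ hε => sep_mahler hP.ne_zero hlam hε) hh
    ((neg_log_rhoM_ge hM).trans (garsia_ge hP hlam ((log_pos_iff (by linarith only [hM])).mp ht0))) ?_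
  have hlog : log (100 / 27 : ℝ) ≤ 4 / 3 := by
    rw [log_le_iff_le_exp (by norm_num)]
    have h2 : exp (4 / 3 : ℝ) = exp (1 / 3) ^ 4 := by rw [← exp_nat_mul]; norm_num
    have h3 : (1 : ℝ) + 1 / 3 + (1 / 3) ^ 2 / 2 ≤ exp (1 / 3) :=
      quadratic_le_exp_of_nonneg (by norm_num)
    rw [h2]
    calc (100 / 27 : ℝ) ≤ (1 + 1 / 3 + (1 / 3) ^ 2 / 2) ^ 4 := by norm_num
      _ ≤ exp (1 / 3) ^ 4 := by (clear * - h3; gcongr)
  have hmt : log (t / (27 / 100 * min 1 t)) ≤ 4 / 3 + x := by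
    have h4 : log (t / min 1 t) ≤ x := by
      rcases le_total t 1 with h | h
      · rw [min_eq_right h, div_self ht0.ne', log_one]
        exact hx0
      · rw [min_eq_left h, div_one]
        exact le_max_right _ _
    have h5 : t / (27 / 100 * min 1 t) = 100 / 27 * (t / min 1 t) := by (clear * - ht0; field_simp)
    rw [h5, log_mul (by norm_num) (by (clear * - ht0; positivity))]
    linarith only [hlog, h4]
  have hlow : 0 ≤ 4 + log (t / (27 / 100 * min 1 t)) := by
    have h6 : 1 ≤ t / (27 / 100 * min 1 t) := by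
      rw [le_div_iff₀ hh]
      have := min_le_right 1 t
      linarith only [ht0, this]
    have := log_nonneg h6
    linarith only [this]
  have h7 : (4 + log (t / (27 / 100 * min 1 t))) ^ 2 ≤ (16 / 3 * (1 + x)) ^ 2 := by
    apply pow_le_pow_left₀ hlow
    linarith only [hx0, hmt]
  calc 16 * (-log lam) * (4 + log (t / (27 / 100 * min 1 t))) ^ 2
      ≤ 16 * (-log lam) * (16 / 3 * (1 + x)) ^ 2 := by (clear * - h7 hl; gcongr)
    _ = 4096 / 9 / 1700 * (1700 * (-log lam) * (1 + x) ^ 2) := by ring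
    _ ≤ 4096 / 9 / 1700 * min 1 t := mul_le_mul_of_nonneg_left hc (by norm_num)
    _ ≤ 27 / 100 * min 1 t := mul_le_mul_of_nonneg_right (by norm_num) hmin.le

end Vale.Agent.P105
end
end

section

section

open MeasureTheory Real Filter Topology Polynomial
open scoped ENNReal

namespace Vale.Agent.P105

/-- the crude polynomial condition implies the criterion -/
lemma crude_cond {lam m h : ℝ} (h0 : 0 < lam) (h1 : lam < 1) (hm : -log lam ≤ m)
    (hc : 27 * (m - h) * m ^ 2 < lam ^ 4 * (m + log lam) ^ 3) :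
    6 * exp 1 * (-log lam) * (m - h) * m ^ 2 < (1 - lam ^ 2) * (m + log lam) ^ 3 := by
  have hl : 0 < -log lam := by have := log_neg h0 h1; linarith
  have hm0 : 0 < m := hl.trans_le hm
  have hlam2 : 0 < 1 - lam ^ 2 := by nlinarith only [h1, h0]
  have hlam20 : 0 < lam ^ 2 := by positivity
  have hd : 0 ≤ m + log lam := by linarith
  rcases lt_or_ge m h with hmh | hmh
  · have e1 : 6 * exp 1 * (-log lam) * (m - h) * m ^ 2 < 0 := by
      have : 0 < 6 * exp 1 * (-log lam) * (h - m) * m ^ 2 := by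
        have h3 : 0 < h - m := by linarith
        (clear * - hl hmh hm0; positivity)
      linarith only [this]
    have e2 : 0 ≤ (1 - lam ^ 2) * (m + log lam) ^ 3 := by (clear * - hlam2 hd; positivity)
    linarith only [e1, e2]
  · -- `ℓ ≤ (1 - lam ^ 2) / (2 * lam ^ 2)`
    have h2 : -log lam * (2 * lam ^ 2) ≤ 1 - lam ^ 2 := by
      have h3 := one_sub_inv_le_log_of_pos hlam20
      rw [log_pow] at h3
      push_cast at h3
      have h4 : lam ^ 2 * (1 - (lam ^ 2)⁻¹) ≤ lam ^ 2 * (2 * log lam) := by (clear * - h3 h0; gcongr)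
      rw [mul_sub, mul_inv_cancel₀ hlam20.ne'] at h4
      linarith only [h4]
    have he := exp_one_lt_d9
    have hk : 6 * exp 1 * (-log lam) * lam ^ 4 ≤ 27 * (1 - lam ^ 2) := by
      have h5 : 6 * exp 1 * (-log lam) * lam ^ 4 = 3 * exp 1 * lam ^ 2 *
          (-log lam * (2 * lam ^ 2)) := by ring
      rw [h5]
      have h6 : 3 * exp 1 * lam ^ 2 * (-log lam * (2 * lam ^ 2)) ≤
          3 * exp 1 * lam ^ 2 * (1 - lam ^ 2) := by (clear * - h2 h0; gcongr)
      have h7 : 3 * exp 1 * lam ^ 2 ≤ 27 := by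
        have : lam ^ 2 ≤ 1 := by linarith only [hlam2]
        nlinarith only [hlam2, he]
      have h8 : 3 * exp 1 * lam ^ 2 * (1 - lam ^ 2) ≤ 27 * (1 - lam ^ 2) := by (clear * - h7 hlam2; (clear * - h7 hlam2; gcongr))
      linarith only [h6, h8]
    have hlam4 : 0 < lam ^ 4 := by positivity
    have h9 : lam ^ 4 * (6 * exp 1 * (-log lam) * (m - h) * m ^ 2) <
        lam ^ 4 * ((1 - lam ^ 2) * (m + log lam) ^ 3) := by
      have hmh' : 0 ≤ m - h := by linarith only [hmh]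
      calc lam ^ 4 * (6 * exp 1 * (-log lam) * (m - h) * m ^ 2)
          = 6 * exp 1 * (-log lam) * lam ^ 4 * ((m - h) * m ^ 2) := by ring
        _ ≤ 27 * (1 - lam ^ 2) * ((m - h) * m ^ 2) := by (clear * - hk hmh hm0; gcongr)
        _ = (1 - lam ^ 2) * (27 * (m - h) * m ^ 2) := by ring
        _ < (1 - lam ^ 2) * (lam ^ 4 * (m + log lam) ^ 3) := by (clear * - hc hlam2; gcongr)
        _ = lam ^ 4 * ((1 - lam ^ 2) * (m + log lam) ^ 3) := by ring
    exact lt_of_mul_lt_mul_left h9 hlam4.le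

/-- The combined criterion: `m` bounds the separation rate, `h` is a lower bound for the entropy. -/
theorem bern_all {lam m h : ℝ} (h0 : 0 < lam) (h1 : lam < 1)
    (hsep : ∀ ε > 0, ∀ᶠ n : ℕ in atTop, ∀ e e' : Fin n → Bool, psum lam n e ≠ psum lam n e' →
      exp (-(m + ε) * n) ≤ |psum lam n e - psum lam n e'|)
    (hg : h ≤ garsiaEntropy lam)
    (hc : 27 * (m - h) * m ^ 2 < lam ^ 4 * (m - log lam⁻¹) ^ 3 ∨
      2 * exp 1 * log lam⁻¹ * (m - h) / ((1 - lam ^ 2) * m) <
        1 - (log lam⁻¹ / m) ^ 2 + 2 * (log lam⁻¹ / m) * log (log lam⁻¹ / m) ∨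
      (0 < h ∧ 16 * log lam⁻¹ * (4 + log (m / h)) ^ 2 ≤ h)) :
    bernConv lam ≪ volume := by
  have hm := le_of_sep h0 hsep
  have hent : ∀ ε > 0, ∀ᶠ n : ℕ in atTop, (h - ε) * n ≤ psumEntropy lam n := by
    intro ε hε
    filter_upwards [entropy_ev lam hε] with n hn
    refine le_trans ?_ hn
    have : (0 : ℝ) ≤ n := Nat.cast_nonneg n
    linarith only [mul_nonneg_of_nonpos_of_nonpos (Mathlib.Tactic.Linarith.sub_nonpos_of_le (Mathlib.Tactic.Linarith.natCast_nonneg ℝ n)) (Mathlib.Tactic.Linarith.sub_nonpos_of_le hg)]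
  rw [log_inv] at hc
  rcases hc with hc | hc | ⟨hh, hc⟩
  · rw [sub_neg_eq_add] at hc
    exact bern_ac_gen h0 h1 hsep hent (crude_cond h0 h1 hm hc)
  · exact bern_ac_gen2 h0 h1 hsep hent hc
  · exact bern_near h0 h1 hsep hh hg hc

lemma log_two_le_garsia {lam : ℝ}
    (hno : ∀ Q : ℤ[X], Q ≠ 0 → (∀ i, |Q.coeff i| ≤ 1) → aeval lam Q ≠ 0) :
    log 2 ≤ garsiaEntropy lam := by
  apply le_garsia
  refine Eventually.of_forall fun n => ?_
  rw [psumEntropy_of_inj (psum_inj hno n)]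
  linarith

end Vale.Agent.P105
end
end
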